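import Crest.Agent.X212.Dr59.Defs
import Crest.Agent.R208.T2a

/-!
# X212 / Dr59, part 2 (helper59): closed and exact forms on open sets, Mayer-Vietoris for forms

* `Sm I U a`, `Dg k U a`, `Cl I k U a`, `Ex I U a`, `Mp J I W U f`;
* `Cf I X W χ` : `χ` smooth on `X`, locally constant off `W`; `cut I χ w β = χ w + dχ β`;
* `exists_cut`, `mv_ex`, `mv_glue`, `mv_split`.
-/

set_option autoImplicit false
set_option linter.unusedSectionVars false

open Set Filter Topology Function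
open scoped ContDiff Manifold
open Crest.Agent.R208 Crest.Agent.R208.F Crest.Agent.R208.FI

noncomputable section

namespace Crest.Agent.X212.Dr59

variable {E : Type*} [NormedAddCommGroup E] [NormedSpace ℝ E] [FiniteDimensional ℝ E]
  {H : Type*} [TopologicalSpace H] {I : ModelWithCorners ℝ E H}
  {M : Type*} [TopologicalSpace M] [ChartedSpace H M]
  {E' : Type*} [NormedAddCommGroup E'] [NormedSpace ℝ E'] [FiniteDimensional ℝ E']
  {H' : Type*} [TopologicalSpace H'] {J : ModelWithCorners ℝ E' H'}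
  {N : Type*} [TopologicalSpace N] [ChartedSpace H' N]
  {E'' : Type*} [NormedAddCommGroup E''] [NormedSpace ℝ E''] [FiniteDimensional ℝ E'']
  {H'' : Type*} [TopologicalSpace H''] {K : ModelWithCorners ℝ E'' H''}
  {P : Type*} [TopologicalSpace P] [ChartedSpace H'' P]

variable (I) in
/-- smooth at the points of `U` -/
def Sm (U : Set M) (a : M → Ext E) : Prop := ∀ x ∈ U, SmAt I a x

/-- of degree `k` at the points of `U` -/
def Dg (k : ℕ) (U : Set M) (a : M → Ext E) : Prop := ∀ x ∈ U, IsDeg k (a x)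

variable (I) in
/-- closed forms of degree `k` on `U` -/
structure Cl (k : ℕ) (U : Set M) (a : M → Ext E) : Prop where
  sm : Sm I U a
  dg : Dg k U a
  cl : ∀ x ∈ U, dM I a x = 0

variable (I) in
/-- exact forms on `U` -/
def Ex (U : Set M) (a : M → Ext E) : Prop := ∃ b, Sm I U b ∧ ∀ x ∈ U, dM I b x = a x

/-- smooth maps `W → U` -/
structure Mp (J : ModelWithCorners ℝ E' H') (I : ModelWithCorners ℝ E H) (W : Set N) (U : Set M)
    (f : N → M) : Prop where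
  sm : ∀ y ∈ W, ContMDiffAt J I ∞ f y
  maps : MapsTo f W U

theorem Mp.id {U V : Set M} (h : U ⊆ V) : Mp I I U V id := ⟨fun _ _ => contMDiffAt_id, h⟩

theorem Mp.comp {S : Set P} {W : Set N} {U : Set M} {f : N → M} {g : P → N} (hf : Mp J I W U f)
    (hg : Mp K J S W g) : Mp K I S U (f ∘ g) :=
  ⟨fun z hz => (hf.sm _ (hg.maps hz)).comp z (hg.sm z hz), hf.maps.comp hg.maps⟩

theorem Mp.mono {W W' : Set N} {U U' : Set M} {f : N → M} (hf : Mp J I W U f) (h : W' ⊆ W)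
    (h' : U ⊆ U') : Mp J I W' U' f := ⟨fun y hy => hf.sm y (h hy), fun _ hy => h' (hf.maps (h hy))⟩

theorem Mp.of_contMDiff {f : N → M} (hf : ContMDiff J I ∞ f) {W : Set N} {U : Set M}
    (h : MapsTo f W U) : Mp J I W U f := ⟨fun y _ => hf y, h⟩

theorem Mp.const (W : Set N) {U : Set M} {c : M} (hc : c ∈ U) : Mp J I W U fun _ => c :=
  ⟨fun _ _ => contMDiffAt_const, fun _ _ => hc⟩

theorem ne0 : (∞ : WithTop ℕ∞) ≠ 0 := by simp

/-! ### degrees -/

section deg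

variable {k l : ℕ} {U V : Set M} {a b : M → Ext E}

theorem inv_of_deg {c : Ext E} (h : IsDeg k c) : F.inv c = (-1 : ℝ) ^ k • c := by
  refine T.ext_evA fun q => ?_
  rw [evA_inv, map_smul]
  by_cases hq : q = k
  · rw [hq]
  · rw [h q hq, smul_zero, smul_zero]

theorem isDeg_alg (r : ℝ) : IsDeg 0 (algebraMap ℝ (Ext E) r) := fun q hq => by
  obtain ⟨q, rfl⟩ := Nat.exists_eq_succ_of_ne_zero hq
  exact evA_succ_algebraMap q r

theorem isDeg_io (l : Module.Dual ℝ E) : IsDeg 1 (io l) := by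
  have h := (isDeg_alg (E := E) 1).io_mul l
  rwa [map_one, mul_one] at h

theorem eq_alg_of_deg {c : Ext E} (h : IsDeg 0 c) :
    c = algebraMap ℝ (Ext E) (evA E 0 c Fin.elim0) := by
  refine T.ext_evA fun q => ?_
  cases q with
  | zero =>
    ext v
    rw [evA_zero_algebraMap, Subsingleton.elim v Fin.elim0]
  | succ q => rw [h _ (by omega), evA_succ_algebraMap]

theorem Dg.zero : Dg k U (0 : M → Ext E) := fun _ _ => IsDeg.zero
theorem Dg.mono (h : Dg k U a) (hV : V ⊆ U) : Dg k V a := fun x hx => h x (hV hx)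
theorem Dg.add (h : Dg k U a) (h' : Dg k U b) : Dg k U (a + b) := fun x hx => (h x hx).add (h' x hx)
theorem Dg.smul (r : ℝ) (h : Dg k U a) : Dg k U (r • a) := fun x hx => (h x hx).smul r
theorem Dg.fsmul (g : M → ℝ) (h : Dg k U a) : Dg k U (g • a) := fun x hx => (h x hx).smul (g x)
theorem Dg.neg (h : Dg k U a) : Dg k U (-a) := by simpa using h.smul (-1)
theorem Dg.sub (h : Dg k U a) (h' : Dg k U b) : Dg k U (a - b) := by
  rw [sub_eq_add_neg]; exact h.add h'.neg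
theorem Dg.mul (h : Dg k U a) (h' : Dg l U b) : Dg (k + l) U (a * b) :=
  fun x hx => T.isDeg_mul (h x hx) (h' x hx)
theorem Dg.congr (h : Dg k U a) (e : EqOn b a U) : Dg k U b := fun x hx => (e hx).symm ▸ h x hx
theorem Dg.pm {W : Set N} {f : N → M} (h : Dg k U a) (hf : MapsTo f W U) : Dg k W (pm J I f a) :=
  fun _ hy => (h _ (hf hy)).pb _
theorem dg_fn (g : M → ℝ) : Dg 0 U (fn E g) := fun _ _ => isDeg_alg _
theorem dg_df (g : M → ℝ) : Dg 1 U (df I g) := fun _ _ => isDeg_io _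
theorem dg_sum {ι : Type*} {s : Finset ι} {c : ι → M → Ext E} (h : ∀ i ∈ s, Dg k U (c i)) :
    Dg k U (∑ i ∈ s, c i) := fun x hx => by
  rw [Finset.sum_apply]
  exact IsDeg.sum s fun i hi => h i hi x hx

end deg

variable [I.Boundaryless] [IsManifold I ∞ M] [J.Boundaryless] [IsManifold J ∞ N]
  {k l : ℕ} {U V W X : Set M} {a b c : M → Ext E}

theorem isDeg_dM {x : M} (h : ∀ᶠ y in 𝓝 x, IsDeg k (a y)) : IsDeg (k + 1) (dM I a x) :=
  IsDeg.d (((tendsto_chart_symm x).eventually h).mono fun _ hu => hu.pb _)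

theorem Dg.dM (hU : IsOpen U) (h : Dg k U a) : Dg (k + 1) U (dM I a) :=
  fun _ hx => isDeg_dM (eventually_of_mem (hU.mem_nhds hx) h)

/-- homogeneous component of a form -/
def dp (j : ℕ) (a : M → Ext E) (x : M) : Ext E := T.dpl j (a x)

theorem rp_dp (j : ℕ) (x : M) (a : M → Ext E) : rp I x (dp j a) = T.dp j (rp I x a) :=
  funext fun _ => (T.dpl_pb _ _ _).symm

theorem SmAt.dp (j : ℕ) {x : M} (h : SmAt I a x) : SmAt I (dp j a) x := by
  rw [SmAt, CAt, rp_dp]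
  exact (T.dplL (E := E) j).contDiff.contDiffAt.comp _ h

theorem dM_dp (j : ℕ) {x : M} (h : SmAt I a x) : dM I (dp j a) x = T.dpl (j + 1) (dM I a x) := by
  rw [dM, rp_dp, ← T.dp_d j (h.diff ne0)]
  rfl

/-! ### smooth forms -/

theorem Sm.zero : Sm I U (0 : M → Ext E) := fun _ _ => cAt_zero
theorem Sm.mono (h : Sm I U a) (hV : V ⊆ U) : Sm I V a := fun x hx => h x (hV hx)
theorem Sm.add (h : Sm I U a) (h' : Sm I U b) : Sm I U (a + b) := fun x hx => (h x hx).add (h' x hx)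
theorem Sm.sub (h : Sm I U a) (h' : Sm I U b) : Sm I U (a - b) := fun x hx => (h x hx).sub (h' x hx)
theorem Sm.mul (h : Sm I U a) (h' : Sm I U b) : Sm I U (a * b) := fun x hx => (h x hx).mul (h' x hx)
theorem Sm.neg (h : Sm I U a) : Sm I U (-a) := fun x hx => (h x hx).neg
theorem Sm.smul (r : ℝ) (h : Sm I U a) : Sm I U (r • a) := fun x hx => (h x hx).smul r
theorem Sm.inv (h : Sm I U a) : Sm I U fun y => F.inv (a y) := fun x hx => (h x hx).inv
theorem Sm.dM (h : Sm I U a) : Sm I U (dM I a) := fun x hx => (h x hx).dM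
theorem Sm.dp (j : ℕ) (h : Sm I U a) : Sm I U (dp j a) := fun x hx => (h x hx).dp j
theorem Sm.fsmul {g : M → ℝ} (hg : ∀ x ∈ U, ContMDiffAt I 𝓘(ℝ, ℝ) ∞ g x) (h : Sm I U a) :
    Sm I U (g • a) := fun x hx => (h x hx).fsmul le_rfl (hg x hx)
theorem Sm.congr (hU : IsOpen U) (h : Sm I U a) (e : EqOn b a U) : Sm I U b :=
  fun x hx => (h x hx).congr (eventually_of_mem (hU.mem_nhds hx) e)
theorem Sm.pm {S : Set N} {f : N → M} (h : Sm I U a) (hf : Mp J I S U f) : Sm J S (pm J I f a) :=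
  fun y hy => SmAt.pm (hf.sm y hy) (h _ (hf.maps hy))
theorem sm_sum {ι : Type*} {s : Finset ι} {e : ι → M → Ext E} (h : ∀ i ∈ s, Sm I U (e i)) :
    Sm I U (∑ i ∈ s, e i) := fun x hx => cAt_sum fun i hi => h i hi x hx
theorem sm_fn {g : M → ℝ} (hg : ∀ x ∈ U, ContMDiffAt I 𝓘(ℝ, ℝ) ∞ g x) : Sm I U (fn E g) :=
  fun x hx => cAt_fn le_rfl (hg x hx)
theorem sm_df {g : M → ℝ} (hg : ∀ x ∈ U, ContMDiffAt I 𝓘(ℝ, ℝ) ∞ g x) : Sm I U (df I g) :=
  fun x hx => smAt_df (hg x hx)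

theorem dM_eqOn (hU : IsOpen U) (e : EqOn a b U) : EqOn (dM I a) (dM I b) U :=
  fun _ hx => dM_congr (eventually_of_mem (hU.mem_nhds hx) e)

/-! ### closed forms -/

theorem Cl.zero : Cl I k U (0 : M → Ext E) := ⟨Sm.zero, Dg.zero, fun _ _ => by rw [dM_zero]; rfl⟩
theorem Cl.mono (h : Cl I k U a) (hV : V ⊆ U) : Cl I k V a :=
  ⟨h.sm.mono hV, h.dg.mono hV, fun x hx => h.cl x (hV hx)⟩
theorem Cl.add (h : Cl I k U a) (h' : Cl I k U b) : Cl I k U (a + b) :=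
  ⟨h.sm.add h'.sm, h.dg.add h'.dg, fun x hx => by
    rw [dM_add ne0 (h.sm x hx) (h'.sm x hx), h.cl x hx, h'.cl x hx, add_zero]⟩
theorem Cl.smul (r : ℝ) (h : Cl I k U a) : Cl I k U (r • a) :=
  ⟨h.sm.smul r, h.dg.smul r, fun x hx => by rw [dM_smul ne0 r (h.sm x hx), h.cl x hx, smul_zero]⟩
theorem Cl.neg (h : Cl I k U a) : Cl I k U (-a) := by simpa using h.smul (-1)
theorem Cl.sub (h : Cl I k U a) (h' : Cl I k U b) : Cl I k U (a - b) := by
  rw [sub_eq_add_neg]; exact h.add h'.neg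
theorem Cl.mul (h : Cl I k U a) (h' : Cl I l U b) : Cl I (k + l) U (a * b) :=
  ⟨h.sm.mul h'.sm, h.dg.mul h'.dg, fun x hx => by
    rw [dM_mul ne0 (h.sm x hx) (h'.sm x hx), h.cl x hx, h'.cl x hx, zero_mul, mul_zero, add_zero]⟩
theorem Cl.congr (hU : IsOpen U) (h : Cl I k U a) (e : EqOn b a U) : Cl I k U b :=
  ⟨h.sm.congr hU e, h.dg.congr e, fun x hx => (dM_eqOn hU e hx).trans (h.cl x hx)⟩
theorem Cl.pm {S : Set N} {f : N → M} (h : Cl I k U a) (hf : Mp J I S U f) :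
    Cl J k S (pm J I f a) :=
  ⟨h.sm.pm hf, h.dg.pm hf.maps, fun y hy => by
    rw [dM_pm ne0 (hf.sm y hy) (h.sm _ (hf.maps hy)), pm_apply, h.cl _ (hf.maps hy), map_zero]⟩
theorem cl_dM (hU : IsOpen U) (h : Sm I U a) (h' : Dg k U a) : Cl I (k + 1) U (dM I a) :=
  ⟨h.dM, h'.dM hU, fun x hx => (h x hx).dd⟩
theorem cl_df {g : M → ℝ} (hg : ∀ x ∈ U, ContMDiffAt I 𝓘(ℝ, ℝ) ∞ g x) : Cl I 1 U (df I g) :=
  ⟨sm_df hg, dg_df g, fun x hx => dM_df (hg x hx)⟩
theorem cl_one : Cl I 0 U (1 : M → Ext E) :=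
  ⟨fun _ _ => cAt_one, fun _ _ => by simpa using isDeg_alg (E := E) 1,
    fun _ _ => by rw [dM_one]; rfl⟩
theorem cl_sum {ι : Type*} {s : Finset ι} {e : ι → M → Ext E} (h : ∀ i ∈ s, Cl I k U (e i)) :
    Cl I k U (∑ i ∈ s, e i) :=
  ⟨sm_sum fun i hi => (h i hi).sm, dg_sum fun i hi => (h i hi).dg, fun x hx => by
    rw [dM_sum ne0 fun i hi => (h i hi).sm x hx]
    exact Finset.sum_eq_zero fun i hi => (h i hi).cl x hx⟩
/-- closedness is local -/
theorem cl_of_loc (h : ∀ x ∈ U, ∃ V, x ∈ V ∧ Cl I k V a) : Cl I k U a :=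
  ⟨fun x hx => by obtain ⟨V, hV, h⟩ := h x hx; exact h.sm x hV,
    fun x hx => by obtain ⟨V, hV, h⟩ := h x hx; exact h.dg x hV,
    fun x hx => by obtain ⟨V, hV, h⟩ := h x hx; exact h.cl x hV⟩

/-! ### exact forms -/

theorem Ex.congr (h : Ex I U a) (e : EqOn b a U) : Ex I U b := by
  obtain ⟨p, hp, hd⟩ := h
  exact ⟨p, hp, fun x hx => (hd x hx).trans (e hx).symm⟩
theorem Ex.zero : Ex I U (0 : M → Ext E) := ⟨0, Sm.zero, fun _ _ => by rw [dM_zero]⟩
theorem ex_of_zero (e : ∀ x ∈ U, a x = 0) : Ex I U a := Ex.zero.congr e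
theorem ex_dM (h : Sm I U a) : Ex I U (dM I a) := ⟨a, h, fun _ _ => rfl⟩
theorem ex_df {g : M → ℝ} (hg : ∀ x ∈ U, ContMDiffAt I 𝓘(ℝ, ℝ) ∞ g x) : Ex I U (df I g) :=
  ⟨fn E g, sm_fn hg, fun x hx => dM_fn ((hg x hx).mdifferentiableAt ne0)⟩
theorem Ex.mono (h : Ex I U a) (hV : V ⊆ U) : Ex I V a := by
  obtain ⟨p, hp, hd⟩ := h
  exact ⟨p, hp.mono hV, fun x hx => hd x (hV hx)⟩
theorem Ex.add (h : Ex I U a) (h' : Ex I U b) : Ex I U (a + b) := by
  obtain ⟨p, hp, hd⟩ := h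
  obtain ⟨q, hq, hd'⟩ := h'
  exact ⟨p + q, hp.add hq, fun x hx => by
    rw [dM_add ne0 (hp x hx) (hq x hx), hd x hx, hd' x hx]; rfl⟩
theorem Ex.smul (r : ℝ) (h : Ex I U a) : Ex I U (r • a) := by
  obtain ⟨p, hp, hd⟩ := h
  exact ⟨r • p, hp.smul r, fun x hx => by rw [dM_smul ne0 r (hp x hx), hd x hx]; rfl⟩
theorem Ex.neg (h : Ex I U a) : Ex I U (-a) := by simpa using h.smul (-1)
theorem Ex.sub (h : Ex I U a) (h' : Ex I U b) : Ex I U (a - b) := by
  rw [sub_eq_add_neg]; exact h.add h'.neg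
theorem Ex.symm (h : Ex I U (a - b)) : Ex I U (b - a) := by simpa using h.neg
theorem Ex.trans (h : Ex I U (a - b)) (h' : Ex I U (b - c)) : Ex I U (a - c) := by
  simpa using h.add h'
theorem ex_sum {ι : Type*} {s : Finset ι} {e : ι → M → Ext E} (h : ∀ i ∈ s, Ex I U (e i)) :
    Ex I U (∑ i ∈ s, e i) := by
  classical
  induction s using Finset.induction_on with
  | empty => exact Ex.zero
  | insert i s hi ih =>
    rw [Finset.sum_insert hi]
    exact (h i (by simp)).add (ih fun j hj => h j (by simp [hj]))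
theorem Ex.pm {S : Set N} {f : N → M} (h : Ex I U a) (hf : Mp J I S U f) : Ex J S (pm J I f a) := by
  obtain ⟨p, hp, hd⟩ := h
  exact ⟨_, hp.pm hf, fun y hy => (dM_pm ne0 (hf.sm y hy) (hp _ (hf.maps hy))).trans
    (pm_congr_right (hd _ (hf.maps hy)))⟩
theorem Ex.mul_cl (h : Ex I U a) (h' : Cl I l U b) : Ex I U (a * b) := by
  obtain ⟨p, hp, hd⟩ := h
  exact ⟨p * b, hp.mul h'.sm, fun x hx => by
    rw [dM_mul ne0 (hp x hx) (h'.sm x hx), hd x hx, h'.cl x hx, mul_zero, add_zero]; rfl⟩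
theorem Cl.mul_ex (h : Cl I k U a) (h' : Ex I U b) : Ex I U (a * b) := by
  obtain ⟨p, hp, hd⟩ := h'
  refine ⟨(-1 : ℝ) ^ k • (a * p), (h.sm.mul hp).smul _, fun x hx => ?_⟩
  rw [dM_smul ne0 _ ((h.sm.mul hp) x hx), dM_mul ne0 (h.sm x hx) (hp x hx), hd x hx, h.cl x hx,
    zero_mul, zero_add, inv_of_deg (h.dg x hx), smul_mul_assoc, smul_smul, ← mul_pow]
  simp
/-- a primitive of the right degree -/
theorem Ex.deg (h : Ex I U a) (h' : Dg (k + 1) U a) :
    ∃ b, Sm I U b ∧ Dg k U b ∧ ∀ x ∈ U, dM I b x = a x := by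
  obtain ⟨p, hp, hd⟩ := h
  exact ⟨dp k p, hp.dp k, fun _ _ => T.isDeg_dpl _ _, fun x hx => by
    rw [dM_dp k (hp x hx), hd x hx, T.dpl_of_isDeg (h' x hx)]⟩
theorem Ex.deg0 (h : Ex I U a) (h' : Dg 0 U a) {x : M} (hx : x ∈ U) : a x = 0 := by
  obtain ⟨p, _, hd⟩ := h
  rw [← T.dpl_of_isDeg (h' x hx), ← hd x hx]
  exact T.dp_zero_d _ _

/-! ### cut-off functions -/

variable (I) in
/-- `χ` is smooth on `X` and locally constant off `W` -/
structure Cf (X W : Set M) (χ : M → ℝ) : Prop where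
  sm : ∀ x ∈ X, ContMDiffAt I 𝓘(ℝ, ℝ) ∞ χ x
  lc : ∀ x ∈ X, x ∉ W → ∃ r : ℝ, χ =ᶠ[𝓝 x] fun _ => r

variable {χ : M → ℝ} {w β : M → Ext E}

theorem Cf.mono {X' W' : Set M} (h : Cf I X W χ) (hX : X' ⊆ X) (hW : W ∩ X' ⊆ W') :
    Cf I X' W' χ :=
  ⟨fun x hx => h.sm x (hX hx), fun x hx hw => h.lc x (hX hx) fun h' => hw (hW ⟨h', hx⟩)⟩

theorem Cf.df_zero (h : Cf I X W χ) {x : M} (hx : x ∈ X) (hw : x ∉ W) : df I χ =ᶠ[𝓝 x] 0 := by
  obtain ⟨r, hr⟩ := h.lc x hx hw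
  exact hr.eventually_nhds.mono fun _ hy => df_eq_zero hy

theorem Cf.df_mul_zero (h : Cf I X W χ) {x : M} (hx : x ∈ X) (hw : x ∉ W) (β : M → Ext E) :
    df I χ * β =ᶠ[𝓝 x] 0 :=
  (h.df_zero hx hw).mono fun y hy => by rw [Pi.mul_apply, hy]; exact zero_mul _

theorem Cf.sm_mul (h : Cf I X W χ) (hβ : Sm I W β) : Sm I X (df I χ * β) := fun x hx => by
  by_cases hw : x ∈ W
  · exact (smAt_df (h.sm x hx)).mul (hβ x hw)
  · exact cAt_zero.congr (h.df_mul_zero hx hw β)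

theorem Cf.d_mul (h : Cf I X W χ) (hβ : Sm I W β) {x : M} (hx : x ∈ X) :
    dM I (df I χ * β) x = -(df I χ x * dM I β x) := by
  by_cases hw : x ∈ W
  · rw [dM_mul ne0 (smAt_df (h.sm x hx)) (hβ x hw), dM_df (h.sm x hx), zero_mul, zero_add, df,
      inv_io, neg_mul]
  · rw [dM_congr (h.df_mul_zero hx hw β), (h.df_zero hx hw).self_of_nhds, dM_zero]
    simp

theorem Cf.dg_mul (h : Cf I X W χ) (hβ : Dg k W β) : Dg (k + 1) X (df I χ * β) := fun x hx => by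
  by_cases hw : x ∈ W
  · exact (hβ x hw).io_mul _
  · rw [(h.df_mul_zero hx hw β).self_of_nhds]
    exact IsDeg.zero

/-- the connecting form -/
theorem Cf.cl_mul (h : Cf I X W χ) (hβ : Cl I k W β) : Cl I (k + 1) X (df I χ * β) :=
  ⟨h.sm_mul hβ.sm, h.dg_mul hβ.dg, fun x hx => by
    rw [h.d_mul hβ.sm hx]
    by_cases hw : x ∈ W
    · rw [hβ.cl x hw, mul_zero, neg_zero]
    · rw [(h.df_zero hx hw).self_of_nhds]
      simp⟩

theorem Cf.ex_mul (h : Cf I X W χ) (hβ : Ex I W β) : Ex I X (df I χ * β) := by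
  obtain ⟨p, hp, hd⟩ := hβ
  refine ⟨-(df I χ * p), (h.sm_mul hp).neg, fun x hx => ?_⟩
  rw [dM_neg, Pi.neg_apply, h.d_mul hp hx, neg_neg, Pi.mul_apply]
  by_cases hw : x ∈ W
  · rw [hd x hw]
  · rw [(h.df_zero hx hw).self_of_nhds]
    simp

variable (I) in
/-- `χ w + dχ β`, which is `d (χ β)` where `dβ = w` -/
def cut (χ : M → ℝ) (w β : M → Ext E) : M → Ext E := χ • w + df I χ * β

theorem cut_apply (x : M) : cut I χ w β x = χ x • w x + df I χ x * β x := rfl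

theorem cut_eq_zero {x : M} (h : χ =ᶠ[𝓝 x] 0) : cut I χ w β x = 0 := by
  rw [cut_apply, df_eq_zero (c := 0) h, h.self_of_nhds]
  simp

theorem cut_eq_self {x : M} (h : χ =ᶠ[𝓝 x] 1) : cut I χ w β x = w x := by
  rw [cut_apply, df_eq_zero (c := 1) h, h.self_of_nhds]
  simp

theorem Cf.cl_cut (h : Cf I X W χ) (hw : Cl I (k + 1) X w) (hβ : Sm I W β) (hk : Dg k W β)
    (hd : ∀ x ∈ X, x ∈ W → dM I β x = w x) : Cl I (k + 1) X (cut I χ w β) :=
  ⟨(hw.sm.fsmul h.sm).add (h.sm_mul hβ), (hw.dg.fsmul χ).add (h.dg_mul hk), fun x hx => by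
    rw [cut, dM_add ne0 (hw.sm.fsmul h.sm x hx) (h.sm_mul hβ x hx), h.d_mul hβ hx,
      dM_fsmul ne0 ((h.sm x hx).mdifferentiableAt ne0) (hw.sm x hx), hw.cl x hx]
    by_cases hW : x ∈ W
    · rw [hd x hx hW]
      simp
    · rw [(h.df_zero hx hW).self_of_nhds]
      simp⟩

variable (I) in
/-- `χ` is smooth on `X` and vanishes near the points off `W` -/
structure Cz (X W : Set M) (χ : M → ℝ) : Prop where
  sm : ∀ x ∈ X, ContMDiffAt I 𝓘(ℝ, ℝ) ∞ χ x
  z : ∀ x ∈ X, x ∉ W → χ =ᶠ[𝓝 x] 0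

theorem Cz.cf (h : Cz I X W χ) : Cf I X W χ := ⟨h.sm, fun x hx hw => ⟨0, h.z x hx hw⟩⟩

theorem Cz.smul_zero (h : Cz I X W χ) {x : M} (hx : x ∈ X) (hw : x ∉ W) (β : M → Ext E) :
    χ • β =ᶠ[𝓝 x] 0 :=
  (h.z x hx hw).mono fun y hy => by rw [Pi.smul_apply', hy]; exact zero_smul _ _

theorem Cz.sm_smul (h : Cz I X W χ) (hβ : Sm I W β) : Sm I X (χ • β) := fun x hx => by
  by_cases hw : x ∈ W
  · exact (hβ x hw).fsmul le_rfl (h.sm x hx)
  · exact cAt_zero.congr (h.smul_zero hx hw β)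

theorem Cz.dg_smul (h : Cz I X W χ) (hβ : Dg k W β) : Dg k X (χ • β) := fun x hx => by
  by_cases hw : x ∈ W
  · exact (hβ x hw).smul _
  · rw [(h.smul_zero hx hw β).self_of_nhds]
    exact IsDeg.zero

theorem Cz.d_smul (h : Cz I X W χ) (hβ : Sm I W β) (hd : ∀ x ∈ X, x ∈ W → dM I β x = w x)
    {x : M} (hx : x ∈ X) : dM I (χ • β) x = cut I χ w β x := by
  by_cases hw : x ∈ W
  · rw [dM_fsmul ne0 ((h.sm x hx).mdifferentiableAt ne0) (hβ x hw), hd x hx hw, cut_apply, add_comm]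
  · rw [dM_congr (h.smul_zero hx hw β), cut_eq_zero (h.z x hx hw), dM_zero]
    rfl

theorem Cz.ex_cut (h : Cz I X W χ) (hβ : Sm I W β) (hd : ∀ x ∈ X, x ∈ W → dM I β x = w x) :
    Ex I X (cut I χ w β) := ⟨_, h.sm_smul hβ, fun _ hx => h.d_smul hβ hd hx⟩

theorem df_add {f g : M → ℝ} {x : M} (hf : ContMDiffAt I 𝓘(ℝ, ℝ) ∞ f x)
    (hg : ContMDiffAt I 𝓘(ℝ, ℝ) ∞ g x) : df I (f + g) x = df I f x + df I g x := by
  have e : fn E (f + g) = fn E f + fn E g := funext fun _ => map_add _ _ _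
  rw [← dM_fn ((hf.add hg).mdifferentiableAt ne0), e,
    dM_add ne0 (cAt_fn le_rfl hf) (cAt_fn le_rfl hg), dM_fn (hf.mdifferentiableAt ne0),
    dM_fn (hg.mdifferentiableAt ne0)]

theorem df_sub {f g : M → ℝ} {x : M} (hf : ContMDiffAt I 𝓘(ℝ, ℝ) ∞ f x)
    (hg : ContMDiffAt I 𝓘(ℝ, ℝ) ∞ g x) : df I (f - g) x = df I f x - df I g x := by
  have e : fn E (f - g) = fn E f - fn E g := funext fun _ => map_sub _ _ _
  rw [← dM_fn (g := f - g) ((hf.sub hg).mdifferentiableAt ne0), e,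
    dM_sub ne0 (cAt_fn le_rfl hf) (cAt_fn le_rfl hg), dM_fn (hf.mdifferentiableAt ne0),
    dM_fn (hg.mdifferentiableAt ne0)]

theorem df_one_sub {g : M → ℝ} {x : M} (hg : ContMDiffAt I 𝓘(ℝ, ℝ) ∞ g x) :
    df I (1 - g) x = -df I g x := by
  rw [df_sub (f := 1) contMDiffAt_const hg, df_eq_zero (g := 1) (c := 1) EventuallyEq.rfl, zero_sub]

variable (I) in
/-- a cut-off function for the cover `U, V` : zero near `V ∖ U`, one near `U ∖ V` -/
structure Cut (U V : Set M) (χ : M → ℝ) : Prop where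
  sm : ∀ x ∈ U ∪ V, ContMDiffAt I 𝓘(ℝ, ℝ) ∞ χ x
  z : ∀ x ∈ V, x ∉ U → χ =ᶠ[𝓝 x] 0
  o : ∀ x ∈ U, x ∉ V → χ =ᶠ[𝓝 x] 1

theorem Cut.czV (h : Cut I U V χ) : Cz I V (U ∩ V) χ :=
  ⟨fun x hx => h.sm x (Or.inr hx), fun x hx hw => h.z x hx fun h' => hw ⟨h', hx⟩⟩

theorem Cut.czU (h : Cut I U V χ) : Cz I U (U ∩ V) (1 - χ) :=
  ⟨fun x hx => contMDiffAt_const.sub (h.sm x (Or.inl hx)), fun x hx hw =>
    (h.o x hx fun h' => hw ⟨hx, h'⟩).mono fun y hy => by simp [hy]⟩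

theorem Cut.cf (h : Cut I U V χ) : Cf I (U ∪ V) (U ∩ V) χ :=
  ⟨h.sm, fun x hx hw => by
    rcases hx with hx | hx
    · exact ⟨1, h.o x hx fun h' => hw ⟨hx, h'⟩⟩
    · exact ⟨0, h.z x hx fun h' => hw ⟨h', hx⟩⟩⟩

theorem exists_cut [T2Space M] [SigmaCompactSpace M] (hU : IsOpen U) (hV : IsOpen V) :
    ∃ χ, Cut I U V χ := by
  obtain ⟨f, fs, fd, f0⟩ := hU.exists_contMDiff_support_eq I (n := ⊤)
  obtain ⟨g, gs, gd, g0⟩ := hV.exists_contMDiff_support_eq I (n := ⊤)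
  have pos : ∀ x ∈ U ∪ V, f x + g x ≠ 0 := fun x hx => by
    rcases hx with hx | hx
    · exact (add_pos_of_pos_of_nonneg ((f0 x).lt_of_ne' (by rwa [← fs] at hx)) (g0 x)).ne'
    · exact (add_pos_of_nonneg_of_pos (f0 x) ((g0 x).lt_of_ne' (by rwa [← gs] at hx))).ne'
  have sm : ∀ x ∈ U ∪ V, ContMDiffAt I 𝓘(ℝ, ℝ) ∞ (fun y => 3 * (f y / (f y + g y)) - 1) x :=
    fun x hx => (contMDiffAt_const.mul ((fd x).div₀ ((fd x).add (gd x)) (pos x hx))).sub
      contMDiffAt_const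
  refine ⟨fun y => Real.smoothTransition (3 * (f y / (f y + g y)) - 1), fun x hx =>
    (Real.smoothTransition.contDiff.contMDiff _).comp x (sm x hx), fun x hx hx' => ?_,
    fun x hx hx' => ?_⟩
  · have h0 : f x = 0 := by rwa [← fs, mem_support, not_not] at hx'
    filter_upwards [(sm x (Or.inr hx)).continuousAt.eventually (gt_mem_nhds (a := 0)
      (by simp [h0]))] with y hy
    exact Real.smoothTransition.zero_of_nonpos hy.le
  · have h0 : g x = 0 := by rwa [← gs, mem_support, not_not] at hx'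
    have h1 : f x ≠ 0 := by simpa [h0] using pos x (Or.inl hx)
    filter_upwards [(sm x (Or.inl hx)).continuousAt.eventually (lt_mem_nhds (a := 1)
      (by simp only [h0, add_zero, div_self h1]; norm_num))] with y hy
    exact Real.smoothTransition.one_of_one_le hy.le

/-! ### gluing -/

open Classical in
/-- `a` on `U`, `b` elsewhere -/
def glue {Y : Type*} (U : Set M) (a b : M → Y) (x : M) : Y := if x ∈ U then a x else b x

theorem glue_left {Y : Type*} {a b : M → Y} : EqOn (glue U a b) a U := fun _ hx => if_pos hx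

theorem glue_right {Y : Type*} {a b : M → Y} (h : EqOn a b (U ∩ V)) : EqOn (glue U a b) b V :=
  fun x hx => by
    by_cases hU : x ∈ U
    · exact (glue_left hU).trans (h ⟨hU, hx⟩)
    · exact if_neg hU

theorem sm_glue (hU : IsOpen U) (hV : IsOpen V) (ha : Sm I U a) (hb : Sm I V b)
    (h : EqOn a b (U ∩ V)) : Sm I (U ∪ V) (glue U a b) := fun x hx =>
  hx.elim (ha.congr hU glue_left x) (hb.congr hV (glue_right h) x)

theorem cl_glue (hU : IsOpen U) (hV : IsOpen V) (ha : Cl I k U a) (hb : Cl I k V b)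
    (h : EqOn a b (U ∩ V)) : Cl I k (U ∪ V) (glue U a b) :=
  cl_of_loc fun _ hx => hx.elim (fun hx => ⟨U, hx, ha.congr hU glue_left⟩)
    fun hx => ⟨V, hx, hb.congr hV (glue_right h)⟩

theorem ex_glue (hU : IsOpen U) (hV : IsOpen V) {p q : M → Ext E} (hp : Sm I U p) (hq : Sm I V q)
    (h : EqOn p q (U ∩ V)) (dp : ∀ x ∈ U, dM I p x = a x) (dq : ∀ x ∈ V, dM I q x = a x) :
    Ex I (U ∪ V) a :=
  ⟨glue U p q, sm_glue hU hV hp hq h, fun x hx => hx.elim
    (fun hx => (dM_eqOn hU glue_left hx).trans (dp x hx))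
    fun hx => (dM_eqOn hV (glue_right h) hx).trans (dq x hx)⟩

/-! ### Mayer-Vietoris -/

theorem Cut.d_split (h : Cut I U V χ) {e : M → Ext E} (he : Sm I (U ∩ V) e) {x : M}
    (hx : x ∈ U ∩ V) : dM I ((1 - χ) • e) x + dM I (χ • e) x = dM I e x := by
  rw [← dM_add ne0 (h.czU.sm_smul he x hx.1) (h.czV.sm_smul he x hx.2), ← add_smul,
    sub_add_cancel, one_smul]

/-- exactness at `H(U ∪ V)`, in terms of primitives -/
theorem mv_ex (hU : IsOpen U) (hV : IsOpen V) (h : Cut I U V χ) {p q s t : M → Ext E}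
    (hp : Sm I U p) (hq : Sm I V q) (dp : ∀ x ∈ U, dM I p x = a x) (dq : ∀ x ∈ V, dM I q x = a x)
    (hs : Cl I k U s) (ht : Cl I k V t) (hx : Ex I (U ∩ V) (p - q - (s - t))) :
    Ex I (U ∪ V) a := by
  obtain ⟨e, he, de⟩ := hx
  have e1 := h.czU.sm_smul he
  have e2 := h.czV.sm_smul he
  refine ex_glue hU hV ((hp.sub hs.sm).sub e1.dM) ((hq.sub ht.sm).add e2.dM) (fun x hx => ?_)
    (fun x hx => ?_) fun x hx => ?_
  · have h1 := h.d_split he hx
    rw [de x hx] at h1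
    simp only [Pi.sub_apply, Pi.add_apply] at h1 ⊢
    rw [eq_sub_of_add_eq h1]
    abel
  · rw [dM_sub ne0 (hp.sub hs.sm x hx) (e1.dM x hx), dM_sub ne0 (hp x hx) (hs.sm x hx),
      (e1 x hx).dd, hs.cl x hx, dp x hx, sub_zero, sub_zero]
  · rw [dM_add ne0 (hq.sub ht.sm x hx) (e2.dM x hx), dM_sub ne0 (hq x hx) (ht.sm x hx),
      (e2 x hx).dd, ht.cl x hx, dq x hx, sub_zero, add_zero]

/-- exactness at `H(U) ⊕ H(V)` -/
theorem mv_glue (hU : IsOpen U) (hV : IsOpen V) (h : Cut I U V χ) (ha : Cl I k U a)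
    (hb : Cl I k V b) (hx : Ex I (U ∩ V) (a - b)) :
    ∃ c, Cl I k (U ∪ V) c ∧ Ex I U (c - a) ∧ Ex I V (c - b) := by
  have hd : Dg k (U ∩ V) (a - b) := (ha.dg.mono inter_subset_left).sub (hb.dg.mono inter_subset_right)
  cases k with
  | zero =>
    have e : EqOn a b (U ∩ V) := fun x hx' => sub_eq_zero.1 (hx.deg0 hd hx')
    exact ⟨_, cl_glue hU hV ha hb e, ex_of_zero fun x hx => sub_eq_zero.2 (glue_left hx),
      ex_of_zero fun x hx => sub_eq_zero.2 (glue_right e hx)⟩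
  | succ k =>
    obtain ⟨e, he, hk, de⟩ := hx.deg hd
    have e1 := h.czU.sm_smul he
    have e2 := h.czV.sm_smul he
    have e3 : EqOn (a - dM I ((1 - χ) • e)) (b + dM I (χ • e)) (U ∩ V) := fun x hx => by
      have h1 := h.d_split he hx
      rw [de x hx] at h1
      simp only [Pi.sub_apply, Pi.add_apply] at h1 ⊢
      rw [eq_sub_of_add_eq h1]
      abel
    refine ⟨_, cl_glue hU hV (ha.sub (cl_dM hU e1 (h.czU.dg_smul hk)))
      (hb.add (cl_dM hV e2 (h.czV.dg_smul hk))) e3, (ex_dM e1).neg.congr fun x hx => ?_,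
      (ex_dM e2).congr fun x hx => ?_⟩
    · rw [Pi.sub_apply, glue_left hx]
      simp
    · rw [Pi.sub_apply, glue_right e3 hx]
      simp

theorem Cut.d_right (h : Cut I U V χ) {e : M → Ext E} (he : Cl I k (U ∩ V) e) {x : M}
    (hx : x ∈ V) : dM I (χ • e) x = (df I χ * e) x := by
  rw [h.czV.d_smul (w := 0) he.sm (fun y _ hy => he.cl y hy) hx, cut_apply]
  simp

theorem Cut.d_left (h : Cut I U V χ) {e : M → Ext E} (he : Cl I k (U ∩ V) e) {x : M}
    (hx : x ∈ U) : dM I (-((1 - χ) • e)) x = (df I χ * e) x := by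
  rw [dM_neg, Pi.neg_apply, h.czU.d_smul (w := 0) he.sm (fun y _ hy => he.cl y hy) hx, cut_apply,
    df_one_sub (h.sm x (Or.inl hx))]
  simp

/-- exactness at `H(U ∩ V)` -/
theorem mv_split (h : Cut I U V χ) {e : M → Ext E} (he : Cl I k (U ∩ V) e)
    (hx : Ex I (U ∪ V) (df I χ * e)) :
    ∃ s t, Cl I k U s ∧ Cl I k V t ∧ EqOn e (s - t) (U ∩ V) := by
  obtain ⟨p, hp, hk, dp⟩ := hx.deg (h.cf.dg_mul he.dg)
  have e1 := (h.czU.sm_smul he.sm).neg
  have e2 := h.czV.sm_smul he.sm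
  refine ⟨p - -((1 - χ) • e), p - χ • e, ⟨(hp.mono subset_union_left).sub e1,
    (hk.mono subset_union_left).sub (h.czU.dg_smul he.dg).neg, fun x hx => ?_⟩,
    ⟨(hp.mono subset_union_right).sub e2, (hk.mono subset_union_right).sub (h.czV.dg_smul he.dg),
      fun x hx => ?_⟩, fun x _ => ?_⟩
  · rw [dM_sub ne0 (hp x (Or.inl hx)) (e1 x hx), dp x (Or.inl hx), h.d_left he hx, sub_self]
  · rw [dM_sub ne0 (hp x (Or.inr hx)) (e2 x hx), dp x (Or.inr hx), h.d_right he hx, sub_self]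
  · simp only [Pi.sub_apply, Pi.neg_apply, Pi.smul_apply', sub_smul, one_smul]
    abel

/-- a closed form which is exact on `U` and on `V` is a connecting form -/
theorem mv_conn (hU : IsOpen U) (hV : IsOpen V) (h : Cut I U V χ) (ha : Dg (k + 1) (U ∪ V) a)
    (h1 : Ex I U a) (h2 : Ex I V a) :
    ∃ e, Cl I k (U ∩ V) e ∧ Ex I (U ∪ V) (a - df I χ * e) := by
  obtain ⟨p, hp, kp, dp⟩ := h1.deg (ha.mono subset_union_left)
  obtain ⟨q, hq, kq, dq⟩ := h2.deg (ha.mono subset_union_right)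
  have he : Cl I k (U ∩ V) (q - p) := ⟨(hq.mono inter_subset_right).sub (hp.mono inter_subset_left),
    (kq.mono inter_subset_right).sub (kp.mono inter_subset_left), fun x hx => by
      rw [dM_sub ne0 (hq x hx.2) (hp x hx.1), dp x hx.1, dq x hx.2, sub_self]⟩
  have e1 := (h.czU.sm_smul he.sm).neg
  have e2 := h.czV.sm_smul he.sm
  refine ⟨q - p, he, ex_glue hU hV (hp.sub e1) (hq.sub e2) (fun x _ => ?_) (fun x hx => ?_)
    fun x hx => ?_⟩
  · simp only [Pi.sub_apply, Pi.neg_apply, Pi.smul_apply', sub_smul, one_smul]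
    abel
  · rw [dM_sub ne0 (hp x hx) (e1 x hx), dp x hx, h.d_left he hx]
    rfl
  · rw [dM_sub ne0 (hq x hx) (e2 x hx), dq x hx, h.d_right he hx]
    rfl

/-- the connecting form of a difference of restrictions is exact -/
theorem mv_conn_ex (hU : IsOpen U) (hV : IsOpen V) (h : Cut I U V χ) {e s t : M → Ext E}
    (he : Cl I k (U ∩ V) e) (hs : Cl I k U s) (ht : Cl I k V t)
    (hx : Ex I (U ∩ V) (e - (t - s))) : Ex I (U ∪ V) (df I χ * e) := by
  refine mv_ex hU hV h (h.czU.sm_smul he.sm).neg (h.czV.sm_smul he.sm)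
    (fun x hx => h.d_left he hx) (fun x hx => h.d_right he hx) hs ht (hx.neg.congr fun x _ => ?_)
  simp only [Pi.sub_apply, Pi.neg_apply, Pi.smul_apply', sub_smul, one_smul]
  abel

end Crest.Agent.X212.Dr59
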