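import Crest.Agent.X212.Dr59.Coh

/-!
# X212 / Dr59, part 3 (helper59): de Rham cohomology of open sets, the Mayer-Vietoris sequence

* `HR I k U`, `Cl.cls`, `HR.lift`, `HR.map`, `Mp.st`, `res`, `cup`, `Cut.dl`;
* `HZ I k U` (closed forms of degree `k` are exact), `Bd I k U n` (dimension at most `n`),
  `C0 I U` (closed forms of degree zero are constant);
* `mv_ker`, `mv_mid`, `mv_int`, `dl_res`; `HZ.union`, `HZ.union1`, `Bd.union`, `res_inj`.
-/

set_option autoImplicit false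
set_option linter.unusedSectionVars false
set_option linter.style.haveILetI false

open Set Filter Topology Function Module
open scoped ContDiff Manifold
open Crest.Agent.R208 Crest.Agent.R208.F Crest.Agent.R208.FI

noncomputable section

namespace Crest.Agent.X212.Dr59

variable {E : Type*} [NormedAddCommGroup E] [NormedSpace ℝ E] [FiniteDimensional ℝ E]
  {H : Type*} [TopologicalSpace H] {I : ModelWithCorners ℝ E H}
  {M : Type*} [TopologicalSpace M] [ChartedSpace H M] [I.Boundaryless] [IsManifold I ∞ M]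
  {E' : Type*} [NormedAddCommGroup E'] [NormedSpace ℝ E'] [FiniteDimensional ℝ E']
  {H' : Type*} [TopologicalSpace H'] {J : ModelWithCorners ℝ E' H'}
  {N : Type*} [TopologicalSpace N] [ChartedSpace H' N] [J.Boundaryless] [IsManifold J ∞ N]
  {E'' : Type*} [NormedAddCommGroup E''] [NormedSpace ℝ E''] [FiniteDimensional ℝ E'']
  {H'' : Type*} [TopologicalSpace H''] {K : ModelWithCorners ℝ E'' H''}
  {P : Type*} [TopologicalSpace P] [ChartedSpace H'' P] [K.Boundaryless] [IsManifold K ∞ P]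

variable (I) in
/-- closed forms -/
def Z (k : ℕ) (U : Set M) : Submodule ℝ (M → Ext E) where
  carrier := {a | Cl I k U a}
  add_mem' := Cl.add
  zero_mem' := Cl.zero
  smul_mem' r _ h := Cl.smul r h

variable (I) in
/-- exact forms -/
def B (U : Set M) : Submodule ℝ (M → Ext E) where
  carrier := {a | Ex I U a}
  add_mem' := Ex.add
  zero_mem' := Ex.zero
  smul_mem' r _ h := Ex.smul r h

variable (I) in
/-- de Rham cohomology of `U` in degree `k` -/
def HR (k : ℕ) (U : Set M) : Type _ := Z I k U ⧸ (B I U).comap (Z I k U).subtype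

instance (k : ℕ) (U : Set M) : AddCommGroup (HR I k U) :=
  inferInstanceAs (AddCommGroup (Z I k U ⧸ (B I U).comap (Z I k U).subtype))

instance (k : ℕ) (U : Set M) : Module ℝ (HR I k U) :=
  inferInstanceAs (Module ℝ (Z I k U ⧸ (B I U).comap (Z I k U).subtype))

variable {k l : ℕ} {U V W X : Set M} {a b : M → Ext E} {χ : M → ℝ}

variable (I k U) in
/-- the class of a closed form, as a linear map -/
def clsL : Z I k U →ₗ[ℝ] HR I k U := Submodule.mkQ _

/-- the class of a closed form -/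
def Cl.cls (h : Cl I k U a) : HR I k U := clsL I k U ⟨a, h⟩

theorem cls_eq {h : Cl I k U a} {h' : Cl I k U b} : h.cls = h'.cls ↔ Ex I U (a - b) :=
  Submodule.Quotient.eq _

theorem cls_eq_zero {h : Cl I k U a} : h.cls = 0 ↔ Ex I U a := Submodule.Quotient.mk_eq_zero _

theorem exists_cls (x : HR I k U) : ∃ (a : M → Ext E) (h : Cl I k U a), h.cls = x := by
  obtain ⟨⟨a, h⟩, e⟩ := Submodule.mkQ_surjective _ x
  exact ⟨a, h, e⟩

theorem cls_add (h : Cl I k U a) (h' : Cl I k U b) : (h.add h').cls = h.cls + h'.cls :=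
  map_add (clsL I k U) ⟨a, h⟩ ⟨b, h'⟩
theorem cls_sub (h : Cl I k U a) (h' : Cl I k U b) : (h.sub h').cls = h.cls - h'.cls :=
  map_sub (clsL I k U) ⟨a, h⟩ ⟨b, h'⟩
theorem cls_neg (h : Cl I k U a) : h.neg.cls = -h.cls := map_neg (clsL I k U) ⟨a, h⟩
theorem cls_smul (r : ℝ) (h : Cl I k U a) : (h.smul r).cls = r • h.cls :=
  map_smul (clsL I k U) r ⟨a, h⟩
theorem cls_zero : (Cl.zero : Cl I k U 0).cls = 0 := map_zero (clsL I k U)
theorem cls_sum {ι : Type*} {s : Finset ι} {e : ι → M → Ext E} (h : ∀ i, Cl I k U (e i)) :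
    (cl_sum (s := s) fun i _ => h i).cls = ∑ i ∈ s, (h i).cls := by
  have := _root_.map_sum (clsL I k U) (fun i => ⟨e i, h i⟩) s
  refine Eq.trans (congrArg (clsL I k U) (Subtype.ext ?_)) this
  simp
theorem cls_congr {h : Cl I k U a} {h' : Cl I k U b} (e : EqOn a b U) : h.cls = h'.cls :=
  cls_eq.2 (ex_of_zero fun _ hx => sub_eq_zero.2 (e hx))

/-- linear maps on cohomology -/
def HR.lift {Y : Type*} [AddCommGroup Y] [Module ℝ Y] (f : Z I k U →ₗ[ℝ] Y)
    (hf : ∀ a : Z I k U, Ex I U a.1 → f a = 0) : HR I k U →ₗ[ℝ] Y :=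
  Submodule.liftQ _ f hf

theorem HR.lift_cls {Y : Type*} [AddCommGroup Y] [Module ℝ Y] (f : Z I k U →ₗ[ℝ] Y)
    (hf : ∀ a : Z I k U, Ex I U a.1 → f a = 0) (h : Cl I k U a) :
    HR.lift f hf h.cls = f ⟨a, h⟩ := rfl

/-- the map induced by a linear map of forms -/
def HR.map {S : Set N} (f : (M → Ext E) →ₗ[ℝ] (N → Ext E'))
    (h1 : ∀ a, Cl I k U a → Cl J l S (f a)) (h2 : ∀ a, Cl I k U a → Ex I U a → Ex J S (f a)) :
    HR I k U →ₗ[ℝ] HR J l S :=
  HR.lift ((clsL J l S).comp (f.restrict h1)) fun a ha => cls_eq_zero.2 (h2 a a.2 ha)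

theorem HR.map_cls {S : Set N} (f : (M → Ext E) →ₗ[ℝ] (N → Ext E'))
    (h1 : ∀ a, Cl I k U a → Cl J l S (f a)) (h2 : ∀ a, Cl I k U a → Ex I U a → Ex J S (f a))
    (h : Cl I k U a) : HR.map f h1 h2 h.cls = (h1 a h).cls := rfl

/-- pull-back as a linear map -/
def pmL (J : ModelWithCorners ℝ E' H') (I : ModelWithCorners ℝ E H) (f : N → M) :
    (M → Ext E) →ₗ[ℝ] (N → Ext E') where
  toFun := pm J I f
  map_add' := pm_add f
  map_smul' := pm_smul f

/-- pull-back in cohomology -/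
def Mp.st {S : Set N} {f : N → M} (hf : Mp J I S U f) (k : ℕ) : HR I k U →ₗ[ℝ] HR J k S :=
  HR.map (pmL J I f) (fun _ h => h.pm hf) fun _ _ h => h.pm hf

theorem Mp.st_cls {S : Set N} {f : N → M} (hf : Mp J I S U f) (h : Cl I k U a) :
    hf.st k h.cls = (h.pm hf).cls := rfl

theorem Mp.st_comp {S : Set N} {R : Set P} {f : N → M} {g : P → N} (hf : Mp J I S U f)
    (hg : Mp K J R S g) (x : HR I k U) : hg.st k (hf.st k x) = (hf.comp hg).st k x := by
  obtain ⟨a, h, rfl⟩ := exists_cls x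
  exact cls_congr fun z hz => pm_comp ((hf.sm _ (hg.maps hz)).mdifferentiableAt ne0)
    ((hg.sm z hz).mdifferentiableAt ne0)

theorem Mp.st_congr {S : Set N} (hS : IsOpen S) {f g : N → M} (hf : Mp J I S U f)
    (hg : Mp J I S U g) (e : EqOn f g S) (x : HR I k U) : hf.st k x = hg.st k x := by
  obtain ⟨a, h, rfl⟩ := exists_cls x
  exact cls_congr fun z hz => pm_congr (eventually_of_mem (hS.mem_nhds hz) e) rfl

/-- restriction -/
def res (h : V ⊆ U) : HR I k U →ₗ[ℝ] HR I k V :=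
  HR.map LinearMap.id (fun _ ha => ha.mono h) fun _ _ ha => ha.mono h

theorem res_cls (h : V ⊆ U) (ha : Cl I k U a) : res h ha.cls = (ha.mono h).cls := rfl

theorem res_res (h : V ⊆ U) (h' : W ⊆ V) (x : HR I k U) : res h' (res h x) = res (h'.trans h) x := by
  obtain ⟨a, h, rfl⟩ := exists_cls x
  rfl

theorem res_self (x : HR I k U) : res Subset.rfl x = x := by
  obtain ⟨a, h, rfl⟩ := exists_cls x
  rfl

theorem Mp.st_id (h : V ⊆ U) (x : HR I k U) : (Mp.id h : Mp I I V U _).st k x = res h x := by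
  obtain ⟨a, h, rfl⟩ := exists_cls x
  exact cls_congr fun z _ => congrFun (pm_id a) z

theorem Mp.st_of_id (hV : IsOpen V) {f : M → M} (hf : Mp I I V U f) (e : EqOn f _root_.id V)
    (h : V ⊆ U) (x : HR I k U) : hf.st k x = res h x :=
  (Mp.st_congr hV hf (Mp.id h) e x).trans (Mp.st_id h x)

theorem Mp.res_st {S S' : Set N} {f : N → M} (hf : Mp J I S U f) (h : S' ⊆ S) (x : HR I k U) :
    res h (hf.st k x) = (hf.mono h Subset.rfl).st k x := by
  obtain ⟨a, h, rfl⟩ := exists_cls x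
  rfl

theorem Mp.st_res {S : Set N} {f : N → M} (hf : Mp J I S V f) (h : V ⊆ U) (x : HR I k U) :
    hf.st k (res h x) = (hf.mono Subset.rfl h).st k x := by
  obtain ⟨a, h, rfl⟩ := exists_cls x
  rfl

/-- left multiplication by the class of a closed form -/
def Cl.mulH (h : Cl I k U a) (l : ℕ) : HR I l U →ₗ[ℝ] HR I (k + l) U :=
  HR.map (LinearMap.mulLeft ℝ a) (fun _ hb => h.mul hb) fun _ _ hb => h.mul_ex hb

variable (I k l U) in
/-- the cup product -/
def cup : HR I k U →ₗ[ℝ] HR I l U →ₗ[ℝ] HR I (k + l) U :=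
  HR.lift
    { toFun := fun a => Cl.mulH a.2 l
      map_add' := fun a b => LinearMap.ext fun y => by
        obtain ⟨c, h, rfl⟩ := exists_cls y
        exact cls_congr (h' := (Cl.mul a.2 h).add (Cl.mul b.2 h)) fun z _ => add_mul _ _ _
      map_smul' := fun r a => LinearMap.ext fun y => by
        obtain ⟨c, h, rfl⟩ := exists_cls y
        exact cls_congr (h' := (Cl.mul a.2 h).smul r) fun z _ => smul_mul_assoc r (a.1 z) (c z) }
    fun a ha => LinearMap.ext fun y => by
      obtain ⟨c, h, rfl⟩ := exists_cls y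
      exact cls_eq_zero.2 (ha.mul_cl h)

theorem cup_cls (h : Cl I k U a) (h' : Cl I l U b) : cup I k l U h.cls h'.cls = (h.mul h').cls := rfl

/-- the connecting map -/
def Cut.dl (h : Cut I U V χ) (k : ℕ) : HR I k (U ∩ V) →ₗ[ℝ] HR I (k + 1) (U ∪ V) :=
  HR.map (LinearMap.mulLeft ℝ (df I χ)) (fun _ he => h.cf.cl_mul he) fun _ _ he => h.cf.ex_mul he

theorem Cut.dl_cls (h : Cut I U V χ) (he : Cl I k (U ∩ V) a) :
    h.dl k he.cls = (h.cf.cl_mul he).cls := rfl

/-! ### the exact sequence -/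

theorem mv_ker (hU : IsOpen U) (hV : IsOpen V) (h : Cut I U V χ) {x : HR I (k + 1) (U ∪ V)}
    (h1 : res subset_union_left x = 0) (h2 : res subset_union_right x = 0) :
    ∃ e, h.dl k e = x := by
  obtain ⟨a, ha, rfl⟩ := exists_cls x
  obtain ⟨e, he, hx⟩ := mv_conn hU hV h ha.dg (cls_eq_zero.1 h1) (cls_eq_zero.1 h2)
  exact ⟨he.cls, cls_eq.2 hx.symm⟩

theorem mv_mid (hU : IsOpen U) (hV : IsOpen V) (h : Cut I U V χ) {y : HR I k U} {z : HR I k V}
    (e : res inter_subset_left y = res (inter_subset_right : U ∩ V ⊆ V) z) :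
    ∃ x : HR I k (U ∪ V), res subset_union_left x = y ∧ res subset_union_right x = z := by
  obtain ⟨a, ha, rfl⟩ := exists_cls y
  obtain ⟨b, hb, rfl⟩ := exists_cls z
  obtain ⟨c, hc, h1, h2⟩ := mv_glue hU hV h ha hb (cls_eq.1 e)
  exact ⟨hc.cls, cls_eq.2 h1, cls_eq.2 h2⟩

theorem mv_int (h : Cut I U V χ) {e : HR I k (U ∩ V)} (h0 : h.dl k e = 0) :
    ∃ (y : HR I k U) (z : HR I k V), e = res inter_subset_left y - res inter_subset_right z := by
  obtain ⟨a, ha, rfl⟩ := exists_cls e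
  obtain ⟨s, t, hs, ht, e⟩ := mv_split h ha (cls_eq_zero.1 h0)
  exact ⟨hs.cls, ht.cls, cls_congr
    (h' := (hs.mono inter_subset_left).sub (ht.mono inter_subset_right)) e⟩

theorem dl_res_left (hU : IsOpen U) (hV : IsOpen V) (h : Cut I U V χ) (y : HR I k U) :
    h.dl k (res inter_subset_left y) = 0 := by
  obtain ⟨a, ha, rfl⟩ := exists_cls y
  exact cls_eq_zero.2 (mv_conn_ex hU hV h (ha.mono inter_subset_left) ha.neg Cl.zero
    (ex_of_zero fun x _ => by simp))

theorem dl_res_right (hU : IsOpen U) (hV : IsOpen V) (h : Cut I U V χ) (z : HR I k V) :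
    h.dl k (res inter_subset_right z) = 0 := by
  obtain ⟨a, ha, rfl⟩ := exists_cls z
  exact cls_eq_zero.2 (mv_conn_ex hU hV h (ha.mono inter_subset_right) Cl.zero ha
    (ex_of_zero fun x _ => by simp))

theorem res_dl_left (h : Cut I U V χ) (e : HR I k (U ∩ V)) :
    res subset_union_left (h.dl k e) = 0 := by
  obtain ⟨a, ha, rfl⟩ := exists_cls e
  exact cls_eq_zero.2 ⟨_, (h.czU.sm_smul ha.sm).neg, fun x hx => h.d_left ha hx⟩

theorem res_dl_right (h : Cut I U V χ) (e : HR I k (U ∩ V)) :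
    res subset_union_right (h.dl k e) = 0 := by
  obtain ⟨a, ha, rfl⟩ := exists_cls e
  exact cls_eq_zero.2 ⟨_, h.czV.sm_smul ha.sm, fun x hx => h.d_right ha hx⟩

/-! ### vanishing, dimension bounds -/

variable (I) in
/-- closed forms of degree `k` on `U` are exact -/
def HZ (k : ℕ) (U : Set M) : Prop := ∀ a, Cl I k U a → Ex I U a

theorem hz_iff : HZ I k U ↔ ∀ x : HR I k U, x = 0 :=
  ⟨fun h x => by obtain ⟨a, ha, rfl⟩ := exists_cls x; exact cls_eq_zero.2 (h a ha),
    fun h a ha => cls_eq_zero.1 (h ha.cls)⟩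

theorem HZ.eq (h : HZ I k U) (x : HR I k U) : x = 0 := hz_iff.1 h x

theorem HZ.of_inj {S : Set N} (h : HZ J l S) (f : HR I k U →ₗ[ℝ] HR J l S) (hf : Injective f) :
    HZ I k U := hz_iff.2 fun x => hf (by rw [h.eq (f x), map_zero])

theorem hz_of_gt (h : finrank ℝ E < k) : HZ I k U :=
  fun _ ha => ex_of_zero fun x hx => (ha.dg x hx).eq_zero h

theorem hz_empty : HZ I k (∅ : Set M) := fun _ _ => ex_of_zero fun _ h => h.elim

variable (I) in
/-- the cohomology of `U` in degree `k` has dimension at most `n` -/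
def Bd (k : ℕ) (U : Set M) (n : ℕ) : Prop := Module.rank ℝ (HR I k U) ≤ n

theorem Bd.finite {n : ℕ} (h : Bd I k U n) : Module.Finite ℝ (HR I k U) :=
  Module.rank_lt_aleph0_iff.1 (lt_of_le_of_lt h (Cardinal.natCast_lt_aleph0))

theorem Bd.finrank_le {n : ℕ} (h : Bd I k U n) : finrank ℝ (HR I k U) ≤ n :=
  Module.finrank_le_of_rank_le h

theorem bd_of_finrank [Module.Finite ℝ (HR I k U)] {n : ℕ} (h : finrank ℝ (HR I k U) ≤ n) :
    Bd I k U n := by
  rw [Bd, ← Module.finrank_eq_rank]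
  exact_mod_cast h

theorem Bd.mono {n m : ℕ} (h : Bd I k U n) (hm : n ≤ m) : Bd I k U m :=
  le_trans h (by exact_mod_cast hm)

theorem bd_zero : Bd I k U 0 ↔ HZ I k U := by
  rw [Bd, Nat.cast_zero, nonpos_iff_eq_zero, rank_zero_iff_forall_zero, hz_iff]

theorem Bd.of_inj {S : Set N} {n : ℕ} (h : Bd J l S n) (f : HR I k U →ₗ[ℝ] HR J l S)
    (hf : Injective f) : Bd I k U n := by
  haveI := h.finite
  haveI := Module.Finite.of_injective f hf
  exact bd_of_finrank ((LinearMap.finrank_le_finrank_of_injective hf).trans h.finrank_le)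

theorem Bd.of_surj {S : Set N} {n : ℕ} (h : Bd J l S n) (f : HR J l S →ₗ[ℝ] HR I k U)
    (hf : Surjective f) : Bd I k U n := by
  haveI := h.finite
  haveI := Module.Finite.of_surjective f hf
  exact bd_of_finrank ((LinearMap.finrank_le_finrank_of_surjective hf).trans h.finrank_le)

theorem bd_of_span {ι : Type*} [Fintype ι] (e : ι → HR I k U)
    (h : ∀ x, x ∈ Submodule.span ℝ (range e)) : Bd I k U (Fintype.card ι) := by
  have h1 : Submodule.span ℝ (range e) = ⊤ := eq_top_iff.2 fun x _ => h x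
  haveI : Module.Finite ℝ (HR I k U) := ⟨⟨(finite_range e).toFinset, by simpa using h1⟩⟩
  refine bd_of_finrank ?_
  rw [← finrank_top, ← h1]
  exact finrank_range_le_card e

/-- linear algebra: the kernel of `g` lies in the image of an `n`-dimensional space -/
theorem finrank_le_of_ker {A Y C : Type*} [AddCommGroup A] [Module ℝ A] [AddCommGroup Y]
    [Module ℝ Y] [AddCommGroup C] [Module ℝ C] [Module.Finite ℝ A] [Module.Finite ℝ C]
    (f : A →ₗ[ℝ] Y) (g : Y →ₗ[ℝ] C) (h : ∀ y, g y = 0 → ∃ x, f x = y) :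
    Module.Finite ℝ Y ∧ finrank ℝ Y ≤ finrank ℝ A + finrank ℝ C := by
  have h1 : LinearMap.ker g ≤ LinearMap.range f := fun y hy => h y hy
  haveI : Module.Finite ℝ (LinearMap.ker g) := Submodule.finiteDimensional_of_le h1
  haveI : Module.Finite ℝ (Y ⧸ LinearMap.ker g) := Module.Finite.equiv g.quotKerEquivRange.symm
  haveI : Module.Finite ℝ Y := Module.Finite.of_submodule_quotient (LinearMap.ker g)
  refine ⟨inferInstance, ?_⟩
  rw [← g.finrank_range_add_finrank_ker, add_comm]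
  exact add_le_add ((Submodule.finrank_mono h1).trans f.finrank_range_le) (Submodule.finrank_le _)

section MV

variable [T2Space M] [SigmaCompactSpace M]

/-- restriction to the two pieces is injective if the classes of the intersection extend -/
theorem res_inj (hU : IsOpen U) (hV : IsOpen V)
    (h : ∀ e : HR I k (U ∩ V), ∃ (y : HR I k U) (z : HR I k V),
      e = res inter_subset_left y - res inter_subset_right z) {x : HR I (k + 1) (U ∪ V)}
    (h1 : res subset_union_left x = 0) (h2 : res subset_union_right x = 0) : x = 0 := by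
  obtain ⟨χ, hχ⟩ := exists_cut (I := I) hU hV
  obtain ⟨e, rfl⟩ := mv_ker hU hV hχ h1 h2
  obtain ⟨y, z, rfl⟩ := h e
  rw [map_sub, dl_res_left hU hV, dl_res_right hU hV, sub_zero]

theorem HZ.union' (hU : IsOpen U) (hV : IsOpen V) (h1 : HZ I (k + 1) U) (h2 : HZ I (k + 1) V)
    (h : ∀ e : HR I k (U ∩ V), ∃ (y : HR I k U) (z : HR I k V),
      e = res inter_subset_left y - res inter_subset_right z) : HZ I (k + 1) (U ∪ V) :=
  hz_iff.2 fun _ => res_inj hU hV h (h1.eq _) (h2.eq _)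

theorem HZ.union (hU : IsOpen U) (hV : IsOpen V) (h1 : HZ I (k + 1) U) (h2 : HZ I (k + 1) V)
    (h : HZ I k (U ∩ V)) : HZ I (k + 1) (U ∪ V) :=
  h1.union' hU hV h2 fun e => ⟨0, 0, by rw [h.eq e, map_zero, map_zero, sub_zero]⟩

/-- the dimension bound: `S` spans the cohomology of the intersection modulo restrictions -/
theorem Bd.union' (hU : IsOpen U) (hV : IsOpen V) {n m : ℕ} (h1 : Bd I (k + 1) U n)
    (h2 : Bd I (k + 1) V m) {ι : Type*} [Fintype ι] (s : ι → HR I k (U ∩ V))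
    (h : ∀ e : HR I k (U ∩ V), ∃ (y : HR I k U) (z : HR I k V) (c : ι → ℝ),
      e = res inter_subset_left y - res inter_subset_right z + ∑ i, c i • s i) :
    Bd I (k + 1) (U ∪ V) (Fintype.card ι + (n + m)) := by
  obtain ⟨χ, hχ⟩ := exists_cut (I := I) hU hV
  haveI := h1.finite
  haveI := h2.finite
  obtain ⟨hf, hle⟩ := finrank_le_of_ker ((hχ.dl k).comp (Fintype.linearCombination ℝ s))
    ((res (I := I) (k := k + 1) (subset_union_left : U ⊆ U ∪ V)).prod
      (res (subset_union_right : V ⊆ U ∪ V))) fun x hx => by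
      obtain ⟨e, rfl⟩ := mv_ker hU hV hχ (congrArg Prod.fst hx) (congrArg Prod.snd hx)
      obtain ⟨y, z, c, rfl⟩ := h e
      refine ⟨c, ?_⟩
      rw [map_add, map_sub, dl_res_left hU hV, dl_res_right hU hV, sub_zero, zero_add]
      rfl
  refine bd_of_finrank (hle.trans ?_)
  rw [finrank_prod, finrank_fintype_fun_eq_card]
  exact Nat.add_le_add_left (add_le_add h1.finrank_le h2.finrank_le) _

theorem Bd.union (hU : IsOpen U) (hV : IsOpen V) {n m r : ℕ} (h1 : Bd I (k + 1) U n)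
    (h2 : Bd I (k + 1) V m) (h : Bd I k (U ∩ V) r) : Bd I (k + 1) (U ∪ V) (r + (n + m)) := by
  haveI := h.finite
  have h3 := h1.union' hU hV h2 (Module.finBasis ℝ (HR I k (U ∩ V))) fun e =>
    ⟨0, 0, (Module.finBasis ℝ _).repr e, by
      rw [map_zero, map_zero, sub_zero, zero_add, Basis.sum_repr]⟩
  rw [Fintype.card_fin] at h3
  exact h3.mono (Nat.add_le_add_right h.finrank_le _)

end MV

/-! ### degree zero -/

/-- the part of degree zero, as a number -/
def e0 (c : Ext E) : ℝ := evA E 0 c Fin.elim0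

theorem e0_pb (A : E' →ₗ[ℝ] E) (c : Ext E) : e0 (pb A c) = e0 c := by
  rw [e0, evA_pb]
  exact congrArg (evA E 0 c) (Subsingleton.elim _ _)

/-- `e0` as a continuous linear map -/
def e0L : Ext E →L[ℝ] ℝ := LinearMap.toContinuousLinearMap
  { toFun := e0
    map_add' := fun x y => by rw [e0, map_add]; rfl
    map_smul' := fun r x => by rw [e0, map_smul]; rfl }

theorem fderiv_e0 {c : E → Ext E} {u : E} (h : DifferentiableAt ℝ c u)
    (h0 : ∀ᶠ v in 𝓝 u, IsDeg 0 (c v)) (hd : F.d c u = 0) :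
    HasFDerivAt (fun v => e0 (c v)) (0 : E →L[ℝ] ℝ) u := by
  have h6 : DifferentiableAt ℝ (fun v => e0 (c v)) u := (e0L (E := E)).differentiableAt.comp u h
  have h8 : c =ᶠ[𝓝 u] fun v => e0 (c v) • (1 : Ext E) := by
    filter_upwards [h0] with v hv
    rw [← Algebra.algebraMap_eq_smul_one]
    exact eq_alg_of_deg hv
  rw [d_congr h8, d_smul h6 (differentiableAt_const _), d_const, smul_zero, add_zero, mul_one] at hd
  have h9 : fderiv ℝ (fun v => e0 (c v)) u = 0 := by
    refine ContinuousLinearMap.ext fun v => ?_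
    have h1 := evA_io ((fderiv ℝ (fun v => e0 (c v)) u : E →L[ℝ] ℝ) : Module.Dual ℝ E) fun _ => v
    rw [hd, map_zero] at h1
    exact h1.symm
  have h10 := h6.hasFDerivAt
  rwa [h9] at h10

theorem Cl.e0_locally_const (hU : IsOpen U) (h : Cl I 0 U a) {x : M} (hx : x ∈ U) :
    ∀ᶠ y in 𝓝 x, e0 (a y) = e0 (a x) := by
  have h1 : ∀ᶠ u in 𝓝 (extChartAt I x x),
      u ∈ (extChartAt I x).target ∧ (extChartAt I x).symm u ∈ U :=
    Eventually.and ((isOpen_extChartAt_target x).mem_nhds (mem_extChartAt_target (I := I) x))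
      ((tendsto_chart_symm (I := I) x).eventually (hU.mem_nhds hx))
  obtain ⟨ε, ε0, hε⟩ := Metric.eventually_nhds_iff_ball.1 h1
  have h2 : ∀ u ∈ Metric.ball (extChartAt I x x) ε,
      HasFDerivAt (fun u => e0 (rp I x a u)) (0 : E →L[ℝ] ℝ) u := fun u hu => by
    obtain ⟨h3, h4⟩ := hε u hu
    refine fderiv_e0 ?_ ?_ ?_
    · have := ((h.sm _ h4).chart le_rfl ((extChartAt I x).map_target h3)).differentiableAt ne0
      rwa [(extChartAt I x).right_inv h3] at this
    · filter_upwards [Metric.isOpen_ball.mem_nhds hu] with v hv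
      exact (h.dg _ (hε v hv).2).pb _
    · rw [← rp_dM ne0 h3 (h.sm _ h4), rp, pm_apply, h.cl _ h4, map_zero]
  filter_upwards [(continuousAt_extChartAt (I := I) x).eventually
    (Metric.ball_mem_nhds _ ε0), extChartAt_source_mem_nhds (I := I) x] with y y1 y2
  have h4 : e0 (rp I x a (extChartAt I x y)) = e0 (rp I x a (extChartAt I x x)) :=
    (convex_ball (extChartAt I x x) ε).is_const_of_fderivWithin_eq_zero (𝕜 := ℝ)
      (f := fun u => e0 (rp I x a u))
      (fun u hu => (h2 u hu).differentiableAt.differentiableWithinAt)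
      (fun u hu => (h2 u hu).hasFDerivWithinAt.fderivWithin
        (Metric.isOpen_ball.uniqueDiffWithinAt hu)) y1 (Metric.mem_ball_self ε0)
  rwa [rp_self, rp, pm_apply, e0_pb, (extChartAt I x).left_inv y2] at h4

theorem const_of_loc {Y Γ : Type*} [TopologicalSpace Y] {S : Set Y} (hS : IsPreconnected S)
    {f : Y → Γ} (hf : ∀ x ∈ S, ∀ᶠ y in 𝓝 x, f y = f x) {x y : Y} (hx : x ∈ S) (hy : y ∈ S) :
    f x = f y := by
  letI : TopologicalSpace Γ := ⊥
  haveI : DiscreteTopology Γ := ⟨rfl⟩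
  exact hS.constant (fun z hz => ContinuousAt.continuousWithinAt
    ((tendsto_pure.2 (hf z hz)).mono_right (pure_le_nhds _))) hx hy

theorem Cl.const_of_preconnected (hU : IsOpen U) (hc : IsPreconnected U) (h : Cl I 0 U a) :
    ∃ r : ℝ, ∀ x ∈ U, a x = algebraMap ℝ (Ext E) r := by
  rcases U.eq_empty_or_nonempty with rfl | ⟨x₀, hx₀⟩
  · exact ⟨0, fun _ h => h.elim⟩
  refine ⟨e0 (a x₀), fun x hx => ?_⟩
  rw [← const_of_loc (f := fun y => e0 (a y)) hc (fun y hy => h.e0_locally_const hU hy) hx hx₀]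
  exact eq_alg_of_deg (h.dg x hx)

theorem cl_const (r : ℝ) : Cl I 0 U fun _ => algebraMap ℝ (Ext E) r :=
  ⟨sm_fn (g := fun _ => r) fun _ _ => contMDiffAt_const, dg_fn _, fun _ _ =>
    (dM_fn (g := fun _ => r) mdifferentiableAt_const).trans (df_eq_zero EventuallyEq.rfl)⟩

/-- classes of degree zero of a connected set extend -/
theorem res0_surj (hV : IsOpen V) (hc : IsPreconnected V) (h : V ⊆ U) (e : HR I 0 V) :
    ∃ y : HR I 0 U, res h y = e := by
  obtain ⟨a, ha, rfl⟩ := exists_cls e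
  obtain ⟨r, hr⟩ := ha.const_of_preconnected hV hc
  exact ⟨(cl_const r).cls, cls_congr fun x hx => (hr x hx).symm⟩

theorem bd0 (hU : IsOpen U) (hc : IsPreconnected U) : Bd I 0 U 1 := by
  refine bd_of_span (ι := Unit) (fun _ => (cl_one : Cl I 0 U 1).cls) fun x => ?_
  obtain ⟨a, ha, rfl⟩ := exists_cls x
  obtain ⟨r, hr⟩ := ha.const_of_preconnected hU hc
  have : ha.cls = r • (cl_one : Cl I 0 U 1).cls := cls_congr (h' := cl_one.smul r) fun x hx => by
    rw [hr x hx, Algebra.algebraMap_eq_smul_one]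
    rfl
  exact this ▸ Submodule.smul_mem _ _ (Submodule.subset_span ⟨(), rfl⟩)

variable [T2Space M] [SigmaCompactSpace M]

theorem res_inj1 (hU : IsOpen U) (hV : IsOpen V) (hc : IsPreconnected (U ∩ V))
    {x : HR I 1 (U ∪ V)} (h1 : res subset_union_left x = 0) (h2 : res subset_union_right x = 0) :
    x = 0 :=
  res_inj (k := 0) hU hV (fun e => by
    obtain ⟨y, rfl⟩ := res0_surj (hU.inter hV) hc inter_subset_left e
    exact ⟨y, 0, by rw [map_zero, sub_zero]⟩) h1 h2

theorem HZ.union1 (hU : IsOpen U) (hV : IsOpen V) (h1 : HZ I 1 U) (h2 : HZ I 1 V)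
    (hc : IsPreconnected (U ∩ V)) : HZ I 1 (U ∪ V) :=
  hz_iff.2 fun _ => res_inj1 hU hV hc (h1.eq _) (h2.eq _)

theorem Bd.union1 (hU : IsOpen U) (hV : IsOpen V) {n m : ℕ} (h1 : Bd I 1 U n) (h2 : Bd I 1 V m)
    (hc : IsPreconnected (U ∩ V)) : Bd I 1 (U ∪ V) (n + m) := by
  have h := Bd.union' (k := 0) hU hV h1 h2 (ι := Empty) Empty.elim fun e => by
    obtain ⟨y, rfl⟩ := res0_surj (hU.inter hV) hc inter_subset_left e
    exact ⟨y, 0, Empty.elim, by simp⟩
  simpa using h

/-- form version: exact on both pieces, vanishing cohomology of the intersection -/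
theorem ex_union (hU : IsOpen U) (hV : IsOpen V) (h : HZ I k (U ∩ V))
    (ha : Cl I (k + 1) (U ∪ V) a) (h1 : Ex I U a) (h2 : Ex I V a) : Ex I (U ∪ V) a :=
  cls_eq_zero.1 (res_inj hU hV (fun e => ⟨0, 0, by rw [h.eq e, map_zero, map_zero, sub_zero]⟩)
    (x := ha.cls) (cls_eq_zero.2 h1) (cls_eq_zero.2 h2))

theorem ex_union1 (hU : IsOpen U) (hV : IsOpen V) (hc : IsPreconnected (U ∩ V))
    (ha : Cl I 1 (U ∪ V) a) (h1 : Ex I U a) (h2 : Ex I V a) : Ex I (U ∪ V) a :=
  cls_eq_zero.1 (res_inj1 hU hV hc (x := ha.cls) (cls_eq_zero.2 h1) (cls_eq_zero.2 h2))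

end Crest.Agent.X212.Dr59
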