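import Crest.Agent.X212.Dr59.Sph
import Crest.Agent.X212.Num57.Qf

/-!
# X212 / Dr59, part 6 (helper59): compactly supported classes, Gram matrices, definiteness

* `Cs I k K e` : closed form with compact support in `K`; `ip I o c e = ∫ c ∧ e`; `psh φ e` (extension by zero);
* `Lat I o U K e G` : the `e i` are a basis of `H²(U)` with compact supports and Gram matrix `G`;
  `Lat.ip_eq`, `Lat.neg_one`, `Lat.nonpos`, `Lat.bb`, `Lat.bp`, `Lat.bm`;
* `Lat.union`, `Lat.attach`, `Lat.remove`, `Lat.push`, `Lat.change`, `Lat.reindex`, `Lat.neg`, `Lat.ori`.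
-/

set_option autoImplicit false
set_option linter.unusedSectionVars false
set_option linter.style.haveILetI false

open Set Filter Topology Function Module Matrix
open scoped ContDiff Manifold
open Crest.Agent.R208 Crest.Agent.R208.F Crest.Agent.R208.FI Crest.Agent.X212.Int54
open Crest.Agent.X212.Num57 (Q Qf Q_cls)

noncomputable section

namespace Crest.Agent.X212.Dr59

variable {E : Type*} [NormedAddCommGroup E] [NormedSpace ℝ E] [FiniteDimensional ℝ E]
  {H : Type*} [TopologicalSpace H] {I : ModelWithCorners ℝ E H} [I.Boundaryless]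
  {M : Type*} [TopologicalSpace M] [ChartedSpace H M] [IsManifold I ∞ M]
  {E' : Type*} [NormedAddCommGroup E'] [NormedSpace ℝ E'] [FiniteDimensional ℝ E']
  {H' : Type*} [TopologicalSpace H'] {J : ModelWithCorners ℝ E' H'} [J.Boundaryless]
  {N : Type*} [TopologicalSpace N] [ChartedSpace H' N] [IsManifold J ∞ N]
  {k l n : ℕ} {U V K L : Set M} {o o' c c' e e' : M → Ext E}

/-! ### more Mayer-Vietoris -/

section mv

variable [T2Space M] [SigmaCompactSpace M]

theorem res_surj (hU : IsOpen U) (hV : IsOpen V) (h : HZ I k (U ∩ V)) :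
    Surjective (res (I := I) (k := k) (subset_union_left : U ⊆ U ∪ V)) := fun y => by
  obtain ⟨χ, hχ⟩ := exists_cut (I := I) hU hV
  obtain ⟨x, hx, -⟩ := mv_mid hU hV hχ (y := y) (z := 0) (by rw [h.eq (res _ y), map_zero])
  exact ⟨x, hx⟩

theorem Bd.of_union (hU : IsOpen U) (hV : IsOpen V) (h : HZ I k (U ∩ V)) (hb : Bd I k (U ∪ V) n) :
    Bd I k U n := hb.of_surj _ (res_surj hU hV h)

theorem HZ.of_union (hU : IsOpen U) (hV : IsOpen V) (h : HZ I k (U ∩ V)) (hb : HZ I k (U ∪ V)) :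
    HZ I k U := bd_zero.1 ((bd_zero.2 hb).of_union hU hV h)

variable (I) in
/-- the classes of the intersection come from the two pieces -/
def Sj (k : ℕ) (U V : Set M) : Prop := ∀ e : HR I k (U ∩ V), ∃ (y : HR I k U) (z : HR I k V),
  e = res inter_subset_left y - res inter_subset_right z

theorem HZ.sj (h : HZ I k (U ∩ V)) : Sj I k U V :=
  fun e => ⟨0, 0, by rw [h.eq e, map_zero, map_zero, sub_zero]⟩

theorem sj_right (h : Surjective (res (I := I) (k := k) (inter_subset_right : U ∩ V ⊆ V))) :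
    Sj I k U V := fun e => by
  obtain ⟨z, rfl⟩ := h e
  exact ⟨0, -z, by rw [map_zero, map_neg, zero_sub, neg_neg]⟩

theorem Sj.bd (h : Sj I k U V) (hU : IsOpen U) (hV : IsOpen V) {m : ℕ} (h1 : Bd I (k + 1) U n)
    (h2 : Bd I (k + 1) V m) : Bd I (k + 1) (U ∪ V) (n + m) := by
  simpa using h1.union' hU hV h2 (ι := Empty) Empty.elim fun e => by
    obtain ⟨y, z, rfl⟩ := h e
    exact ⟨y, z, Empty.elim, by simp⟩

end mv

/-! ### compact supports -/

variable (I) in
/-- closed forms with compact support in `K` -/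
structure Cs (k : ℕ) (K : Set M) (e : M → Ext E) : Prop where
  cl : Cl I k univ e
  hc : HasCompactSupport e
  sub : tsupport e ⊆ K

theorem Cs.mono (h : Cs I k K e) (hK : K ⊆ L) : Cs I k L e := ⟨h.cl, h.hc, h.sub.trans hK⟩

theorem Cs.on (h : Cs I k K e) (U : Set M) : Cl I k U e := h.cl.mono (subset_univ U)

theorem Cs.eq_zero (h : Cs I k K e) {x : M} (hx : x ∉ K) : e x = 0 :=
  image_eq_zero_of_notMem_tsupport fun h' => hx (h.sub h')

theorem Cs.zero : Cs I k K (0 : M → Ext E) :=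
  ⟨Cl.zero, HasCompactSupport.zero, by simp [tsupport]⟩

theorem Cs.add (h : Cs I k K e) (h' : Cs I k K e') : Cs I k K (e + e') :=
  ⟨h.cl.add h'.cl, h.hc.add h'.hc, (tsupport_add e e').trans (union_subset h.sub h'.sub)⟩

theorem Cs.smul (r : ℝ) (h : Cs I k K e) : Cs I k K (r • e) :=
  ⟨h.cl.smul r, h.hc.smul_left (f := fun _ => r),
    (tsupport_smul_subset_right (fun _ => r) e).trans h.sub⟩

theorem Cs.neg (h : Cs I k K e) : Cs I k K (-e) := by simpa using h.smul (-1)

theorem Cs.sub' (h : Cs I k K e) (h' : Cs I k K e') : Cs I k K (e - e') := by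
  rw [sub_eq_add_neg]
  exact h.add h'.neg

theorem cs_sum {ι : Type*} {s : Finset ι} {f : ι → M → Ext E} (h : ∀ i ∈ s, Cs I k K (f i)) :
    Cs I k K (∑ i ∈ s, f i) :=
  Finset.sum_induction f (Cs I k K) (fun _ _ => Cs.add) Cs.zero h

/-- a closed form on `U` that vanishes off a compact subset, extended by zero -/
theorem cs_indicator [T2Space M] (hU : IsOpen U) (hc : Cl I k U c) (hK : IsCompact K) (h : K ⊆ U)
    (h0 : ∀ x ∈ U, x ∉ K → c x = 0) : Cs I k K (U.indicator c) := by
  have h1 : ∀ x, x ∉ K → U.indicator c x = 0 := fun x hx => by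
    by_cases k : x ∈ U
    · rw [indicator_of_mem k, h0 x k hx]
    · exact indicator_of_notMem k _
  refine ⟨cl_of_loc fun x _ => ?_, HasCompactSupport.intro hK h1,
    closure_minimal (fun x hx => by_contra fun k => hx (h1 x k)) hK.isClosed⟩
  by_cases k : x ∈ U
  · exact ⟨U, k, hc.congr hU fun _ hy => indicator_of_mem hy _⟩
  · exact ⟨Kᶜ, fun hx => k (h hx), Cl.zero.congr hK.isClosed.isOpen_compl h1⟩

theorem Cs.tsupport_mul (h : Cs I k K e) (c : M → Ext E) : tsupport (c * e) ⊆ K :=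
  tsupport_mul_subset_right.trans h.sub

theorem Cs.sm_mul (h : Cs I k U e) (hc : Sm I U c) (x : M) : SmAt I (c * e) x := by
  by_cases hx : x ∈ U
  · exact (hc x hx).mul (h.cl.sm x trivial)
  · exact cAt_zero.congr (notMem_tsupport_iff_eventuallyEq.1 fun k => hx (h.tsupport_mul c k))

theorem mul_comm_two {x : M} (hc : IsDeg 2 (c x)) (e : M → Ext E) : (c * e) x = (e * c) x :=
  Num57.ext_ev (by rw [inv_of_deg hc]; simp) _

variable (φ : PartialDiffeomorph J I N M ∞)

/-- push forward, extended by zero -/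
def psh (e : N → Ext E') : M → Ext E := φ.target.indicator (pm I J φ.symm e)

theorem pm_psh {y : N} (hy : y ∈ φ.source) (e : N → Ext E') : pm J I φ (psh φ e) y = e y := by
  have h1 := φ.map_source hy
  rw [psh, pm_congr_right (b := pm I J φ.symm e) (indicator_of_mem h1 _), pm_comp (g := φ.symm)
    ((φ.contMDiffOn_invFun.contMDiffAt (φ.open_target.mem_nhds h1)).mdifferentiableAt ne0)
    ((φ.contMDiffOn_toFun.contMDiffAt (φ.open_source.mem_nhds hy)).mdifferentiableAt ne0)]
  exact pm_of_eventually_id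
    (eventually_of_mem (φ.open_source.mem_nhds hy) fun z hz => φ.left_inv hz) e

theorem psh_eq_zero {e : N → Ext E'} {S : Set N} (h : ∀ y ∈ φ.source, y ∉ S → e y = 0) {x : M}
    (hx : x ∉ φ '' S) : psh φ e x = 0 := by
  by_cases k : x ∈ φ.target
  · rw [psh, indicator_of_mem k, pm_apply,
      h (φ.symm x) (φ.map_target k) fun h' => hx ⟨_, h', φ.right_inv k⟩, map_zero]
  · exact indicator_of_notMem k _

theorem Cs.psh [T2Space M] {S : Set N} {e : N → Ext E'} (h : Cs J k S e) (hS : S ⊆ φ.source) :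
    Cs I k (φ '' S) (psh φ e) := by
  have h1 := h.sub.trans hS
  have h2 : Mp I J φ.target univ φ.symm := ⟨fun x hx =>
    φ.contMDiffOn_invFun.contMDiffAt (φ.open_target.mem_nhds hx), mapsTo_univ _ _⟩
  exact (cs_indicator φ.open_target (h.cl.pm h2)
    (h.hc.isCompact.image_of_continuousOn (φ.contMDiffOn_toFun.continuousOn.mono h1))
    (by rintro _ ⟨y, hy, rfl⟩; exact φ.map_source (h1 hy)) fun x hx hx' =>
      (indicator_of_mem hx _).symm.trans (psh_eq_zero φ
        (fun y _ => image_eq_zero_of_notMem_tsupport) hx')).mono (image_mono h.sub)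

/-! ### the pairing -/

variable [MeasurableSpace E] [BorelSpace E] [MeasurableSpace M] [BorelSpace M]
  [SecondCountableTopology M] [T2Space M] [MeasurableSpace E'] [BorelSpace E'] [MeasurableSpace N]
  [BorelSpace N] [SecondCountableTopology N] [T2Space N]

variable (I) in
/-- the integral of a product -/
def ip (o c e : M → Ext E) : ℝ := integ I o (c * e)

theorem Cs.intOn (h : Cs I k U e) (ho : Ori I o) (hc : Sm I U c) : IntOn I o (c * e) univ :=
  ho.intOn_of_hcs (fun x => (h.sm_mul hc x).of_le (by simp)) h.hc.mul_left _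

theorem ip_smul (r : ℝ) (o c e : M → Ext E) : ip I o (r • c) e = r * ip I o c e := by
  rw [ip, smul_mul_assoc, integ_smul, ip]

theorem ip_smul_right (r : ℝ) (o c e : M → Ext E) : ip I o c (r • e) = r * ip I o c e := by
  rw [ip, mul_smul_comm, integ_smul, ip]

theorem ip_neg_ori (o c e : M → Ext E) : ip I (-o) c e = -ip I o c e := integ_neg_ori _ _

theorem ip_comm (hc : Dg 2 univ c) (e : M → Ext E) : ip I o c e = ip I o e c :=
  integ_congr fun x => congrArg _ (mul_comm_two (hc x trivial) e)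

theorem Cs.ip_add (h : Cs I k U e) (ho : Ori I o) (hc : Sm I U c) (hc' : Sm I U c') :
    ip I o (c + c') e = ip I o c e + ip I o c' e := by
  rw [ip, add_mul, integ_add (h.intOn ho hc) (h.intOn ho hc'), ip, ip]

theorem Cs.ip_sub (h : Cs I k U e) (ho : Ori I o) (hc : Sm I U c) (hc' : Sm I U c') :
    ip I o (c - c') e = ip I o c e - ip I o c' e := by
  rw [ip, sub_mul, integ_sub (h.intOn ho hc) (h.intOn ho hc'), ip, ip]

theorem Cs.ip_sum (h : Cs I k U e) (ho : Ori I o) {ι : Type*} {s : Finset ι} {f : ι → M → Ext E}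
    (hf : ∀ i ∈ s, Sm I U (f i)) : ip I o (∑ i ∈ s, f i) e = ∑ i ∈ s, ip I o (f i) e := by
  rw [ip, Finset.sum_mul, integ_sum fun i hi => h.intOn ho (hf i hi)]
  rfl

theorem ip_add_right (h : Cs I k U e) (h' : Cs I k U e') (ho : Ori I o) (hc : Sm I U c) :
    ip I o c (e + e') = ip I o c e + ip I o c e' := by
  rw [ip, mul_add, integ_add (h.intOn ho hc) (h'.intOn ho hc), ip, ip]

theorem ip_sum_right (ho : Ori I o) (hc : Sm I U c) {ι : Type*} {s : Finset ι} {f : ι → M → Ext E}
    (hf : ∀ i ∈ s, Cs I k U (f i)) : ip I o c (∑ i ∈ s, f i) = ∑ i ∈ s, ip I o c (f i) := by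
  rw [ip, Finset.mul_sum, integ_sum fun i hi => (hf i hi).intOn ho hc]
  rfl

theorem Cs.ip_congr (h : Cs I k K e) (hc : EqOn c c' K) : ip I o c e = ip I o c' e :=
  integ_congr fun x => by
    by_cases hx : x ∈ K
    · rw [Pi.mul_apply, Pi.mul_apply, hc hx]
    · rw [Pi.mul_apply, Pi.mul_apply, h.eq_zero hx, mul_zero, mul_zero]

theorem Cs.ip_zero (h : Cs I k K e) (hc : ∀ x ∈ K, c x = 0) : ip I o c e = 0 := by
  rw [h.ip_congr (c' := 0) hc, ip, zero_mul, integ_zero]

theorem Cs.ip_disj (h : Cs I k K e) (h' : Cs I l L e') (hd : Disjoint K L) : ip I o e e' = 0 :=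
  h'.ip_zero fun _ hx => h.eq_zero (disjoint_right.1 hd hx)

theorem Cs.ip_ex (h : Cs I k U e) (ho : Ori I o) (hc : Ex I U c) : ip I o c e = 0 := by
  obtain ⟨p, hp, dp⟩ := hc
  rw [← stokes_sm ho (h.sm_mul hp) h.hc.mul_left]
  refine integ_congr fun x => congrArg _ ?_
  by_cases hx : x ∈ U
  · rw [dM_mul ne0 (hp x hx) (h.cl.sm x trivial), dp x hx, h.cl.cl x trivial, mul_zero, add_zero]
    rfl
  · rw [dM_eq_zero fun k => hx (h.tsupport_mul p k), Pi.mul_apply, h.eq_zero hx, mul_zero]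

theorem Cs.ip_coh (h : Cs I k U e) (ho : Ori I o) (hc : Sm I U c) (hc' : Sm I U c')
    (hx : Ex I U (c - c')) : ip I o c e = ip I o c' e :=
  sub_eq_zero.1 ((h.ip_sub ho hc hc').symm.trans (h.ip_ex ho hx))

theorem Cs.ip_ori (h : Cs I k K e) (ho : Ori I o) (ho' : Ori I o') (hs : SameOn o o' K) :
    ip I o c e = ip I o' c e := by
  have h1 : ∀ x, x ∉ tsupport e → tp E ((c * e) x) = 0 := fun x hx => by
    rw [Pi.mul_apply, image_eq_zero_of_notMem_tsupport hx, mul_zero, map_zero]
  rw [ip, ip, integ_eq_integOn h1, integ_eq_integOn h1,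
    integOn_congr_ori ho ho' (isClosed_tsupport e).measurableSet (hs.mono h.sub)]

theorem Cs.ip_psh {S : Set N} {v e : N → Ext E'} (h : Cs J k S e) (hS : S ⊆ φ.source) (ho : Ori I o)
    (hv : Ori J v) (hp : SameOn v (pm J I φ o) S) (c : M → Ext E) :
    ip I o c (Dr59.psh φ e) = ip J v (pm J I φ c) e := by
  have h1 := h.sub.trans hS
  rcases (tsupport e).eq_empty_or_nonempty with k | ⟨y, hy⟩
  · have h2 : ∀ y, e y = 0 := fun y => image_eq_zero_of_notMem_tsupport (k ▸ notMem_empty y)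
    rw [ip, ip, show c * Dr59.psh φ e = 0 from funext fun x => by
        rw [Pi.mul_apply, psh_eq_zero φ (S := ∅) (fun y _ _ => h2 y) (by simp), mul_zero]; rfl,
      show pm J I φ c * e = 0 from funext fun x => by rw [Pi.mul_apply, h2, mul_zero]; rfl,
      integ_zero, integ_zero]
  refine integ_eq_of_map (finrank_of_ld ⟨φ, h1 hy, fun _ _ => rfl⟩) ho hv
    (isClosed_tsupport e).measurableSet
    (fun w hw => φ.contMDiffOn_toFun.contMDiffAt (φ.open_source.mem_nhds (h1 hw)))
    (φ.injOn.mono h1) (hp.mono h.sub) (fun x hx => ?_) (fun x hx => ?_) fun x hx => ?_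
  · rw [Pi.mul_apply, psh_eq_zero φ (fun y _ => image_eq_zero_of_notMem_tsupport) hx, mul_zero,
      map_zero]
  · rw [Pi.mul_apply, image_eq_zero_of_notMem_tsupport hx, mul_zero, map_zero]
  · rw [pm_mul, Pi.mul_apply, pm_psh φ (h1 hx), Pi.mul_apply]

/-! ### bases with compact support -/

variable {ι κ : Type*} [Fintype ι] [DecidableEq ι] [Fintype κ] [DecidableEq κ]

variable (I) in
/-- a basis of `H²(U)` with compact supports in `K` and Gram matrix `G` -/
structure Lat (o : M → Ext E) (U K : Set M) (e : ι → M → Ext E) (G : Matrix ι ι ℝ) : Prop where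
  ori : Ori I o
  op : IsOpen U
  sub : K ⊆ U
  bd : Bd I 2 U (Fintype.card ι)
  cs : ∀ i, Cs I 2 K (e i)
  gram : ∀ i j, ip I o (e i) (e j) = G i j
  det : G.det ≠ 0

namespace Lat

variable {e : ι → M → Ext E} {G : Matrix ι ι ℝ} {f : κ → M → Ext E} {G' : Matrix κ κ ℝ}

theorem csU (h : Lat I o U K e G) (i : ι) : Cs I 2 U (e i) := (h.cs i).mono h.sub

theorem symm (h : Lat I o U K e G) : Gᵀ = G := by
  ext i j
  rw [transpose_apply, ← h.gram, ← h.gram, ip_comm (h.cs j).cl.dg]

theorem cs_comb (h : Lat I o U K e G) (x : ι → ℝ) : Cs I 2 K (∑ i, x i • e i) :=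
  cs_sum fun i _ => (h.cs i).smul _

theorem ip_comb (h : Lat I o U K e G) (x : ι → ℝ) (hc : Cs I k U c) :
    ip I o (∑ i, x i • e i) c = ∑ i, x i * ip I o (e i) c := by
  rw [hc.ip_sum h.ori fun i _ => (((h.cs i).on U).smul _).sm]
  simp only [ip_smul]

theorem ip_comb_e (h : Lat I o U K e G) (x : ι → ℝ) :
    (fun j => ip I o (∑ i, x i • e i) (e j)) = x ᵥ* G := funext fun j => by
  simp only [h.ip_comb x (h.csU j), h.gram, vecMul, dotProduct]

theorem cls_comb (h : Lat I o U K e G) (x : ι → ℝ) :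
    ((h.cs_comb x).on U).cls = ∑ i, x i • ((h.cs i).on U).cls :=
  cls_sum fun i => ((h.cs i).on U).smul (x i)

theorem indep (h : Lat I o U K e G) {x : ι → ℝ} (hx : Ex I U (∑ i, x i • e i)) : x = 0 :=
  eq_zero_of_vecMul_eq_zero h.det ((h.ip_comb_e x).symm.trans
    (funext fun j => (h.csU j).ip_ex h.ori hx))

theorem span' (h : Lat I o U K e G) (y : HR I 2 U) : ∃ x : ι → ℝ, ∑ i, x i • ((h.cs i).on U).cls = y :=
  h.bd.span (fun x hx => congrFun (h.indep (cls_eq_zero.1 ((h.cls_comb x).trans hx)))) y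

/-- **every closed form is a combination of the basis up to an exact form** -/
theorem span (h : Lat I o U K e G) (hc : Cl I 2 U c) :
    Ex I U (c - ∑ i, ((fun j => ip I o c (e j)) ᵥ* G⁻¹) i • e i) := by
  obtain ⟨x, hx⟩ := h.span' hc.cls
  have h1 := cls_eq.1 (((h.cls_comb x).trans hx).symm)
  have h2 : (fun j => ip I o c (e j)) = x ᵥ* G := (funext fun j =>
    (h.csU j).ip_coh h.ori hc.sm ((h.cs_comb x).on U).sm h1).trans (h.ip_comb_e x)
  rwa [h2, vecMul_vecMul, mul_nonsing_inv _ (Ne.isUnit h.det), vecMul_one]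

theorem ex (h : Lat I o U K e G) (hc : Cl I 2 U c) (h0 : ∀ i, ip I o c (e i) = 0) : Ex I U c := by
  have := h.span hc
  simpa [h0, show (fun _ : ι => (0 : ℝ)) = 0 from rfl] using this

/-- **the intersection number in terms of the basis** -/
theorem ip_eq (h : Lat I o U K e G) (hc : Cl I 2 U c) (hc' : Cs I 2 U c') :
    ip I o c c' = (fun i => ip I o c (e i)) ⬝ᵥ G⁻¹ *ᵥ fun i => ip I o c' (e i) := by
  rw [hc'.ip_coh h.ori hc.sm ((h.cs_comb _).on U).sm (h.span hc), h.ip_comb _ hc', dotProduct_mulVec]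
  exact Finset.sum_congr rfl fun i _ => by rw [ip_comm (h.cs i).cl.dg]

theorem neg_one (h : Lat I o U K e (-1)) (hc : Cl I 2 U c) (hc' : Cs I 2 U c') :
    ip I o c c' = -∑ i, ip I o c (e i) * ip I o c' (e i) := by
  rw [h.ip_eq hc hc', inv_eq_left_inv (B := -1) (by simp), neg_mulVec, one_mulVec, dotProduct_neg]
  rfl

theorem diag {d : ι → ℝ} (h : Lat I o U K e (diagonal d)) (hc : Cl I 2 U c) (hc' : Cs I 2 U c') :
    ip I o c c' = ∑ i, ip I o c (e i) * ip I o c' (e i) / d i := by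
  have h1 : ∀ i, d i ≠ 0 := fun i k => h.det (by rw [det_diagonal]; exact Finset.prod_eq_zero (Finset.mem_univ i) k)
  rw [h.ip_eq hc hc', inv_eq_left_inv (B := diagonal fun i => (d i)⁻¹) (by
    rw [diagonal_mul_diagonal, ← diagonal_one]
    exact congrArg _ (funext fun i => inv_mul_cancel₀ (h1 i)))]
  simp only [dotProduct, mulVec_diagonal]
  exact Finset.sum_congr rfl fun i _ => by ring

theorem ip_self (h : Lat I o U K e G) (hc : Cs I 2 U c) :
    ∃ x : ι → ℝ, Ex I U (c - ∑ i, x i • e i) ∧ ip I o c c = x ⬝ᵥ G *ᵥ x := by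
  refine ⟨_, h.span (hc.on U), ?_⟩
  rw [h.ip_eq (hc.on U) hc, ← vecMul_transpose G, h.symm, vecMul_vecMul,
    nonsing_inv_mul _ (Ne.isUnit h.det), vecMul_one, dotProduct_mulVec]

/-- **negative definiteness** -/
theorem nonpos (h : Lat I o U K e G) (hG : ∀ x : ι → ℝ, x ≠ 0 → x ⬝ᵥ G *ᵥ x < 0) (hc : Cs I 2 U c) :
    ip I o c c ≤ 0 ∧ (ip I o c c = 0 → Ex I U c) := by
  obtain ⟨x, h1, h2⟩ := h.ip_self hc
  by_cases k : x = 0
  · subst k
    exact ⟨by simp [h2], fun _ => by simpa using h1⟩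
  · exact ⟨h2 ▸ (hG x k).le, fun e => absurd (h2 ▸ e) (hG x k).ne⟩

theorem mono (h : Lat I o U K e G) (h1 : K ⊆ L) (h2 : L ⊆ U) : Lat I o U L e G :=
  { h with sub := h2, cs := fun i => (h.cs i).mono h1 }

/-- the same classes on another open set -/
theorem of_bd (h : Lat I o U K e G) (hV : IsOpen V) (h1 : K ⊆ V) (h2 : Bd I 2 V (Fintype.card ι)) :
    Lat I o V K e G := { h with op := hV, sub := h1, bd := h2 }

theorem neg (h : Lat I o U K e G) : Lat I (-o) U K e (-G) :=
  { h with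
    ori := h.ori.neg
    gram := fun i j => by rw [ip_neg_ori, h.gram, neg_apply]
    det := by rw [det_neg]; exact mul_ne_zero (by positivity) h.det }

theorem of_same (h : Lat I o U K e G) (ho : Ori I o') (hs : SameOn o' o K) : Lat I o' U K e G :=
  { h with ori := ho, gram := fun i j => ((h.cs j).ip_ori ho h.ori hs).trans (h.gram i j) }

theorem reindex (h : Lat I o U K e G) (σ : κ ≃ ι) : Lat I o U K (e ∘ σ) (G.submatrix σ σ) :=
  { h with
    bd := Fintype.card_congr σ ▸ h.bd
    cs := fun i => h.cs _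
    gram := fun i j => h.gram _ _
    det := by rw [det_submatrix_equiv_self]; exact h.det }

theorem change (h : Lat I o U K e G) {P : Matrix ι ι ℝ} (hP : P.det ≠ 0) :
    Lat I o U K (fun i => ∑ j, P i j • e j) (P * G * Pᵀ) :=
  { h with
    cs := fun i => h.cs_comb _
    gram := fun i j => by
      rw [h.ip_comb _ ((h.cs_comb _).mono h.sub), Matrix.mul_assoc, mul_apply]
      refine Finset.sum_congr rfl fun a _ => ?_
      rw [ip_comm (h.cs a).cl.dg, congrFun (h.ip_comb_e (P j)) a, ← h.symm, vecMul_transpose, h.symm]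
      rfl
    det := by rw [det_mul, det_mul, det_transpose]; exact mul_ne_zero (mul_ne_zero hP h.det) hP }

theorem empty [IsEmpty ι] (ho : Ori I o) (hU : IsOpen U) (h1 : K ⊆ U) (h : HZ I 2 U) :
    Lat I o U K e G :=
  ⟨ho, hU, h1, (bd_zero.2 h).mono (Nat.zero_le _), isEmptyElim, isEmptyElim, by simp⟩

/-- **union over a neck** -/
theorem union (h : Lat I o U K e G) (h' : Lat I o V L f G') (hs : Sj I 1 U V) (hd : Disjoint K L) :
    Lat I o (U ∪ V) (K ∪ L) (Sum.elim e f) (fromBlocks G 0 0 G') :=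
  haveI := sigmaCompact (I := I) M
  ⟨h.ori, h.op.union h'.op, union_subset_union h.sub h'.sub,
    by rw [Fintype.card_sum]; exact hs.bd h.op h'.op h.bd h'.bd,
    Sum.forall.2 ⟨fun i => (h.cs i).mono subset_union_left, fun i => (h'.cs i).mono subset_union_right⟩,
    Sum.forall.2 ⟨fun i => Sum.forall.2 ⟨h.gram i, fun j => (h.cs i).ip_disj (h'.cs j) hd⟩,
      fun i => Sum.forall.2 ⟨fun j => (h'.cs i).ip_disj (h.cs j) hd.symm, h'.gram i⟩⟩,
    by rw [det_fromBlocks_zero₂₁]; exact mul_ne_zero h.det h'.det⟩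

/-- attaching a piece without `H²` -/
theorem attach (h : Lat I o U K e G) (hV : IsOpen V) (h2 : HZ I 2 V) (hs : Sj I 1 U V) :
    Lat I o (U ∪ V) K e G :=
  haveI := sigmaCompact (I := I) M
  h.of_bd (h.op.union hV) (h.sub.trans subset_union_left) (hs.bd h.op hV h.bd (bd_zero.2 h2))

/-- removing a piece along a neck without `H²` -/
theorem remove (h : Lat I o (U ∪ V) K e G) (hU : IsOpen U) (hV : IsOpen V) (h1 : K ⊆ U)
    (h2 : HZ I 2 (U ∩ V)) : Lat I o U K e G :=
  haveI := sigmaCompact (I := I) M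
  h.of_bd hU h1 (h.bd.of_union hU hV h2)

/-- **transport** -/
theorem push {v : N → Ext E'} {S R : Set N} {e : ι → N → Ext E'} (h : Lat J v S R e G)
    (hS : S ⊆ φ.source) (ho : Ori I o) (hp : SameOn v (pm J I φ o) R) :
    Lat I o (φ '' S) (φ '' R) (fun i => psh φ (e i)) G :=
  ⟨ho, pd_open φ h.op hS, image_mono h.sub, (bd_pd φ h.op hS).2 h.bd,
    fun i => (h.cs i).psh φ (h.sub.trans hS), fun i j => by
      rw [(h.cs j).ip_psh φ (h.sub.trans hS) ho h.ori hp,
        (h.cs j).ip_congr fun y hy => pm_psh φ (hS (h.sub hy)) _, h.gram], h.det⟩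

section closed

variable [CompactSpace M]

theorem bb (h : Lat I o univ K e G) : Num57.bb I M 2 = Fintype.card ι :=
  haveI := h.bd.finite
  le_antisymm h.bd.finrank_le (Fintype.linearIndependent_iff.2 fun x hx =>
    congrFun (h.indep (cls_eq_zero.1 ((h.cls_comb x).trans hx)))).fintype_card_le_finrank

theorem equiv (h : Lat I o univ K e G) : G.toQuadraticForm'.Equivalent (Qf h.ori) := by
  refine ⟨⟨LinearEquiv.ofBijective (Fintype.linearCombination ℝ fun i => ((h.cs i).on univ).cls)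
    ⟨(injective_iff_map_eq_zero _).2 fun x hx =>
      h.indep (cls_eq_zero.1 ((h.cls_comb x).trans hx)), h.span'⟩, fun x => ?_⟩⟩
  show Q h.ori (∑ i, x i • ((h.cs i).on univ).cls) (∑ i, x i • ((h.cs i).on univ).cls) = _
  rw [← h.cls_comb, Q_cls, ← ip, h.ip_comb _ ((h.cs_comb x).mono h.sub), toQuadraticForm',
    LinearMap.BilinMap.toQuadraticMap_apply, toLinearMap₂'_apply']
  refine Finset.sum_congr rfl fun a _ => ?_
  rw [ip_comm (h.cs a).cl.dg, congrFun (h.ip_comb_e x) a, ← h.symm, vecMul_transpose, h.symm]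

theorem bp (h : Lat I o univ K e G) : Num57.bp h.ori = sigPos G.toQuadraticForm' :=
  h.equiv.sigPos_eq.symm

theorem bm (h : Lat I o univ K e G) : Num57.bm h.ori = sigNeg G.toQuadraticForm' :=
  h.equiv.sigNeg_eq.symm

theorem b_diag {d : ι → ℝ} (h : Lat I o univ K e (diagonal d)) :
    Num57.bp h.ori = {i | 0 < d i}.ncard ∧ Num57.bm h.ori = {i | d i < 0}.ncard := by
  have e : (diagonal d).toQuadraticForm' = QuadraticMap.weightedSumSquares ℝ d := by
    ext x
    rw [toQuadraticForm', LinearMap.BilinMap.toQuadraticMap_apply, toLinearMap₂'_apply',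
      QuadraticMap.weightedSumSquares_apply]
    exact Finset.sum_congr rfl fun i _ => by rw [mulVec_diagonal, smul_eq_mul]; ring
  rw [h.bp, h.bm, e]
  exact ⟨QuadraticForm.sigPos_weightedSumSquares, QuadraticForm.sigNeg_weightedSumSquares⟩

theorem b_neg (h : Lat I o univ K e G) (hG : ∀ x : ι → ℝ, x ≠ 0 → x ⬝ᵥ G *ᵥ x < 0) :
    Num57.bp h.ori = 0 ∧ Num57.bm h.ori = Fintype.card ι := by
  have := Num57.sig_of_compl (q := G.toQuadraticForm') (P := ⊥) (N := ⊤) (by simp)
    (fun x hx h0 => absurd hx h0) fun x _ h0 => by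
      rw [toQuadraticForm', LinearMap.BilinMap.toQuadraticMap_apply, toLinearMap₂'_apply']
      exact hG x h0
  simpa [h.bp, h.bm] using this

end closed

end Lat

end Crest.Agent.X212.Dr59
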