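import Crest.Agent.X212.Dr59.HR
import Crest.Agent.X212.Glue52.More

/-!
# X212 / Dr59, part 4 (helper59): homotopy invariance, Poincare lemma, transport, periods

* `Ht J I W U F`, `hk` (homotopy operator), `Ht.d_hk`, `Ht.ex`, `Ht.st_eq`;
* `st_inj_of_ht`, `st_inj_of_inv`, `HZ.of_pd`, `Bd.of_pd`, `HZ.of_oe`, `Bd.of_oe`;
* `hz_of_contract`, `hz_star`, `st_fst_bij` (product with a star shaped set);
* `period_zero`.
-/

set_option autoImplicit false
set_option linter.unusedSectionVars false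
set_option linter.style.haveILetI false

open Set Filter Topology Function Module MeasureTheory
open scoped ContDiff Manifold
open Crest.Agent.R208 Crest.Agent.R208.F Crest.Agent.R208.FI

noncomputable section

namespace Crest.Agent.X212.Dr59

variable {E : Type*} [NormedAddCommGroup E] [NormedSpace ℝ E] [FiniteDimensional ℝ E]
  {H : Type*} [TopologicalSpace H] {I : ModelWithCorners ℝ E H}
  {M : Type*} [TopologicalSpace M] [ChartedSpace H M]
  {E' : Type*} [NormedAddCommGroup E'] [NormedSpace ℝ E'] [FiniteDimensional ℝ E']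
  {H' : Type*} [TopologicalSpace H'] {J : ModelWithCorners ℝ E' H'}
  {N : Type*} [TopologicalSpace N] [ChartedSpace H' N]
  {E'' : Type*} [NormedAddCommGroup E''] [NormedSpace ℝ E''] [FiniteDimensional ℝ E'']
  {H'' : Type*} [TopologicalSpace H''] {K : ModelWithCorners ℝ E'' H''}
  {P : Type*} [TopologicalSpace P] [ChartedSpace H'' P]

theorem mf_prodMk {f : P → N} {g : P → M} {z : P} (hf : MDifferentiableAt K J f z)
    (hg : MDifferentiableAt K I g z) :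
    mf K (J.prod I) (fun z => (f z, g z)) z = (mf K J f z).prod (mf K I g z) :=
  mfderiv_prodMk hf hg

theorem mf_fst (z : N × M) : mf (J.prod I) J Prod.fst z = ContinuousLinearMap.fst ℝ E' E :=
  mfderiv_fst

theorem mf_snd (z : N × M) : mf (J.prod I) I Prod.snd z = ContinuousLinearMap.snd ℝ E' E :=
  mfderiv_snd

theorem pb_zero {k : ℕ} {c : Ext E} (h : IsDeg (k + 1) c) : pb (0 : E' →ₗ[ℝ] E) c = 0 := by
  refine T.ext_evA fun q => ?_
  ext v
  rw [evA_pb, map_zero, AlternatingMap.zero_apply]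
  by_cases hq : q = k + 1
  · subst hq
    exact (evA E (k + 1) c).map_zero
  · rw [h q hq, AlternatingMap.zero_apply]

theorem pm_const {k : ℕ} {a : M → Ext E} {c : M} (h : IsDeg (k + 1) (a c)) (y : N) :
    pm J I (fun _ : N => c) a y = 0 := by
  rw [pm_apply, mf_const]
  exact pb_zero h

/-- smooth homotopies `W × [0,1] → U` -/
structure Ht (J : ModelWithCorners ℝ E' H') (I : ModelWithCorners ℝ E H) (W : Set N) (U : Set M)
    (F : N × ℝ → M) : Prop where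
  sm : ∀ y ∈ W, ∀ t ∈ Icc (0 : ℝ) 1, ContMDiffAt (J.prod 𝓘(ℝ, ℝ)) I ∞ F (y, t)
  maps : ∀ y ∈ W, ∀ t ∈ Icc (0 : ℝ) 1, F (y, t) ∈ U

/-- the homotopy operator -/
def hk (J : ModelWithCorners ℝ E' H') (I : ModelWithCorners ℝ E H) (F : N × ℝ → M)
    (a : M → Ext E) (y : N) : Ext E' :=
  ∫ t in (0 : ℝ)..1, hopL (ContinuousLinearMap.inl ℝ E' ℝ) ((0, 1) : E' × ℝ)
    (pm (J.prod 𝓘(ℝ, ℝ)) I F a (y, t))

variable {k : ℕ} {W : Set N} {U V : Set M} {F : N × ℝ → M} {a : M → Ext E}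

theorem Ht.mp (h : Ht J I W U F) {t : ℝ} (ht : t ∈ Icc (0 : ℝ) 1) : Mp J I W U fun y => F (y, t) :=
  ⟨fun y hy => (h.sm y hy t ht).comp y (contMDiffAt_id.prodMk contMDiffAt_const),
    fun y hy => h.maps y hy t ht⟩

theorem Ht.dg_hk (h : Ht J I W U F) (ha : Dg (k + 1) U a) : Dg k W (hk J I F a) := fun y hy => by
  rw [hk, intervalIntegral.integral_of_le zero_le_one, ← integral_indicator measurableSet_Ioc]
  refine T.isDeg_integral _ fun t => ?_
  by_cases ht : t ∈ Ioc (0 : ℝ) 1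
  · rw [indicator_of_mem ht]
    exact (((ha _ (h.maps y hy t (Ioc_subset_Icc_self ht))).pb _).ii _).pb _
  · rw [indicator_of_notMem ht]
    exact IsDeg.zero

variable [I.Boundaryless] [IsManifold I ∞ M] [J.Boundaryless] [IsManifold J ∞ N]
  [K.Boundaryless] [IsManifold K ∞ P]

variable (J) in
/-- a homotopy in the chart at `y` -/
def cy (y : N) (F : N × ℝ → M) (p : E' × ℝ) : M := F ((extChartAt J y).symm p.1, p.2)

theorem contMDiffAt_pc {y : N} {p : E' × ℝ} (hp : p.1 ∈ (extChartAt J y).target) :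
    ContMDiffAt 𝓘(ℝ, E' × ℝ) (J.prod 𝓘(ℝ, ℝ)) ∞
      (fun p : E' × ℝ => ((extChartAt J y).symm p.1, p.2)) p :=
  ((contMDiffAt_chart_symm hp).comp p contDiff_fst.contMDiff.contMDiffAt).prodMk
    contDiff_snd.contMDiff.contMDiffAt

theorem hopL_cy {y : N} {u : E'} {t : ℝ} (hu : u ∈ (extChartAt J y).target)
    (hF : ContMDiffAt (J.prod 𝓘(ℝ, ℝ)) I ∞ F ((extChartAt J y).symm u, t)) (a : M → Ext E) :
    hopL (ContinuousLinearMap.inl ℝ E' ℝ) ((0, 1) : E' × ℝ)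
        (pm 𝓘(ℝ, E' × ℝ) I (cy J y F) a (u, t)) =
      pbL (mf 𝓘(ℝ, E') J (extChartAt J y).symm u)
        (hopL (ContinuousLinearMap.inl ℝ E' ℝ) ((0, 1) : E' × ℝ)
          (pm (J.prod 𝓘(ℝ, ℝ)) I F a ((extChartAt J y).symm u, t))) := by
  have c1 := (contMDiffAt_chart_symm hu).mdifferentiableAt ne0
  have c2 : MDifferentiableAt 𝓘(ℝ, E' × ℝ) 𝓘(ℝ, E') Prod.fst (u, t) :=
    contDiff_fst.contMDiff.contMDiffAt.mdifferentiableAt ne0
  have c3 : MDifferentiableAt 𝓘(ℝ, E' × ℝ) 𝓘(ℝ, ℝ) Prod.snd (u, t) :=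
    contDiff_snd.contMDiff.contMDiffAt.mdifferentiableAt ne0
  have e1 := pm_comp (a := a) (z := (u, t))
    (f := fun p : E' × ℝ => ((extChartAt J y).symm p.1, p.2)) (hF.mdifferentiableAt ne0)
    ((contMDiffAt_pc (p := (u, t)) hu).mdifferentiableAt ne0)
  have e2 : mf 𝓘(ℝ, E' × ℝ) (J.prod 𝓘(ℝ, ℝ))
      (fun p : E' × ℝ => ((extChartAt J y).symm p.1, p.2)) (u, t) =
      ((mf 𝓘(ℝ, E') J (extChartAt J y).symm u).comp (ContinuousLinearMap.fst ℝ E' ℝ)).prod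
        (ContinuousLinearMap.snd ℝ E' ℝ) := by
    refine (mf_prodMk (f := (extChartAt J y).symm ∘ Prod.fst) (c1.comp (u, t) c2) c3).trans ?_
    rw [mf_comp c1 c2, mf_eq_fderiv, mf_eq_fderiv, fderiv_fst, fderiv_snd]
  rw [show cy J y F = F ∘ fun p : E' × ℝ => ((extChartAt J y).symm p.1, p.2) from rfl, ← e1,
    pm_apply (f := fun p : E' × ℝ => ((extChartAt J y).symm p.1, p.2)), e2, hopL_apply, pbL_apply,
    hopL_apply, ii_pb, pb_comp, pb_comp]
  congr 2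
  ext v; simp

theorem Ht.sm_cy (h : Ht J I W U F) {y : N} {u : E'} (hu : u ∈ (extChartAt J y).target)
    (hW : (extChartAt J y).symm u ∈ W) {t : ℝ} (ht : t ∈ Icc (0 : ℝ) 1) :
    ContMDiffAt 𝓘(ℝ, E' × ℝ) I ∞ (cy J y F) (u, t) :=
  (h.sm _ hW t ht).comp (u, t) (contMDiffAt_pc (p := (u, t)) hu)

theorem Ht.cd_cy (h : Ht J I W U F) (ha : Sm I U a) {y : N} {u : E'}
    (hu : u ∈ (extChartAt J y).target) (hW : (extChartAt J y).symm u ∈ W) {t : ℝ}
    (ht : t ∈ Icc (0 : ℝ) 1) :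
    ContDiffAt ℝ ∞ (pm 𝓘(ℝ, E' × ℝ) I (cy J y F) a)
      (jv (ContinuousLinearMap.inl ℝ E' ℝ) ((0, 1) : E' × ℝ) (u, t)) := by
  rw [jv_inl]
  exact cAt_model.1 (SmAt.pm (h.sm_cy hu hW ht) (ha _ (h.maps _ hW t ht)))

theorem Ht.rp_hk (h : Ht J I W U F) (ha : Sm I U a) {y : N} {u : E'}
    (hu : u ∈ (extChartAt J y).target) (hW : (extChartAt J y).symm u ∈ W) :
    rp J y (hk J I F a) u = hop (ContinuousLinearMap.inl ℝ E' ℝ) ((0, 1) : E' × ℝ)
      (pm 𝓘(ℝ, E' × ℝ) I (cy J y F) a) u := by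
  set z := (extChartAt J y).symm u with hz
  have h1 : ∀ t ∈ Icc (0 : ℝ) 1, hopL (ContinuousLinearMap.inl ℝ E' ℝ) ((0, 1) : E' × ℝ)
      (pm (J.prod 𝓘(ℝ, ℝ)) I F a (z, t)) = hopg (ContinuousLinearMap.inl ℝ E' ℝ) ((0, 1) : E' × ℝ)
      (pm 𝓘(ℝ, E' × ℝ) I (cy J z F) a) (extChartAt J z z, t) := fun t ht => by
    rw [hopg, jv_inl, hopL_cy (mem_extChartAt_target z) (by
      rw [extChartAt_to_inv]; exact h.sm _ hW t ht), mf_chart_symm_self, extChartAt_to_inv]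
    exact (pb_id _).symm
  have h2 : IntervalIntegrable (fun t => hopL (ContinuousLinearMap.inl ℝ E' ℝ) ((0, 1) : E' × ℝ)
      (pm (J.prod 𝓘(ℝ, ℝ)) I F a (z, t))) volume 0 1 := by
    refine ContinuousOn.intervalIntegrable ?_
    rw [uIcc_of_le zero_le_one]
    refine ContinuousOn.congr (fun t ht => ContinuousAt.continuousWithinAt ?_) h1
    exact (contDiffAt_hopg (h.cd_cy ha (mem_extChartAt_target z)
      (by rwa [extChartAt_to_inv]) ht)).continuousAt.comp_of_eq (by fun_prop) rfl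
  rw [rp, pm_apply, ← pbL_apply, hk, ← ContinuousLinearMap.intervalIntegral_comp_comm _ h2, hop, I1]
  refine intervalIntegral.integral_congr fun t ht => ?_
  rw [uIcc_of_le zero_le_one] at ht
  simp only [hopg, jv_inl]
  exact (hopL_cy hu (h.sm _ hW t ht) a).symm

theorem Ht.rp_hk_nhds (hW : IsOpen W) (h : Ht J I W U F) (ha : Sm I U a) {y : N} (hy : y ∈ W) :
    rp J y (hk J I F a) =ᶠ[𝓝 (extChartAt J y y)] hop (ContinuousLinearMap.inl ℝ E' ℝ)
      ((0, 1) : E' × ℝ) (pm 𝓘(ℝ, E' × ℝ) I (cy J y F) a) := by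
  filter_upwards [(tendsto_chart_symm (I := J) y).eventually (hW.mem_nhds hy),
    (isOpen_extChartAt_target y).mem_nhds (mem_extChartAt_target (I := J) y)] with u h1 h2
  exact h.rp_hk ha h2 h1

theorem Ht.sm_hk (hW : IsOpen W) (h : Ht J I W U F) (ha : Sm I U a) : Sm J W (hk J I F a) :=
  fun y hy => (contDiffAt_hop fun _ ht => h.cd_cy ha (mem_extChartAt_target y)
    (by rwa [extChartAt_to_inv]) ht).congr_of_eventuallyEq (h.rp_hk_nhds hW ha hy)

theorem Ht.pbL_cy (h : Ht J I W U F) {y : N} (hy : y ∈ W) {t : ℝ} (ht : t ∈ Icc (0 : ℝ) 1)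
    (a : M → Ext E) : pbL (ContinuousLinearMap.inl ℝ E' ℝ) (pm 𝓘(ℝ, E' × ℝ) I (cy J y F) a
      (jv (ContinuousLinearMap.inl ℝ E' ℝ) ((0, 1) : E' × ℝ) (extChartAt J y y, t)))
      = pm J I (fun z => F (z, t)) a y := by
  have hy' : (extChartAt J y).symm (extChartAt J y y) ∈ W := by rwa [extChartAt_to_inv]
  have c1 : HasFDerivAt (fun u : E' => (u, t)) (ContinuousLinearMap.inl ℝ E' ℝ) (extChartAt J y y) :=
    hasFDerivAt_prodMk_left _ _
  have e1 := pm_comp (a := a) (z := extChartAt J y y) (f := fun u : E' => (u, t))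
    ((h.sm_cy (mem_extChartAt_target y) hy' ht).mdifferentiableAt ne0)
    c1.differentiableAt.mdifferentiableAt
  have e2 := pm_comp (a := a) (z := extChartAt J y y) (f := (extChartAt J y).symm)
    (((h.mp ht).sm _ hy').mdifferentiableAt ne0)
    ((contMDiffAt_chart_symm (mem_extChartAt_target y)).mdifferentiableAt ne0)
  rw [← rp_self (I := J) y (pm J I (fun z => F (z, t)) a), rp, e2, jv_inl]
  rw [pm_apply, mf_eq_fderiv, c1.fderiv] at e1
  exact e1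

/-- **homotopy formula** -/
theorem Ht.d_hk (hW : IsOpen W) (h : Ht J I W U F) (ha : Sm I U a) {y : N} (hy : y ∈ W) :
    dM J (hk J I F a) y + hk J I F (dM I a) y =
      pm J I (fun z => F (z, 1)) a y - pm J I (fun z => F (z, 0)) a y := by
  have hy' : (extChartAt J y).symm (extChartAt J y y) ∈ W := by rwa [extChartAt_to_inv]
  have h1 := d_hop (x := extChartAt J y y) fun t ht =>
    (h.cd_cy ha (mem_extChartAt_target y) hy' ht).of_le (m := 1) (by simp)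
  rw [h.pbL_cy hy (right_mem_Icc.2 zero_le_one), h.pbL_cy hy (left_mem_Icc.2 zero_le_one)] at h1
  rw [← h1, dM, d_congr (h.rp_hk_nhds hW ha hy), ← rp_self (I := J) y (hk J I F (dM I a)),
    h.rp_hk ha.dM (mem_extChartAt_target y) hy', hop, hop, hop, I1, I1]
  congr 1
  refine intervalIntegral.integral_congr fun t ht => ?_
  rw [uIcc_of_le zero_le_one] at ht
  simp only [hopg, jv_inl]
  rw [← dM_model, dM_pm ne0 (h.sm_cy (mem_extChartAt_target y) hy' ht) (ha _ (h.maps _ hy' t ht))]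

theorem Ht.hk_eq_zero (h : Ht J I W U F) (ha : ∀ x ∈ U, a x = 0) {y : N} (hy : y ∈ W) :
    hk J I F a y = 0 := by
  refine (intervalIntegral.integral_congr fun t ht => ?_).trans intervalIntegral.integral_zero
  rw [uIcc_of_le zero_le_one] at ht
  simp only [pm_apply, ha _ (h.maps y hy t ht), map_zero]

theorem Ht.ex (hW : IsOpen W) (h : Ht J I W U F) (ha : Cl I k U a) :
    Ex J W (pm J I (fun z => F (z, 1)) a - pm J I (fun z => F (z, 0)) a) :=
  ⟨_, h.sm_hk hW ha.sm, fun y hy => by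
    rw [Pi.sub_apply, ← h.d_hk hW ha.sm hy, h.hk_eq_zero ha.cl hy, add_zero]⟩

/-- **homotopy invariance** -/
theorem Ht.st_eq (hW : IsOpen W) (h : Ht J I W U F) {f g : N → M} (hf : Mp J I W U f)
    (hg : Mp J I W U g) (e0 : ∀ y ∈ W, F (y, 0) = f y) (e1 : ∀ y ∈ W, F (y, 1) = g y)
    (x : HR I k U) : hf.st k x = hg.st k x := by
  rw [← (h.mp (left_mem_Icc.2 zero_le_one)).st_congr hW hf e0,
    ← (h.mp (right_mem_Icc.2 zero_le_one)).st_congr hW hg e1]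
  obtain ⟨a, ha, rfl⟩ := exists_cls x
  exact (cls_eq.2 (h.ex hW ha)).symm

theorem st_const {c : M} (hc : c ∈ U) (x : HR I (k + 1) U) :
    (Mp.const W hc : Mp J I W U _).st (k + 1) x = 0 := by
  obtain ⟨a, ha, rfl⟩ := exists_cls x
  exact cls_eq_zero.2 (ex_of_zero fun y _ => pm_const (ha.dg c hc) y)

/-! ### transport -/

/-- `f ∘ g` is homotopic to the identity -/
theorem st_st_of_ht (hU : IsOpen U) {f : N → M} {g : M → N} (hf : Mp J I W U f)
    (hg : Mp I J U W g) {G : M × ℝ → M} (h : Ht I I U U G) (e0 : ∀ x ∈ U, G (x, 0) = f (g x))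
    (e1 : ∀ x ∈ U, G (x, 1) = x) (x : HR I k U) : hg.st k (hf.st k x) = x := by
  rw [Mp.st_comp, h.st_eq hU (hf.comp hg) (Mp.id Subset.rfl) e0 e1, Mp.st_id Subset.rfl, res_self]

theorem st_inj_of_ht (hU : IsOpen U) {f : N → M} {g : M → N} (hf : Mp J I W U f)
    (hg : Mp I J U W g) {G : M × ℝ → M} (h : Ht I I U U G) (e0 : ∀ x ∈ U, G (x, 0) = f (g x))
    (e1 : ∀ x ∈ U, G (x, 1) = x) : Injective (hf.st k) :=
  LeftInverse.injective (st_st_of_ht hU hf hg h e0 e1)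

theorem st_st_of_inv (hU : IsOpen U) {f : N → M} {g : M → N} (hf : Mp J I W U f)
    (hg : Mp I J U W g) (e : ∀ x ∈ U, f (g x) = x) (x : HR I k U) : hg.st k (hf.st k x) = x := by
  rw [Mp.st_comp, (hf.comp hg).st_of_id hU e Subset.rfl, res_self]

theorem st_inj_of_inv (hU : IsOpen U) {f : N → M} {g : M → N} (hf : Mp J I W U f)
    (hg : Mp I J U W g) (e : ∀ x ∈ U, f (g x) = x) : Injective (hf.st k) :=
  LeftInverse.injective (st_st_of_inv hU hf hg e)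

theorem pd_open (φ : PartialDiffeomorph J I N M ∞) (hW : IsOpen W) (h : W ⊆ φ.source) :
    IsOpen (φ '' W) := φ.toOpenPartialHomeomorph.isOpen_image_of_subset_source hW h

theorem pd_mp (φ : PartialDiffeomorph J I N M ∞) (h : W ⊆ φ.source) : Mp J I W (φ '' W) φ :=
  ⟨fun _ hy => φ.contMDiffOn_toFun.contMDiffAt (φ.open_source.mem_nhds (h hy)), mapsTo_image _ _⟩

theorem pd_mp_symm (φ : PartialDiffeomorph J I N M ∞) (h : W ⊆ φ.source) :
    Mp I J (φ '' W) W φ.symm :=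
  ⟨by rintro _ ⟨y, hy, rfl⟩
      exact φ.contMDiffOn_invFun.contMDiffAt (φ.open_target.mem_nhds (φ.map_source (h hy))),
    by rintro _ ⟨y, hy, rfl⟩
       exact (φ.left_inv (h hy)).symm ▸ hy⟩

theorem pd_st_bij (φ : PartialDiffeomorph J I N M ∞) (hW : IsOpen W) (h : W ⊆ φ.source) :
    Bijective ((pd_mp φ h).st k) :=
  ⟨st_inj_of_inv (pd_open φ hW h) _ (pd_mp_symm φ h) (by
      rintro _ ⟨y, hy, rfl⟩
      exact φ.right_inv (φ.map_source (h hy))),
    RightInverse.surjective (st_st_of_inv hW (pd_mp_symm φ h) (pd_mp φ h)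
      fun _ hy => φ.left_inv (h hy))⟩

theorem hz_pd (φ : PartialDiffeomorph J I N M ∞) (hW : IsOpen W) (h : W ⊆ φ.source) :
    HZ I k (φ '' W) ↔ HZ J k W :=
  ⟨fun h' => bd_zero.1 ((bd_zero.2 h').of_surj _ (pd_st_bij φ hW h).2),
    fun h' => h'.of_inj _ (pd_st_bij φ hW h).1⟩

theorem bd_pd (φ : PartialDiffeomorph J I N M ∞) (hW : IsOpen W) (h : W ⊆ φ.source) {n : ℕ} :
    Bd I k (φ '' W) n ↔ Bd J k W n :=
  ⟨fun h' => h'.of_surj _ (pd_st_bij φ hW h).2, fun h' => h'.of_inj _ (pd_st_bij φ hW h).1⟩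

theorem ex_pd (φ : PartialDiffeomorph J I N M ∞) (hW : IsOpen W) (h : W ⊆ φ.source)
    (hx : Ex J W (pm J I φ a)) : Ex I (φ '' W) a := by
  refine (hx.pm (pd_mp_symm φ h)).congr fun x hx => ?_
  rw [pm_comp (((pd_mp φ h).sm _ ((pd_mp_symm φ h).maps hx)).mdifferentiableAt ne0)
    (((pd_mp_symm φ h).sm _ hx).mdifferentiableAt ne0)]
  refine (pm_of_eventually_id ?_ a).symm
  filter_upwards [(pd_open φ hW h).mem_nhds hx]
  rintro _ ⟨y, hy, rfl⟩
  exact φ.right_inv (φ.map_source (h hy))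

section OE

variable {j : N → M} (hj : IsLocalDiffeomorph J I ∞ j) (hi : Injective j)
include hj hi

theorem oe_open (hW : IsOpen W) : IsOpen (j '' W) := (Glue52.ld_isOpenEmbedding hj hi).isOpenMap _ hW

theorem oe_st_bij (hW : IsOpen W) :
    Bijective ((Mp.of_contMDiff hj.contMDiff (mapsTo_image j W)).st k) := by
  rcases isEmpty_or_nonempty N with h | h
  · obtain rfl : W = ∅ := eq_empty_of_isEmpty W
    exact ⟨fun x y _ => by
      have : HZ I k (j '' ∅) := by rw [image_empty]; exact hz_empty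
      rw [this.eq x, this.eq y], fun x => ⟨0, by rw [map_zero, hz_empty.eq x]⟩⟩
  · exact pd_st_bij (Glue52.pdOfInj hj hi) hW (subset_univ W)

theorem hz_oe (hW : IsOpen W) : HZ I k (j '' W) ↔ HZ J k W :=
  ⟨fun h' => bd_zero.1 ((bd_zero.2 h').of_surj _ (oe_st_bij hj hi hW).2),
    fun h' => h'.of_inj _ (oe_st_bij hj hi hW).1⟩

theorem bd_oe (hW : IsOpen W) {n : ℕ} : Bd I k (j '' W) n ↔ Bd J k W n :=
  ⟨fun h' => h'.of_surj _ (oe_st_bij hj hi hW).2, fun h' => h'.of_inj _ (oe_st_bij hj hi hW).1⟩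

theorem ex_oe (hW : IsOpen W) (hx : Ex J W (pm J I j a)) : Ex I (j '' W) a := by
  rcases isEmpty_or_nonempty N with h | h
  · exact ex_of_zero fun _ ⟨y, _⟩ => isEmptyElim y
  · exact ex_pd (Glue52.pdOfInj hj hi) hW (subset_univ W) hx

end OE

/-! ### Poincare lemma -/

theorem hz_of_contract (hU : IsOpen U) {c : M} (hc : c ∈ U) {G : M × ℝ → M} (h : Ht I I U U G)
    (e0 : ∀ x ∈ U, G (x, 0) = c) (e1 : ∀ x ∈ U, G (x, 1) = x) : HZ I (k + 1) U :=
  hz_iff.2 fun x => by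
    rw [← res_self x, ← Mp.st_id, ← h.st_eq hU (Mp.const U hc) (Mp.id Subset.rfl) e0 e1, st_const hc]

theorem contMDiff_seg (c : E) : ContMDiff (𝓘(ℝ, E).prod 𝓘(ℝ, ℝ)) 𝓘(ℝ, E) ∞
    fun p : E × ℝ => (1 - p.2) • c + p.2 • p.1 :=
  ((contMDiff_const.sub contMDiff_snd).smul contMDiff_const).add (contMDiff_snd.smul contMDiff_fst)

theorem seg_mem {s : Set E} {c x : E} (h : StarConvex ℝ c s) (hx : x ∈ s) {t : ℝ}
    (ht : t ∈ Icc (0 : ℝ) 1) : (1 - t) • c + t • x ∈ s :=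
  h hx (sub_nonneg.2 ht.2) ht.1 (sub_add_cancel 1 t)

/-- **Poincare lemma** -/
theorem hz_star {s : Set E} (hs : IsOpen s) {c : E} (hc : c ∈ s) (h : StarConvex ℝ c s) :
    HZ 𝓘(ℝ, E) (k + 1) s :=
  hz_of_contract hs hc ⟨fun _ _ _ _ => contMDiff_seg c _, fun _ hx _ ht => seg_mem h hx ht⟩
    (fun _ _ => by simp) fun _ _ => by simp

theorem mp_fst (U : Set M) (S : Set N) : Mp (I.prod J) I (U ×ˢ S) U Prod.fst :=
  ⟨fun _ _ => contMDiffAt_fst, fun _ h => h.1⟩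

theorem mp_snd (U : Set M) (S : Set N) : Mp (I.prod J) J (U ×ˢ S) S Prod.snd :=
  ⟨fun _ _ => contMDiffAt_snd, fun _ h => h.2⟩

theorem mp_inl (U : Set M) {S : Set N} {c : N} (hc : c ∈ S) :
    Mp I (I.prod J) U (U ×ˢ S) fun x => (x, c) :=
  ⟨fun _ _ => contMDiffAt_id.prodMk contMDiffAt_const, fun _ h => ⟨h, hc⟩⟩

theorem mp_inr {U : Set M} (S : Set N) {c : M} (hc : c ∈ U) :
    Mp J (I.prod J) S (U ×ˢ S) fun x => (c, x) :=
  ⟨fun _ _ => contMDiffAt_const.prodMk contMDiffAt_id, fun _ h => ⟨hc, h⟩⟩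

/-- product with a star shaped set -/
theorem st_fst_inl (hU : IsOpen U) {s : Set E'} (hs : IsOpen s) {c : E'} (hc : c ∈ s)
    (h : StarConvex ℝ c s) (x : HR (I.prod 𝓘(ℝ, E')) k (U ×ˢ s)) :
    (mp_fst U s).st k ((mp_inl U hc).st k x) = x :=
  st_st_of_ht (hU.prod hs) (mp_inl U hc) (mp_fst U s)
    (G := fun p => (p.1.1, (1 - p.2) • c + p.2 • p.1.2))
    ⟨fun _ _ _ _ => (contMDiffAt_fst.comp _ contMDiffAt_fst).prodMk ((contMDiff_seg c _).comp _
      ((contMDiffAt_snd.comp _ contMDiffAt_fst).prodMk contMDiffAt_snd)),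
      fun _ hx _ ht => ⟨hx.1, seg_mem h hx.2 ht⟩⟩ (fun _ _ => by simp) (fun _ _ => by simp) x

theorem st_fst_inj (hU : IsOpen U) {S : Set N} (hS : S.Nonempty) :
    Injective ((mp_fst U S : Mp (I.prod J) I _ _ _).st k) := by
  obtain ⟨c, hc⟩ := hS
  exact st_inj_of_inv hU (mp_fst U S) (mp_inl U hc) fun _ _ => rfl

theorem st_fst_bij (hU : IsOpen U) {s : Set E'} (hs : IsOpen s) {c : E'} (hc : c ∈ s)
    (h : StarConvex ℝ c s) : Bijective ((mp_fst U s : Mp (I.prod 𝓘(ℝ, E')) I _ _ _).st k) :=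
  ⟨st_fst_inj hU ⟨c, hc⟩, RightInverse.surjective (st_fst_inl hU hs hc h)⟩

theorem Bd.prod_star {n : ℕ} (hb : Bd I k U n) (hU : IsOpen U) {s : Set E'} (hs : IsOpen s) {c : E'}
    (hc : c ∈ s) (h : StarConvex ℝ c s) : Bd (I.prod 𝓘(ℝ, E')) k (U ×ˢ s) n :=
  hb.of_surj _ (st_fst_bij hU hs hc h).2

theorem HZ.prod_star (hb : HZ I k U) (hU : IsOpen U) {s : Set E'} (hs : IsOpen s) {c : E'}
    (hc : c ∈ s) (h : StarConvex ℝ c s) : HZ (I.prod 𝓘(ℝ, E')) k (U ×ˢ s) :=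
  bd_zero.1 ((bd_zero.2 hb).prod_star hU hs hc h)

theorem Bd.prod_convex {n : ℕ} (hb : Bd I k U n) (hU : IsOpen U) {s : Set E'} (hs : IsOpen s)
    (h : Convex ℝ s) : Bd (I.prod 𝓘(ℝ, E')) k (U ×ˢ s) n := by
  rcases s.eq_empty_or_nonempty with rfl | ⟨c, hc⟩
  · rw [prod_empty]
    exact (bd_zero.2 hz_empty).mono (Nat.zero_le n)
  · exact hb.prod_star hU hs hc (h hc)

theorem HZ.prod_convex (hb : HZ I k U) (hU : IsOpen U) {s : Set E'} (hs : IsOpen s)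
    (h : Convex ℝ s) : HZ (I.prod 𝓘(ℝ, E')) k (U ×ˢ s) :=
  bd_zero.1 ((bd_zero.2 hb).prod_convex hU hs h)

/-! ### periods -/

theorem e0_alg (r : ℝ) : e0 (algebraMap ℝ (Ext E) r) = r := evA_zero_algebraMap r _

/-- an exact one-form has no period along a closed curve -/
theorem period_zero {γ : ℝ → M} (hγ : Mp 𝓘(ℝ, ℝ) I univ U γ) {τ r : ℝ} (hτ : γ τ = γ 0)
    (h : Ex I U a) (hd : Dg 1 U a)
    (e : ∀ t, pm 𝓘(ℝ, ℝ) I γ a t = df 𝓘(ℝ, ℝ) (fun s : ℝ => r * s) t) : r * τ = 0 := by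
  obtain ⟨b, hb, kb, db⟩ := h.deg (k := 0) hd
  have h1 : ∀ t ∈ (univ : Set ℝ), ContMDiffAt 𝓘(ℝ, ℝ) 𝓘(ℝ, ℝ) ∞ (fun s : ℝ => r * s) t :=
    fun _ _ => contMDiffAt_const.mul contMDiffAt_id
  have h2 : Cl 𝓘(ℝ, ℝ) 0 univ (pm 𝓘(ℝ, ℝ) I γ b - fn ℝ fun s => r * s) :=
    ⟨(hb.pm hγ).sub (sm_fn h1), (kb.pm hγ.maps).sub (dg_fn _), fun t ht => by
      rw [dM_sub ne0 (hb.pm hγ t ht) (sm_fn h1 t ht), dM_pm ne0 (hγ.sm t ht) (hb _ (hγ.maps ht)),
        pm_congr_right (db _ (hγ.maps ht)), e, dM_fn ((h1 t ht).mdifferentiableAt ne0), sub_self]⟩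
  obtain ⟨c, hc⟩ := h2.const_of_preconnected isOpen_univ isPreconnected_univ
  have h3 : ∀ t, e0 (b (γ t)) = c + r * t := fun t => by
    have h4 := eq_add_of_sub_eq (hc t (mem_univ t))
    rw [← e0_pb (mf 𝓘(ℝ, ℝ) I γ t : ℝ →ₗ[ℝ] E), ← pm_apply, h4, fn, ← map_add, e0_alg]
  have h5 := h3 τ
  rw [hτ, h3 0] at h5
  linarith

end Crest.Agent.X212.Dr59
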