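import Crest.Agent.X212.Dr59.Tor

/-!
# X212 / Dr59, part 8 (helper59): existence of toric two-forms, words, toric lines

* `Adm v A` (admissible paths), `XA T α η R` (closed one-forms of the exterior), `pot`, `TG`, `exists_TG`;
* supports: `TG.eq_zero`, `TG.cs_time`, `TG.cs_ov`; lines: `TG.exists_conn`;
* `pth m` (the path of a sequence), `adm_pth`, `integral_om`, `WF`, `WC`, `wc_line`, `WC.ip_eq`.
-/

set_option autoImplicit false
set_option linter.unusedSectionVars false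
set_option linter.style.haveILetI false

open Set Filter Topology Function Module MeasureTheory
open scoped ContDiff Manifold Real
open Crest.Agent.R208 Crest.Agent.R208.FI
open Crest.Agent.R208.F hiding wd
open Crest.Agent.X212.Int54 hiding dt pr kap tp_pr pr_eq cAt_pr pm_pr kap_ne sigmaCompact
open Crest.Agent.X212.Line51 hiding tp Uni
open Crest.Agent.X212.Orx52 Crest.Agent.X212.Rod53 Crest.Agent.X212.Pj41
open Crest.Agent.X212.Glue52 (dir)

noncomputable section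

namespace Crest.Agent.X212.Dr59

theorem pm_inj {E : Type*} [NormedAddCommGroup E] [NormedSpace ℝ E] [FiniteDimensional ℝ E]
    {H : Type*} [TopologicalSpace H] {I : ModelWithCorners ℝ E H}
    {M : Type*} [TopologicalSpace M] [ChartedSpace H M]
    {E' : Type*} [NormedAddCommGroup E'] [NormedSpace ℝ E'] [FiniteDimensional ℝ E']
    {H' : Type*} [TopologicalSpace H'] {J : ModelWithCorners ℝ E' H'}
    {N : Type*} [TopologicalSpace N] [ChartedSpace H' N] {f : N → M} {y : N}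
    (hf : IsLocalDiffeomorphAt J I ∞ f y) {a b : M → Ext E} (h : pm J I f a y = pm J I f b y) :
    a (f y) = b (f y) := by
  have e := hf.localInverse_left_inv hf.localInverse_mem_target
  have k : ∀ c : M → Ext E, pm I J hf.localInverse (pm J I f c) (f y) = c (f y) := fun c => by
    rw [pm_comp (by rw [e]; exact hf.mdifferentiableAt ne0)
      (hf.localInverse_isLocalDiffeomorphAt.mdifferentiableAt ne0)]
    exact pm_of_eventually_id hf.localInverse_eventuallyEq_right c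
  rw [← k a, ← k b]
  exact pm_congr_right (by rwa [e])

/-- the pairing of a real character with a slope -/
def dr (x : ℝ × ℝ) (a : Z2) : ℝ := x.1 * a.1 + x.2 * a.2

/-- the determinant -/
def det2 (x y : ℝ × ℝ) : ℝ := x.1 * y.2 - x.2 * y.1

/-- paths that move perpendicularly to the rods -/
structure Adm (v : ℝ → Z2) (A : ℝ → ℝ × ℝ) : Prop where
  sm : ContDiff ℝ ∞ A
  ev : ∀ t, ∀ᶠ z in 𝓝 t ×ˢ 𝓝 t, dr (A z.1) (v z.2) = dr (A z.2) (v z.2)

theorem Adm.deriv {v : ℝ → Z2} {A : ℝ → ℝ × ℝ} (h : Adm v A) (t : ℝ) :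
    ∀ᶠ z in 𝓝 t ×ˢ 𝓝 t, dr (deriv A z.1) (v z.2) = 0 := by
  obtain ⟨P, hP, Q, hQ, k⟩ := eventually_prod_iff.1 (h.ev t)
  refine eventually_prod_iff.2 ⟨_, hP.eventually_nhds, Q, hQ, fun {s} hs {u} hu => ?_⟩
  have d := (h.sm.differentiable (by simp) s).hasDerivAt
  exact ((((ContinuousLinearMap.fst ℝ ℝ ℝ).hasFDerivAt.comp_hasDerivAt _ d).mul_const _).add
    (((ContinuousLinearMap.snd ℝ ℝ ℝ).hasFDerivAt.comp_hasDerivAt _ d).mul_const _)).unique
    ((hasDerivAt_const s (dr (A u) (v u))).congr_of_eventuallyEq (hs.mono fun _ e => by exact k e hu))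

theorem adm_const (v : ℝ → Z2) (x : ℝ × ℝ) : Adm v fun _ => x :=
  ⟨contDiff_const, fun _ => Eventually.of_forall fun _ => rfl⟩

variable {EN HN : Type} [NormedAddCommGroup EN] [NormedSpace ℝ EN] [FiniteDimensional ℝ EN]
  [TopologicalSpace HN] {IN : ModelWithCorners ℝ EN HN} [IN.Boundaryless]
  {N : Type} [TopologicalSpace N] [ChartedSpace HN N] [IsManifold IN ∞ N] [T2Space N]
  {T : Tb IN N} {v : ℝ → Z2} {p : X T v} {r R : ℝ} {A B : ℝ → ℝ × ℝ} {U : Set (X T v)}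
  {F F' : X T v → Ext E4} {α : N → Ext EN} {η : ℝ × ℝ} {c : ℝ → ℝ}

theorem tend_time (p : X T v) : Tendsto (Prod.map (T.time v) id) (𝓝 p ×ˢ 𝓝 (T.time v p))
    (𝓝 (T.time v p) ×ˢ 𝓝 (T.time v p)) := T.continuous_time.continuousAt.tendsto.prodMap tendsto_id

theorem tq_ext (hp : p ∉ off T v) (hB : ContDiff ℝ ∞ B)
    (h : ∀ᶠ z in 𝓝 (T.time v p) ×ˢ 𝓝 (T.time v p), dr (B z.1) (v z.2) = 0) :
    ∃ β, SmAt (𝓡 4) β p ∧ IsDeg 1 (β p) ∧ ∀ᶠ q in 𝓝 p, q ∈ off T v → tq T v B q = β q :=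
  let ⟨η, β, h1, h2, h3, h4⟩ := tp_ax (m := 0) (w := fun q => B (T.time v q)) hp (sm_time hB.fst p)
    (sm_time hB.snd p) (((tend_time p).eventually h).mono fun _ k => k.trans Int.cast_zero.symm)
  ⟨β + ang (𝓡 4) (chi T v η), h2.add (smAt_ang (csm_ax hp h1)), h3.add (isDeg_io _), h4⟩

variable (T) in
/-- closed one-forms of the exterior that are `η₁ dθ₁ + η₂ dθ₂` near the core -/
structure XA (α : N → Ext EN) (η : ℝ × ℝ) (R : ℝ) : Prop where
  cl : Cl IN 1 T.Ex α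
  eq : ∀ w : Circle × ℂ, w.2 ≠ 0 → ‖w.2‖ < R →
    pm IT IN T.τ α w = η.1 • ang IT Prod.fst w + η.2 • ang IT (fun w => dir w.2) w

theorem xa_zero (T : Tb IN N) (R : ℝ) : XA T 0 0 R := ⟨Cl.zero, fun _ _ _ => by simp⟩

theorem XA.smul (h : XA T α η R) (s : ℝ) : XA T (s • α) (s • η) R :=
  ⟨h.cl.smul s, fun w a b => by
    rw [pm_smul, Pi.smul_apply, h.eq w a b, smul_add, smul_smul, smul_smul]; rfl⟩

theorem xa_ang {θ : N → Circle} {δ : Z2} (h : Ang T θ δ) (R : ℝ) : XA T (ang IN θ) (δ.1, δ.2) R :=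
  ⟨cl_ang h.sm, fun w hw _ => by
    rw [pm_ang (h.sm _ (T.τ_mem.2 hw)) ((T.ld w).mdifferentiableAt ne0), add_comm, ← ang_mon δ.2 δ.1 hw]
    exact ang_congr (eventually_of_mem (isOpen_ne2.mem_nhds hw) fun z hz => (h.eq z hz).trans (mul_comm _ _))⟩

variable (T v) in
/-- a form of the exterior on the rod manifold -/
def ax (α : N → Ext EN) : X T v → Ext E4 := pm (𝓡 4) IN (Prod.fst ∘ (T.ext v).symm) α

theorem off_eq : off T v = (T.ext v).target :=
  (Set.ext fun _ => mem_ext.symm).trans (T.ext v).image_source_eq_target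

theorem mp_ax : Mp (𝓡 4) IN (off T v) T.Ex (Prod.fst ∘ (T.ext v).symm) :=
  ⟨fun p hp => contMDiffAt_fst.comp p (ld_pd (T.ext v).symm (off_eq.le hp)).contMDiffAt,
    fun _ hp => ((T.ext v).map_target (off_eq.le hp)).1⟩

theorem XA.cl_ax (h : XA T α η R) : Cl (𝓡 4) 1 (off T v) (ax T v α) := h.cl.pm mp_ax

theorem XA.ax_eq (h : XA T α η R) (hp : p ∈ nb T v R) : ax T v α p = tq T v (fun _ => η) p := by
  obtain ⟨w, hw, rfl⟩ := exists_std hp.1 hp.2.1
  have l := ld_pd (T.rod v uni_std) (Or.inl hw)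
  have d := l.mdifferentiableAt ne0
  have n : ∀ᶠ z : (Circle × ℂ) × ℝ in 𝓝 w, z.1.2 ≠ 0 := (isOpen_ne2.preimage continuous_fst).mem_nhds hw
  have k : ∀ (δ : Z2) (g : Circle × ℂ → Circle), CSm IT g w.1 →
      (∀ z : Circle × ℂ, dir z.2 ^ dot δ (0, 1) * z.1 ^ dot δ (1, 0) = g z) →
      pm IR (𝓡 4) (T.rod v uni_std) (ang (𝓡 4) (chi T v δ)) w = pm IR IT Prod.fst (ang IT g) w :=
    fun δ g hg e => (pm_ang (csm_off hp.1 hp.2.1) d).trans ((ang_congr (n.mono fun z hz =>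
      (chi_rod _ hz).trans (e _))).trans (pm_ang hg mdifferentiableAt_fst).symm)
  refine pm_inj l ?_
  rw [ax, pm_comp ((mp_ax.sm _ hp.2.1).mdifferentiableAt ne0) d, pm_congr (g := T.τ ∘ Prod.fst) (b := α)
    (n.mono fun z hz => ?_) rfl, ← pm_comp ((T.ld _).mdifferentiableAt ne0) mdifferentiableAt_fst, pm_apply,
    h.eq _ hw (T.yy_rod uni_std (Or.inl hw) ▸ hp.2.2), pm_apply, tq_apply, map_add, map_add, map_smul,
    map_smul, map_smul, map_smul, ← pm_apply, ← pm_apply, ← pm_apply, ← pm_apply,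
    k _ _ contMDiffAt_fst (by simp [dot]), k _ _ (sm_dir hw) (by simp [dot])]
  rw [comp_apply, comp_apply, T.rod_eq_ext _ hz, gl_id]
  exact congrArg Prod.fst ((T.ext v).left_inv ⟨T.τ_mem.2 hz, trivial⟩)

variable (T v) in
/-- the potential: toric near the axis, a multiple of `α` far out -/
def pot (r : ℝ) (α : N → Ext EN) (A : ℝ → ℝ × ℝ) (c : ℝ → ℝ) : X T v → Ext E4 :=
  (1 - gw T v r) • tq T v A + gw T v r • (fun p => c (T.time v p)) • ax T v α

theorem pot_apply (p : X T v) : pot T v r α A c p =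
    (1 - gw T v r p) • tq T v A p + gw T v r p • c (T.time v p) • ax T v α p := rfl

theorem pot_near (hr : 0 < r) (h : p ∈ T.tor v) (h' : T.yy v p < r) : pot T v r α A c =ᶠ[𝓝 p] tq T v A :=
  (gw_zero hr h h').mono fun q k => by rw [pot_apply, k]; simp

theorem pot_far (hr : 0 < r) (h : ¬(p ∈ T.tor v ∧ T.yy v p ≤ 2 * r)) :
    pot T v r α A c =ᶠ[𝓝 p] (fun p => c (T.time v p)) • ax T v α :=
  (gw_one hr h).mono fun q k => by rw [pot_apply, k]; simp

theorem sm_pot (hr : 0 < r) (hA : ContDiff ℝ ∞ A) (hc : ContDiff ℝ ∞ c) (hα : XA T α η R) :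
    Sm (𝓡 4) (off T v) (pot T v r α A c) := fun p hp => by
  have k := (hα.cl_ax.sm p hp).fsmul le_rfl (sm_time hc p)
  by_cases h : p ∈ T.tor v
  · exact ((smAt_tq hA h hp).fsmul le_rfl (contMDiffAt_const.sub (sm_gw hr p))).add
      (k.fsmul le_rfl (sm_gw hr p))
  · exact k.congr (pot_far hr fun e => h e.1)

theorem dg_pot (hα : XA T α η R) : Dg 1 (off T v) (pot T v r α A c) :=
  (dg_tp.fsmul _).add ((hα.cl_ax.dg.fsmul _).fsmul _)

variable (T v) in
/-- the toric form with the potential `pot` -/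
structure TG (r : ℝ) (α : N → Ext EN) (A : ℝ → ℝ × ℝ) (c : ℝ → ℝ) (F : X T v → Ext E4) : Prop where
  pos : 0 < r
  adm : Adm v A
  sc : ContDiff ℝ ∞ c
  sm : Sm (𝓡 4) (off T v) (pot T v r α A c)
  dg : Dg 1 (off T v) (pot T v r α A c)
  cl : Cl (𝓡 4) 2 univ F
  eq : ∀ p ∈ off T v, F p = dM (𝓡 4) (pot T v r α A c) p

theorem exists_TG (hr : 0 < r) (hA : Adm v A) (hc : ContDiff ℝ ∞ c) (hα : XA T α η R) :
    ∃ F, TG T v r α A c F := by
  have s := sm_pot (v := v) hr hA.sm hc hα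
  obtain ⟨F, h1, h2, h3⟩ := exists_ext_form (I := 𝓡 4) dense_off isOpen_univ (k := 2)
    (α := dM (𝓡 4) (pot T v r α A c)) fun p _ => by
      by_cases k : p ∈ off T v
      · exact ⟨_, ⟨s.dM p k, (dg_pot hα).dM isOpen_off p k⟩, Eventually.of_forall fun _ _ => rfl⟩
      · obtain ⟨β, a1, a2, a3⟩ := tq_ext k (hA.sm.iterate_deriv 1) (hA.deriv _)
        refine ⟨df (𝓡 4) (T.time v) * β, ⟨(smAt_df (T.contMDiff_time p)).mul a1, a2.io_mul _⟩, ?_⟩
        filter_upwards [a3, ev_lt (tor_of_not_off k) ((yy_axis k).trans_lt hr)] with q b1 b2 b3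
        rw [dM_congr (pot_near hr b2.1 b2.2), dM_tq hA.sm b2.1 b3, Pi.mul_apply, ← b1 b3]
        rfl
  refine ⟨F, hr, hA, hc, s, dg_pot hα, ⟨h1, h2, fun p _ => ?_⟩, fun p => h3 p trivial⟩
  exact form_eq_of_dense dense_off ((h1 p trivial).dM.of_le (by simp)) cAt_zero
    (Eventually.of_forall fun q hq => (dM_congr (eventually_of_mem (isOpen_off.mem_nhds hq)
      fun z => h3 z trivial)).trans (s q hq).dd)

namespace TG

theorem tf (h : TG T v r α A c F) : TF T v univ F A :=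
  ⟨h.cl, h.adm.sm, _, r, h.pos, h.sm.mono inter_subset_right, fun p _ k => (h.eq p k).symm,
    fun _ k => (pot_near h.pos k.2.1 k.2.2.2).self_of_nhds⟩

/-- `F` vanishes where the potential is a multiple of `α` -/
theorem zero_of (h : TG T v r α A c F) (hα : XA T α η R) {s : ℝ}
    (k : ∀ᶠ q in 𝓝 p, q ∈ off T v → pot T v r α A c q = s • ax T v α q) : F p = 0 :=
  form_eq_of_dense dense_off ((h.cl.sm p trivial).of_le (by simp)) cAt_zero
    (k.eventually_nhds.mono fun q a b => by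
      rw [h.eq q b, dM_congr (b := s • ax T v α) ((a.and (isOpen_off.mem_nhds b)).mono fun _ e => e.1 e.2),
        (hα.cl_ax.smul s).cl q b, Pi.zero_apply])

theorem eq_zero (h : TG T v r α A c F) (hα : XA T α η R) (hR : 2 * r < R) {s : ℝ}
    (k : ∀ᶠ t in 𝓝 (T.time v p), A t = s • η ∧ c t = s) : F p = 0 :=
  h.zero_of hα (s := s) ((T.continuous_time.continuousAt.eventually k).mono fun q a b => by
    rw [pot_apply, a.2]
    by_cases e : q ∈ T.tor v ∧ T.yy v q ≤ 2 * r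
    · rw [hα.ax_eq ⟨e.1, b, e.2.trans_lt hR⟩, tq_apply, tq_apply, a.1]
      simp only [Prod.smul_fst, Prod.smul_snd, smul_eq_mul]
      module
    · rw [(gw_one h.pos e).self_of_nhds]
      simp)

theorem eq_zero_far (h : TG T v r α A c F) (hα : XA T α η R) {s : ℝ}
    (e : ¬(p ∈ T.tor v ∧ T.yy v p ≤ 2 * r)) (k : ∀ᶠ t in 𝓝 (T.time v p), c t = s) : F p = 0 :=
  h.zero_of hα (s := s) (((T.continuous_time.continuousAt.eventually k).and (pot_far h.pos e)).mono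
    fun q a _ => by rw [a.2, Pi.smul_apply', a.1])

theorem cs (h : TG T v r α A c F) {K : Set (X T v)} (hK : IsCompact K) (k : ∀ p, p ∉ K → F p = 0) :
    Cs (𝓡 4) 2 K F :=
  ⟨h.cl, HasCompactSupport.intro hK k, closure_minimal (fun p hp => by_contra fun e => hp (k p e)) hK.isClosed⟩

theorem cs_time [CompactSpace N] (h : TG T v r α A c F) (hα : XA T α η R) (hR : 2 * r < R) (hv : Loc v)
    {K : Set ℝ} (hK : IsCompact K) (k : ∀ t, t ∉ K → ∃ s, ∀ᶠ u in 𝓝 t, A u = s • η ∧ c u = s) :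
    Cs (𝓡 4) 2 (T.time v ⁻¹' K) F :=
  h.cs (T.isCompact_time hK fun x _ => hv x) fun _ hp => let ⟨_, e⟩ := k _ hp; h.eq_zero hα hR e

theorem cs_ov {s : ℝ} (h : TG T v r α A (fun _ => s) F) (hα : XA T α η R) (hR : 2 * r < R) (hv : Loc v)
    {K : Set ℝ} (hK : IsCompact K) (k : ∀ t, t ∉ K → ∀ᶠ u in 𝓝 t, A u = s • η) :
    Cs (𝓡 4) 2 (T.ov v (K ×ˢ Icc 0 (2 * r))) F :=
  h.cs (T.isCompact_ov (hK.prod isCompact_Icc) fun q _ => hv q.1) fun p hp => by
    by_cases e : p ∈ T.tor v ∧ T.yy v p ≤ 2 * r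
    · exact h.eq_zero hα hR ((k _ fun l => hp ⟨e.1, l, (T.eta_of_tor e.1).1, e.2⟩).mono fun _ l => ⟨l, rfl⟩)
    · exact h.eq_zero_far hα e (Eventually.of_forall fun _ => rfl)

theorem pot' (h : TG T v r α A c F) {m : ℝ → ℤ} (hm : ∀ t, dr (A t) (v t) = m t) :
    Pot T v m (pot T v r α A c) U :=
  pot_tp (h.sm.mono inter_subset_right) (h.dg.mono inter_subset_right) fun x _ k =>
    ⟨fun q => A (T.time v q), sm_time h.adm.sm.fst x, sm_time h.adm.sm.snd x,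
      ((tend_time x).eventually (h.adm.ev _)).mono fun _ e => e.trans (hm _),
      (pot_near h.pos (tor_of_not_off k) ((yy_axis k).trans_lt h.pos)).mono fun _ e _ => e⟩

/-- **a toric line has a connection with curvature `F`** -/
theorem exists_conn (h : TG T v r α A c F) {m : ℝ → ℤ} (hm : ∀ t, dr (A t) (v t) = m t) {κ : Type*}
    [Fintype κ] {q : X T v → Matrix κ κ ℂ} {s : X T v → Matrix κ Unit ℂ} (hU : IsOpen U)
    (hL : TL T v m q s U) : ∃ a, (⟨q, a⟩ : Ln E4 _ κ).On (𝓡 4) U ∧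
      (⟨q, a⟩ : Ln E4 _ κ).Fr (𝓡 4) s (pot T v r α A c) (U ∩ off T v) ∧
      EqOn ((⟨q, a⟩ : Ln E4 _ κ).F (𝓡 4)) F U :=
  let ⟨a, h1, h2⟩ := hL.exists_conn hU (h.pot' hm)
  ⟨a, h1, h2, fun _ => F_eq_of_pot hU h1 h2 (h.cl.sm.mono (subset_univ _)) fun x _ => h.eq x⟩

end TG

/-! ### words -/

section pth

variable {V : Type*} [NormedAddCommGroup V] [NormedSpace ℝ V] {m : ℤ → V} {t : ℝ} {j : ℤ} {x : V}

/-- the path that is `m j` near the time `j` -/
def pth (m : ℤ → V) (t : ℝ) : V := m ⌊t⌋ + sw (1 / 3) (t - ⌊t⌋) • (m (⌊t⌋ + 1) - m ⌊t⌋)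

theorem pth_eq (h : t ∈ Ioo ((j : ℝ) - 1 / 3) (j + 1)) :
    pth m t = m j + sw (1 / 3) (t - j) • (m (j + 1) - m j) := by
  rcases lt_or_ge t j with k | k
  · have e : ⌊t⌋ = j - 1 := Int.floor_eq_iff.2 ⟨by push_cast; linarith [h.1], by push_cast; linarith⟩
    rw [pth, e, sw_one (by norm_num) (by push_cast; linarith [h.1]), sw_zero (by norm_num) (by linarith)]
    simp
  · rw [pth, Int.floor_eq_iff.2 ⟨k, h.2⟩]

theorem mem_fl (t : ℝ) : t ∈ Ioo ((⌊t⌋ : ℝ) - 1 / 3) (⌊t⌋ + 1) :=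
  ⟨by linarith [Int.floor_le t], Int.lt_floor_add_one t⟩

theorem pth_ev (m : ℤ → V) (t : ℝ) :
    pth m =ᶠ[𝓝 t] fun s => m ⌊t⌋ + sw (1 / 3) (s - ⌊t⌋) • (m (⌊t⌋ + 1) - m ⌊t⌋) :=
  eventually_of_mem (isOpen_Ioo.mem_nhds (mem_fl t)) fun _ => pth_eq

theorem contDiff_pth (m : ℤ → V) : ContDiff ℝ ∞ (pth m) := contDiff_iff_contDiffAt.2 fun t =>
  (contDiff_const.add (((contDiff_sw _).comp (contDiff_id.sub contDiff_const)).smul
    contDiff_const)).contDiffAt.congr_of_eventuallyEq (pth_ev m t)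

theorem deriv_pth (m : ℤ → V) (t : ℝ) :
    deriv (pth m) t = deriv (sw (1 / 3)) (t - ⌊t⌋) • (m (⌊t⌋ + 1) - m ⌊t⌋) :=
  ((((((contDiff_sw _).differentiable (by simp) _).hasDerivAt.comp_sub_const t _).smul_const _).const_add
    _).congr_of_eventuallyEq (pth_ev m t)).deriv

theorem pth_int (h : |t - j| < 1 / 3) : pth m t = m j := by
  rw [pth_eq (j := j) ⟨by linarith [(abs_lt.1 h).1], by linarith [(abs_lt.1 h).2]⟩,
    sw_zero (by norm_num) (abs_lt.1 h).2.le, zero_smul, add_zero]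

theorem pth_lo (h : ∀ i, i ≤ j → m i = x) (ht : t ≤ j + 1 / 3) : pth m t = x := by
  have k : ⌊t⌋ ≤ j := Int.lt_add_one_iff.1 (Int.floor_lt.2 (by push_cast; linarith))
  rw [pth, h _ k]
  rcases k.lt_or_eq with k | k
  · rw [h _ k, sub_self, smul_zero, add_zero]
  · rw [sw_zero (by norm_num) (by rw [k]; linarith), zero_smul, add_zero]

theorem pth_hi (h : ∀ i, j ≤ i → m i = x) (ht : j - 1 / 3 ≤ t) : pth m t = x := by
  have k : j - 1 ≤ ⌊t⌋ := Int.le_floor.2 (by push_cast; linarith)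
  rw [pth, h (⌊t⌋ + 1) (by omega)]
  rcases k.lt_or_eq with k | k
  · rw [h _ (by omega), sub_self, smul_zero, add_zero]
  · rw [sw_one (by norm_num) (by rw [← k]; push_cast; linarith), one_smul, add_sub_cancel]

theorem pth_const (x : V) : pth (fun _ => x) = fun _ => x := funext fun _ => by simp [pth]

theorem pth_smul (n : ℤ → ℝ) (x : V) (t : ℝ) : pth (fun j => n j • x) t = pth n t • x := by
  simp only [pth, smul_eq_mul]
  module

end pth

section wd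

variable {a : ℤ → Z2} {m m' : ℤ → ℝ × ℝ} {n n' : ℤ → ℝ}

theorem dr_pth {j : ℤ} {t : ℝ} (h : dr (m (j + 1) - m j) (a j) = 0) (ht : t ∈ Ioo ((j : ℝ) - 1 / 3) (j + 1)) :
    dr (pth m t) (a j) = dr (m j) (a j) := by
  rw [pth_eq ht]
  simp only [dr, Prod.fst_add, Prod.snd_add, Prod.smul_fst, Prod.smul_snd, smul_eq_mul] at h ⊢
  linear_combination sw (1 / 3) (t - j) * h

theorem adm_pth (h : ∀ j, dr (m (j + 1) - m j) (a j) = 0) : Adm (wd a) (pth m) := by
  refine ⟨contDiff_pth m, fun t => ?_⟩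
  rcases (Int.floor_le t).lt_or_eq with k | k
  · have o := isOpen_Ioo.mem_nhds (show t ∈ Ioo (⌊t⌋ : ℝ) (⌊t⌋ + 1) from ⟨k, Int.lt_floor_add_one t⟩)
    refine eventually_of_mem (prod_mem_prod o o) fun z hz => ?_
    rw [wd_of_mem hz.2, dr_pth (h _) ⟨by linarith [hz.1.1], hz.1.2⟩,
      dr_pth (h _) ⟨by linarith [hz.2.1], hz.2.2⟩]
  · have o : Metric.ball (⌊t⌋ : ℝ) (1 / 3) ∈ 𝓝 t := by rw [k]; exact Metric.ball_mem_nhds _ (by norm_num)
    refine eventually_of_mem (prod_mem_prod o o) fun z hz => ?_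
    rw [pth_int (j := ⌊t⌋) hz.1, pth_int (j := ⌊t⌋) hz.2]

theorem dr_wd {k : ℤ → ℤ} (h : ∀ j, dr (m (j + 1) - m j) (a j) = 0) (hk : ∀ j, dr (m j) (a j) = k j) (t : ℝ) :
    dr (pth m t) (wd a t) = wm a k t := by
  rw [wm, Rod53.wd]
  split_ifs
  · simp [dr]
  · rw [dr_pth (h _) (mem_fl t), hk]

theorem det2_perp {x y : ℝ × ℝ} {b : Z2} (hb : b ≠ 0) (h : dr x b = 0) (h' : dr y b = 0) : det2 x y = 0 := by
  unfold dr at h h'
  by_cases k : b.1 = 0
  · have : (b.2 : ℝ) ≠ 0 := by exact_mod_cast fun e => hb (Prod.ext k e)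
    exact mul_left_cancel₀ this (by unfold det2; linear_combination x.1 * h' - y.1 * h)
  · have : (b.1 : ℝ) ≠ 0 := by exact_mod_cast k
    exact mul_left_cancel₀ this (by unfold det2; linear_combination y.2 * h - x.2 * h')

theorem integral_om {S : Finset ℤ} (hS : ∀ j, j ∉ S → m' (j + 1) = m' j)
    (h : ∀ j ∈ S, det2 (m (j + 1) - m j) (m' (j + 1) - m' j) = 0) :
    ∫ t, om (pth m) (pth m') t = ∑ j ∈ S, det2 (m j) (m' (j + 1) - m' j) := by
  have h3 : (0 : ℝ) < 1 / 3 := by norm_num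
  have e : ∀ t, om (pth m) (pth m') t =
      ∑ j ∈ S, deriv (sw (1 / 3)) (t - j) * det2 (m j) (m' (j + 1) - m' j) := fun t => by
    rw [Finset.sum_eq_single ⌊t⌋ (fun j _ k => ?_) fun k => by simp [hS _ k, det2], om, deriv_pth, pth]
    · by_cases k : ⌊t⌋ ∈ S
      · have := h _ k
        simp only [det2, Prod.fst_add, Prod.snd_add, Prod.smul_fst, Prod.smul_snd, smul_eq_mul] at this ⊢
        linear_combination deriv (sw (1 / 3)) (t - ⌊t⌋) * sw (1 / 3) (t - ⌊t⌋) * this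
      · simp [hS _ k, det2]
    · rw [deriv_sw h3 fun l => k (Int.floor_eq_iff.2 ⟨by linarith [l.1], by linarith [l.2]⟩).symm, zero_mul]
  rw [funext e, integral_finsetSum _ fun j _ => Integrable.mul_const (Integrable.comp_sub_right
    (((contDiff_sw _).continuous_deriv (by simp)).integrable_of_hasCompactSupport
      (HasCompactSupport.intro isCompact_Icc fun _ => deriv_sw h3)) _) _]
  exact Finset.sum_congr rfl fun j _ => by
    rw [integral_mul_const, integral_sub_right_eq_self (deriv (sw (1 / 3))), integral_deriv_sw h3, one_mul]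

variable (T a) in
/-- the toric form of a sequence of characters `m` and of multiples `n` of `α` -/
structure WF (r : ℝ) (α : N → Ext EN) (m : ℤ → ℝ × ℝ) (n : ℤ → ℝ) (F : X T (wd a) → Ext E4) : Prop where
  step : ∀ j, dr (m (j + 1) - m j) (a j) = 0
  tg : TG T (wd a) r α (pth m) (pth n) F

theorem exists_WF (hr : 0 < r) (hα : XA T α η R) (h : ∀ j, dr (m (j + 1) - m j) (a j) = 0) (n : ℤ → ℝ) :
    ∃ F, WF T a r α m n F :=
  let ⟨F, k⟩ := exists_TG hr (adm_pth h) (contDiff_pth n) hα; ⟨F, h, k⟩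

variable {F F' : X T (wd a) → Ext E4} {i j : ℤ} {s s' r' : ℝ} {α' : N → Ext EN}

theorem out_Icc {t : ℝ} (h : t ∉ Icc ((i : ℝ) + 1 / 3) (j - 1 / 3)) :
    (∀ᶠ u in 𝓝 t, u ≤ (i : ℝ) + 1 / 3) ∨ ∀ᶠ u in 𝓝 t, (j : ℝ) - 1 / 3 ≤ u :=
  (not_and_or.1 h).imp (fun k => eventually_le_nhds (not_le.1 k)) fun k => eventually_ge_nhds (not_le.1 k)

theorem WF.cs_time [CompactSpace N] (h : WF T a r α m n F) (hα : XA T α η R) (hR : 2 * r < R) (ha : IsWd a)
    (h1 : ∀ k, k ≤ i → m k = s • η ∧ n k = s) (h2 : ∀ k, j ≤ k → m k = s' • η ∧ n k = s') :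
    Cs (𝓡 4) 2 (T.time (wd a) ⁻¹' Icc (i + 1 / 3) (j - 1 / 3)) F :=
  h.tg.cs_time hα hR ha.loc isCompact_Icc fun _ ht => (out_Icc ht).elim
    (fun k => ⟨s, k.mono fun _ e => ⟨pth_lo (fun l b => (h1 l b).1) e, pth_lo (fun l b => (h1 l b).2) e⟩⟩)
    fun k => ⟨s', k.mono fun _ e => ⟨pth_hi (fun l b => (h2 l b).1) e, pth_hi (fun l b => (h2 l b).2) e⟩⟩

theorem WF.cs_ov (h : WF T a r α m (fun _ => s) F) (hα : XA T α η R) (hR : 2 * r < R) (ha : IsWd a)
    (h1 : ∀ k, k ≤ i → m k = s • η) (h2 : ∀ k, j ≤ k → m k = s • η) :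
    Cs (𝓡 4) 2 (T.ov (wd a) (Icc ((i : ℝ) + 1 / 3) (j - 1 / 3) ×ˢ Icc 0 (2 * r))) F :=
  (pth_const s ▸ h.tg).cs_ov hα hR ha.loc isCompact_Icc fun _ ht => (out_Icc ht).elim
    (fun k => k.mono fun _ => pth_lo h1) fun k => k.mono fun _ => pth_hi h2

theorem WF.exists_conn (h : WF T a r α m n F) {k : ℤ → ℤ} (hk : ∀ j, dr (m j) (a j) = k j) {κ : Type*}
    [Fintype κ] {q : X T (wd a) → Matrix κ κ ℂ} {s : X T (wd a) → Matrix κ Unit ℂ} {U : Set (X T (wd a))}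
    (hU : IsOpen U) (hL : TL T (wd a) (wm a k) q s U) : ∃ b, (⟨q, b⟩ : Ln E4 _ κ).On (𝓡 4) U ∧
      (⟨q, b⟩ : Ln E4 _ κ).Fr (𝓡 4) s (pot T (wd a) r α (pth m) (pth n)) (U ∩ off T (wd a)) ∧
      EqOn ((⟨q, b⟩ : Ln E4 _ κ).F (𝓡 4)) F U := h.tg.exists_conn (dr_wd h.step hk) hU hL

variable (T a) in
/-- `F` is cohomologous on `U` to a toric form with the characters `m` -/
structure WC (U : Set (X T (wd a))) (F : X T (wd a) → Ext E4) (m : ℤ → ℝ × ℝ) : Prop where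
  cl : Cl (𝓡 4) 2 U F
  step : ∀ j, dr (m (j + 1) - m j) (a j) = 0
  ex : ∃ G, TF T (wd a) U G (pth m) ∧ Ex (𝓡 4) U (F - G)

variable {U V : Set (X T (wd a))}

theorem WF.wc (h : WF T a r α m n F) (U : Set (X T (wd a))) : WC T a U F m :=
  ⟨h.tg.cl.mono (subset_univ _), h.step, F, h.tg.tf.mono (subset_univ _), ex_of_zero fun _ _ => sub_self _⟩

theorem WC.mono (h : WC T a U F m) (hV : V ⊆ U) : WC T a V F m :=
  let ⟨G, h1, h2⟩ := h.ex; ⟨h.cl.mono hV, h.step, G, h1.mono hV, h2.mono hV⟩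

theorem WC.coh (h : WC T a U F m) (hc : Cl (𝓡 4) 2 U F') (e : Ex (𝓡 4) U (F' - F)) : WC T a U F' m :=
  let ⟨G, h1, h2⟩ := h.ex; ⟨hc, h.step, G, h1, e.trans h2⟩

theorem pth_add (m m' : ℤ → ℝ × ℝ) : pth (m + m') = pth m + pth m' := funext fun t => by
  simp only [pth, Pi.add_apply]
  module

theorem pth_smul' (s : ℝ) (m : ℤ → ℝ × ℝ) : pth (s • m) = s • pth m := funext fun t => by
  simp only [pth, Pi.smul_apply]
  module

theorem WC.add (h : WC T a U F m) (h' : WC T a U F' m') : WC T a U (F + F') (m + m') :=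
  let ⟨G, h1, h2⟩ := h.ex
  let ⟨G', k1, k2⟩ := h'.ex
  ⟨h.cl.add h'.cl, fun j => by
    have := h.step j
    have := h'.step j
    simp only [dr, Pi.add_apply, Prod.fst_add, Prod.snd_add, Prod.fst_sub, Prod.snd_sub] at *
    linarith, G + G', pth_add m m' ▸ h1.add k1, add_sub_add_comm F F' G G' ▸ h2.add k2⟩

theorem WC.smul (s : ℝ) (h : WC T a U F m) : WC T a U (s • F) (s • m) :=
  let ⟨G, h1, h2⟩ := h.ex
  ⟨h.cl.smul s, fun j => by
    have := h.step j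
    simp only [dr, Pi.smul_apply, Prod.smul_fst, Prod.smul_snd, Prod.fst_sub, Prod.snd_sub, smul_eq_mul] at *
    linear_combination s * this, s • G, pth_smul' s m ▸ h1.smul s, smul_sub s F G ▸ h2.smul s⟩

/-- the curvature of any connection on a toric line -/
theorem wc_line {k : ℤ → ℤ} (h : ∀ j, dr (m (j + 1) - m j) (a j) = 0) (hk : ∀ j, dr (m j) (a j) = k j)
    {κ : Type*} [Fintype κ] {L : Ln E4 (X T (wd a)) κ} {s : X T (wd a) → Matrix κ Unit ℂ} (hU : IsOpen U)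
    (hL : L.On (𝓡 4) U) (hT : TL T (wd a) (wm a k) L.p s U) : WC T a U (L.F (𝓡 4)) m := by
  obtain ⟨F, hF⟩ := exists_WF one_pos (xa_zero T 1) h 0
  obtain ⟨b, h1, -, h3⟩ := hF.exists_conn hk hU hT
  exact (hF.wc U).coh (hL.cl_F hU) ((Uni.ex_F (L := ⟨L.p, b⟩) hU (Iso.refl hU hL).toUni h1 hL).congr
    fun x hx => by rw [Pi.sub_apply, Pi.sub_apply, h3 hx])

/-- real characters of integral ones -/
def rc2 (e : Z2) : ℝ × ℝ := (e.1, e.2)

theorem dr_rc2 (e b : Z2) : dr (rc2 e) b = dot e b := by simp [dr, rc2, dot]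

theorem dr_sub (x y : ℝ × ℝ) (b : Z2) : dr (x - y) b = dr x b - dr y b := by simp [dr]; ring

theorem wc_line' {k : ℤ → ℤ} {e : ℤ → Z2} (h : ∀ j, dot (e j) (a (j - 1)) = k (j - 1) ∧ dot (e j) (a j) = k j)
    {κ : Type*} [Fintype κ] {L : Ln E4 (X T (wd a)) κ} {s : X T (wd a) → Matrix κ Unit ℂ} (hU : IsOpen U)
    (hL : L.On (𝓡 4) U) (hT : TL T (wd a) (wm a k) L.p s U) : WC T a U (L.F (𝓡 4)) fun j => rc2 (e j) :=
  wc_line (fun j => by
    have := (h (j + 1)).1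
    rw [add_sub_cancel_right] at this
    rw [dr_sub, dr_rc2, dr_rc2, this, (h j).2, sub_self]) (fun j => by rw [dr_rc2, (h j).2]) hU hL hT

/-- **the intersection number on a word** -/
theorem WC.ip_eq [MeasurableSpace E4] [BorelSpace E4] [MeasurableSpace (X T (wd a))] [BorelSpace (X T (wd a))]
    [SecondCountableTopology (X T (wd a))] {o : N → Ext EN} {O : X T (wd a) → Ext E4} (hO : OX T (wd a) o O)
    (hτ : Pos IT IN T.τ {z | z.2 ≠ 0} oT o) (ha : IsWd a) (hU : IsOpen U) (h : WC T a U F m)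
    (h' : WF T a r' α' m' n' F') (hc : Cs (𝓡 4) 2 U F') {S : Finset ℤ} (hS : ∀ j, j ∉ S → m' (j + 1) = m' j) :
    ip (𝓡 4) O F F' = -((2 * π) ^ 2 * ∑ j ∈ S, det2 (m j) (m' (j + 1) - m' j)) := by
  obtain ⟨G, h1, h2⟩ := h.ex
  rw [hc.ip_coh hO.ori h.cl.sm h1.cl.sm h2, h1.ip_eq hO hτ hU h'.tg.tf hc, integral_om hS fun j _ =>
    det2_perp (let ⟨_, k⟩ := ha.prim j; (PM.refl _).ne_zero k) (h.step j) (h'.step j)]

end wd

end Crest.Agent.X212.Dr59
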