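import Crest.Agent.X212.Dr59.Rod
import Crest.Agent.X212.Cg28.Defs

/-!
# X212 / Dr59, part 12 (helper59): `Cg28.HdlStmt`
-/

set_option autoImplicit false

open Set
open scoped Manifold
open Crest.Agent.X212.Rod53

namespace Crest.Agent.X212.Dr59

open Cg28 in
/-- **HDL** -/
theorem hdlStmt : HdlStmt := fun B L c α β γ h1 h2 h => by
  have : SigmaCompactSpace (Rod53.X B.T (wd c.a)) := Int54.sigmaCompact (I := 𝓡 4) (B.X c)
  have h3 : β ≤ γ := le_of_forall_lt_imp_le_of_dense fun t ht => by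
    have k := B.T.time_ext (v := c.v) (p := (B.T.τ (1, 1), max t ((α + β) / 2))) (B.T.τ_mem.2 one_ne_zero)
    have := h (a := B.T.ext c.v (B.T.τ (1, 1), max t ((α + β) / 2))) (by
      rw [mem_preimage, Bs.tm, k]
      exact ⟨lt_max_of_lt_right (by linarith), max_lt ht (by linarith)⟩)
    rw [mem_preimage, Bs.tm, k] at this
    exact (le_max_left _ _).trans this.2.le
  refine Rk.mono (hd_time (T := B.T) c.isWd h1 h3).kb ((nv_le (s := Finset.Icc 2 (c.n + 1)) fun j _ _ hu => ?_).trans
    (by simp))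
  rw [Finset.mem_Icc]
  by_contra k
  refine hu.not_pm (Or.inl ?_)
  rcases not_and_or.1 k with k | k
  · rw [c.lo _ (by omega), c.lo j (by omega)]
  · rw [c.hi _ (by omega), c.hi j (by omega)]

end Crest.Agent.X212.Dr59
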