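import Crest.Agent.X212.Dr59.Tex
import Crest.Agent.X212.Cg28.Frm

/-!
# X212 / Dr59, part 9 (helper59): the closed two-form of one vertex, `Cg28.FrmStmt`
-/

set_option autoImplicit false
set_option linter.unusedSectionVars false
set_option linter.style.haveILetI false

open Set Filter Topology Function Module MeasureTheory
open scoped ContDiff Manifold Real
open Crest.Agent.R208 Crest.Agent.R208.FI
open Crest.Agent.R208.F hiding wd
open Crest.Agent.X212.Int54 hiding dt pr kap tp_pr pr_eq cAt_pr pm_pr kap_ne sigmaCompact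
open Crest.Agent.X212.Line51 hiding tp Uni
open Crest.Agent.X212.Orx52 Crest.Agent.X212.Rod53 Crest.Agent.X212.Pj41
open Crest.Agent.X212.Glue52 (dir)

noncomputable section

namespace Crest.Agent.X212.Dr59

/-- the step before the vertex -/
def s1 (c t : ℝ) : ℝ := sw (1 / 12) (t - (c - 1 / 4))

/-- the step after the vertex -/
def s2 (c t : ℝ) : ℝ := sw (1 / 12) (t - c)

/-- the path from `x + y` through `y` to `0` -/
def vp (c : ℝ) (x y : ℝ × ℝ) (t : ℝ) : ℝ × ℝ := (1 - s1 c t) • x + (1 - s2 c t) • y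

section vp

variable {c t s u : ℝ} {x y : ℝ × ℝ} {v : ℝ → Z2} {a b : Z2}

theorem h12 : (0 : ℝ) < 1 / 12 := by norm_num

theorem s1_zero (h : t ≤ c - 1 / 6) : s1 c t = 0 := sw_zero h12 (by linarith)
theorem s1_one (h : c - 1 / 12 ≤ t) : s1 c t = 1 := sw_one h12 (by linarith)
theorem s2_zero (h : t ≤ c + 1 / 12) : s2 c t = 0 := sw_zero h12 (by linarith)
theorem s2_one (h : c + 1 / 6 ≤ t) : s2 c t = 1 := sw_one h12 (by linarith)

theorem cd_s1 (c : ℝ) : ContDiff ℝ ∞ (s1 c) := (contDiff_sw _).comp (contDiff_id.sub contDiff_const)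
theorem cd_s2 (c : ℝ) : ContDiff ℝ ∞ (s2 c) := (contDiff_sw _).comp (contDiff_id.sub contDiff_const)

theorem cd_vp (c : ℝ) (x y : ℝ × ℝ) : ContDiff ℝ ∞ (vp c x y) :=
  ((contDiff_const.sub (cd_s1 c)).smul contDiff_const).add ((contDiff_const.sub (cd_s2 c)).smul contDiff_const)

theorem vp_lo (h : t ≤ c - 1 / 6) : vp c x y t = x + y := by
  simp [vp, s1_zero h, s2_zero (show t ≤ c + 1 / 12 by linarith)]

theorem vp_hi (h : c + 1 / 6 ≤ t) : vp c x y t = 0 := by
  simp [vp, s2_one h, s1_one (show c - 1 / 12 ≤ t by linarith)]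

theorem dr_pm {w : Z2} (h : PM w a) (hx : dr x a = 0) : dr x w = 0 := by
  rcases h with rfl | rfl
  · exact hx
  · simp only [dr, Prod.fst_neg, Prod.snd_neg, Int.cast_neg] at *
    linarith

theorem dr_vp (hx : dr x a = 0) (hy : dr y b = 0) (hu : u ∈ Jv v a b c) (h : |s - u| < 1 / 12) :
    dr (vp c x y s - y) (v u) = 0 := by
  have k := (mem_Jv.1 hu).self_of_nhds
  rw [abs_lt] at h
  rcases lt_trichotomy u c with e | e | e
  · have := dr_pm (k.1 e) hx
    simp only [vp, s2_zero (show s ≤ c + 1 / 12 by linarith), dr, Prod.fst_add, Prod.snd_add, Prod.fst_sub,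
      Prod.snd_sub, Prod.smul_fst, Prod.smul_snd, smul_eq_mul] at *
    linear_combination (1 - s1 c s) * this
  · simp [k.2.1 e, dr]
  · have := dr_pm (k.2.2 e) hy
    simp only [vp, s1_one (show c - 1 / 12 ≤ s by linarith), dr, Prod.fst_add, Prod.snd_add, Prod.fst_sub,
      Prod.snd_sub, Prod.smul_fst, Prod.smul_snd, smul_eq_mul] at *
    linear_combination (-s2 c s) * this

theorem ev_vp (hx : dr x a = 0) (hy : dr y b = 0) (ht : t ∈ Jv v a b c) :
    ∀ᶠ z in 𝓝 t ×ˢ 𝓝 t, z.2 ∈ Jv v a b c ∧ dr (vp c x y z.1 - y) (v z.2) = 0 := by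
  rw [← nhds_prod_eq]
  filter_upwards [(isOpen_interior.preimage continuous_snd).mem_nhds (show (t, t).2 ∈ Jv v a b c from ht),
    (isOpen_lt (by fun_prop) continuous_const : IsOpen {z : ℝ × ℝ | |z.1 - z.2| < 1 / 12}).mem_nhds
      (by simp)] with z h1 h2 using ⟨h1, dr_vp hx hy h1 h2⟩

theorem ev_out (h : t ∉ Icc (c - 1 / 6) (c + 1 / 6)) :
    ∃ s : ℝ, ∀ᶠ u in 𝓝 t, vp c x y u = s • (x + y) ∧ 1 - s1 c u = s := by
  rcases not_and_or.1 h with h | h
  · exact ⟨1, eventually_of_mem (Iio_mem_nhds (not_le.1 h)) fun u k => by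
      simp [vp_lo (le_of_lt k), s1_zero (le_of_lt k)]⟩
  · exact ⟨0, eventually_of_mem (Ioi_mem_nhds (not_le.1 h)) fun u k => by
      simp [vp_hi (le_of_lt k), s1_one (show c - 1 / 12 ≤ u by linarith [mem_Ioi.1 k])]⟩

theorem adm_vp (hx : dr x a = 0) (hy : dr y b = 0) (hJ : Icc (c - 1 / 6) (c + 1 / 6) ⊆ Jv v a b c) :
    Adm v (vp c x y) := ⟨cd_vp c x y, fun t => by
  by_cases h : t ∈ Icc (c - 1 / 6) (c + 1 / 6)
  · filter_upwards [ev_vp hx hy (hJ h)] with z k
    have := dr_vp (s := z.2) hx hy k.1 (by simp)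
    rw [dr_sub] at this k
    linarith [k.2]
  · obtain ⟨s, k⟩ := ev_out (x := x) (y := y) h
    exact (k.prod_mk k).mono fun z e => by rw [e.1.1, e.2.1]⟩

theorem integral_vp (c : ℝ) (x y : ℝ × ℝ) : ∫ t, om (vp c x y) (vp c x y) t = det2 x y := by
  have e : ∀ t, om (vp c x y) (vp c x y) t = deriv (sw (1 / 12)) (t - (c - 1 / 4)) * det2 x y := fun t => by
    have d : ∀ z, HasDerivAt (fun t => sw (1 / 12) (t - z)) (deriv (sw (1 / 12)) (t - z)) t := fun z =>
      ((contDiff_sw _).differentiable (by simp) _).hasDerivAt.comp_sub_const t z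
    rw [om, show deriv (vp c x y) t = _ from
      ((((d _).const_sub 1).smul_const x).add (((d _).const_sub 1).smul_const y)).deriv]
    simp only [vp, det2, Prod.fst_add, Prod.snd_add, Prod.smul_fst, Prod.smul_snd, smul_eq_mul]
    rcases le_total t c with k | k
    · rw [s2_zero (by linarith), deriv_sw h12 (y := t - c) fun l => by linarith [l.1]]
      ring
    · rw [s1_one (by linarith), deriv_sw h12 (y := t - (c - 1 / 4)) fun l => by linarith [l.2]]
      ring
  rw [funext e, integral_mul_const, integral_sub_right_eq_self (deriv (sw (1 / 12))), integral_deriv_sw h12,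
    one_mul]

end vp

variable {EN HN : Type} [NormedAddCommGroup EN] [NormedSpace ℝ EN] [FiniteDimensional ℝ EN]
  [TopologicalSpace HN] {IN : ModelWithCorners ℝ EN HN} [IN.Boundaryless]
  {N : Type} [TopologicalSpace N] [ChartedSpace HN N] [IsManifold IN ∞ N] [T2Space N]
  {T : Tb IN N} {v : ℝ → Z2} {p : X T v} {r R : ℝ} {A : ℝ → ℝ × ℝ} {F : X T v → Ext E4} {α : N → Ext EN}
  {η y : ℝ × ℝ} {c : ℝ → ℝ}

theorem tq_sub (A B : ℝ → ℝ × ℝ) : tq T v (A - B) = tq T v A - tq T v B := funext fun p => by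
  simp only [tq_apply, Pi.sub_apply, Prod.fst_sub, Prod.snd_sub]
  module

/-- a potential on the toric part over `J` -/
theorem TG.exists_pot (h : TG T v r α A c F) {J : Set ℝ} (hJ : IsOpen J)
    (k : ∀ t ∈ J, ∀ᶠ z in 𝓝 t ×ˢ 𝓝 t, dr (A z.1 - y) (v z.2) = 0) :
    ∃ β, (∀ p ∈ T.tor v, T.time v p ∈ J → SmAt (𝓡 4) β p ∧ IsDeg 1 (β p) ∧ dM (𝓡 4) β p = F p) ∧
      ∀ p ∈ off T v, β p = pot T v r α A c p - tq T v (fun _ => y) p := by
  classical
  have hU : IsOpen (T.tor v ∩ T.time v ⁻¹' J) := T.isOpen_tor.inter (hJ.preimage T.continuous_time)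
  obtain ⟨β, h1, h2, h3⟩ := exists_ext_form (I := 𝓡 4) dense_off hU (k := 1)
    (α := pot T v r α A c - tq T v fun _ => y) fun p hp => by
      by_cases e : p ∈ off T v
      · exact ⟨_, ⟨(h.sm p e).sub (smAt_tq contDiff_const hp.1 e), ((h.dg.sub dg_tp) p e)⟩,
          Eventually.of_forall fun _ _ => rfl⟩
      · obtain ⟨β, a1, a2, a3⟩ := tq_ext (B := A - fun _ => y) e (h.adm.sm.sub contDiff_const) (k _ hp.2)
        refine ⟨β, ⟨a1, a2⟩, ?_⟩
        filter_upwards [a3, pot_near (α := α) (A := A) (c := c) h.pos hp.1 ((yy_axis e).trans_lt h.pos)]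
          with q b1 b2 b3
        rw [← b1 b3, tq_sub, Pi.sub_apply, Pi.sub_apply, b2]
  have h4 : EqOn ((off T v).piecewise (pot T v r α A c - tq T v fun _ => y) β) β (T.tor v ∩ T.time v ⁻¹' J) :=
    fun p hp => by
      by_cases e : p ∈ off T v
      · rw [piecewise_eq_of_mem _ _ _ e, h3 p hp e]
      · exact piecewise_eq_of_notMem _ _ _ e
  refine ⟨(off T v).piecewise (pot T v r α A c - tq T v fun _ => y) β, fun p hp ht => ?_,
    fun p e => piecewise_eq_of_mem _ _ _ e⟩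
  have h5 := eventually_of_mem (hU.mem_nhds ⟨hp, ht⟩) h4
  refine ⟨(h1 p ⟨hp, ht⟩).congr h5, h4 ⟨hp, ht⟩ ▸ h2 p ⟨hp, ht⟩, (dM_congr h5).trans ?_⟩
  refine form_eq_of_dense dense_off ((h1 p ⟨hp, ht⟩).dM.of_le (by simp)) ((h.cl.sm p trivial).of_le (by simp))
    (eventually_of_mem (hU.mem_nhds ⟨hp, ht⟩) fun q hq e => ?_)
  rw [dM_congr (eventually_of_mem ((hU.inter isOpen_off).mem_nhds ⟨hq, e⟩) fun z hz => h3 z hz.1 hz.2),
    dM_sub ne0 (h.sm q e) (smAt_tq contDiff_const hq.1 e), dM_tq contDiff_const hq.1 e, ← h.eq q e, tq_apply]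
  simp

theorem TG.sq_far (h : TG T v r α A c F) (hα : XA T α η R) (e : ¬(p ∈ T.tor v ∧ T.yy v p ≤ 2 * r)) :
    (F * F) p = 0 := by
  have k : p ∈ off T v := by_contra fun k => e ⟨tor_of_not_off k, (yy_axis k).trans_le (by linarith [h.pos])⟩
  have d := (h.cl.dg p trivial)
  rw [Pi.mul_apply, h.eq p k, dM_congr (pot_far h.pos e), dM_fsmul ne0 ((sm_time h.sc p).mdifferentiableAt ne0)
    (hα.cl_ax.sm p k), hα.cl_ax.cl p k, smul_zero, add_zero] at *
  rw [mul_assoc, ← Num57.ext_ev (x := _ * _) (by rw [inv_of_deg d]; simp) (ax T v α p), ← mul_assoc,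
    ← mul_assoc, df, io_sq, zero_mul, zero_mul]

open Cg28 in
/-- **FRM** -/
theorem frmStmt : FrmStmt := fun B L c i h1 h2 => by
  have hu := c.uni h1 h2
  set a := c.a (i - 1)
  set b := c.a i
  have hd : dt a b = -1 := c.det i h1 h2
  have hJ : Ioo ((i : ℝ) - 1) (i + 1) ⊆ Jv c.v a b i := Ioo_subset_Jv hu
  set y : ℝ × ℝ := c.t (i - 1) • rc2 (dual a b 1 0) with ey
  have hy : dr y b = 0 := by
    have := dr_rc2 (dual a b 1 0) b
    rw [dual_right hu] at this
    simp only [ey, dr, Prod.smul_fst, Prod.smul_snd, smul_eq_mul, Int.cast_zero] at *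
    linear_combination c.t (i - 1) * this
  have hx : dr (rc2 (0, 1) - y) a = 0 := by
    have := dr_rc2 (dual a b 1 0) a
    rw [dual_left hu] at this
    simp only [ey, dr, rc2, Prod.smul_fst, Prod.smul_snd, Prod.fst_sub, Prod.snd_sub, smul_eq_mul,
      Int.cast_zero, Int.cast_one, Ch.t] at *
    linear_combination -((c.a (i - 1)).2 : ℝ) * this
  have hα : ∀ R, XA B.T (ang (𝓡 3) B.θ) (rc2 (0, 1) - y + y) R := fun R => by
    rw [sub_add_cancel]
    exact xa_ang ⟨B.sm, fun w hw => by simp [B.θτ w hw, chT]⟩ R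
  obtain ⟨F, hF⟩ := exists_TG (r := 1 / 4) (by norm_num)
    (adm_vp hx hy fun t ht => hJ ⟨by linarith [ht.1], by linarith [ht.2]⟩)
    (contDiff_const.sub (cd_s1 i) : ContDiff ℝ ∞ fun t => 1 - s1 i t) (hα 1)
  obtain ⟨β, hβ, hβ'⟩ := hF.exists_pot isOpen_Ioo fun t ht => (ev_vp hx hy (hJ ht)).mono fun _ => And.right
  have hc := hF.cs_time (hα 1) (by norm_num) c.loc (isCompact_Icc (a := (i : ℝ) - 1 / 6) (b := i + 1 / 6))
    fun t => ev_out
  have ho : ∀ x ∉ B.bx c (i - 1 / 4) (i + 1 / 4) (1 / 2), B.tm c x ∉ Icc ((i : ℝ) - 1 / 6) (i + 1 / 6) ∨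
      ¬(x ∈ B.T.tor c.v ∧ B.T.yy c.v x ≤ 2 * (1 / 4)) := fun x hx => by
    by_contra k
    rw [not_or, not_not, not_not] at k
    exact hx ⟨k.2.1, ⟨by linarith [k.1.1], by linarith [k.1.2]⟩, by linarith [k.2.2]⟩
  refine ⟨F, β, s1 i, cd_s1 i, hc.mono fun x hx => ⟨by linarith [hx.1], by linarith [hx.2]⟩, ?_,
    hβ, fun x hx => ?_, fun x hx k e => ?_⟩
  · refine (hF.tf.ip_eq (B.ox c) B.pos isOpen_univ hF.tf (hc.mono (subset_univ _))).trans ?_
    rw [integral_vp]
    simp only [ey, det2, rc2, dual, hd, Prod.smul_fst, Prod.smul_snd, Prod.fst_sub, Prod.snd_sub, smul_eq_mul, Ch.t]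
    push_cast
    ring
  · rcases ho x hx with k | k
    · rw [Pi.mul_apply, hc.eq_zero k, mul_zero, map_zero]
    · rw [hF.sq_far (hα 1) k, map_zero]
  · have k1 := (hα (B.T.yy c.v x + 1)).ax_eq ⟨hx, k, lt_add_one _⟩
    rw [hβ' x k, pot_apply, k1, ang_chi (η := dual a b 1 0) hx k, tq_apply, tq_apply, tq_apply, sub_add_cancel]
    rcases ho x e with l | l
    · obtain ⟨s, l⟩ := ev_out (x := rc2 (0, 1) - y) (y := y) l
      rw [l.self_of_nhds.1, l.self_of_nhds.2, sub_add_cancel]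
      simp only [ey, rc2, Prod.smul_fst, Prod.smul_snd, smul_eq_mul, Int.cast_zero, Int.cast_one]
      module
    · rw [(gw_one (by norm_num) l).self_of_nhds]
      simp only [ey, rc2, Prod.smul_fst, Prod.smul_snd, smul_eq_mul, Int.cast_zero, Int.cast_one, Pi.one_apply]
      module

end Crest.Agent.X212.Dr59
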