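import Crest.Agent.X212.Num57.Nb
import Crest.Agent.X212.Cyl58.Bnd

/-!
# X212 / Dr59, part NbA (helper59): the numbers of an open set and their additivity

* `HL I o U` (a lattice and finite `H¹`), `nu I o F F' U = (b₁, b⁺, b⁻, F · F')`;
* `Ct I W U V N` (`W` is cut along the neck `N`), `Ct.hl`, `Ct.nu`, `Ct.ext`, `ct_sides`.
-/

set_option autoImplicit false
set_option linter.unusedSectionVars false
set_option linter.style.haveILetI false

open Set Filter Topology Function Module Matrix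
open scoped ContDiff Manifold
open Crest.Agent.R208 Crest.Agent.R208.F Crest.Agent.X212.Int54 Crest.Agent.X212.Num57

noncomputable section

namespace Crest.Agent.X212.Dr59

section gen

variable {E : Type*} [NormedAddCommGroup E] [NormedSpace ℝ E] [FiniteDimensional ℝ E]
  {H : Type*} [TopologicalSpace H] {I : ModelWithCorners ℝ E H} [I.Boundaryless]
  {M : Type*} [TopologicalSpace M] [ChartedSpace H M] [IsManifold I ∞ M] [T2Space M]
  {k : ℕ} {U V W N K : Set M} {o c F F' : M → Ext E}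

variable (I) in
/-- `W` is cut along the neck `N` into `U` and `V` -/
structure Ct (W U V N : Set M) : Prop where
  oU : IsOpen U
  oV : IsOpen V
  oN : IsOpen N
  dj : Disjoint U V
  eq : U ∪ (V ∪ N) = W
  cp : ∃ C, IsCompact C ∧ N ⊆ C ∧ C ⊆ W
  zN : ∀ k < 2, HZ I (k + 1) N
  zU : ∀ k < 2, HZ I (k + 1) (U ∩ N)
  zV : ∀ k < 2, HZ I (k + 1) (V ∩ N)
  cU : IsPreconnected (U ∩ N)
  cV : IsPreconnected (V ∩ N)

theorem exists_cs' [SigmaCompactSpace M] (hU : IsOpen U) (hV : IsOpen V) (hK : IsCompact K) (h1 : U ∩ V ⊆ K)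
    (h2 : K ⊆ U ∪ V) (h : Cs I (k + 1) (U ∪ V) c) (hx : Ex I V c) :
    ∃ e, Cs I (k + 1) U e ∧ Ex I (U ∪ V) (c - e) := by
  obtain ⟨χ, hχ⟩ := exists_cut (I := I) hU hV
  obtain ⟨q, q1, q2, q3⟩ := hx.deg (h.cl.dg.mono (subset_univ _))
  have z : Cz I (U ∪ V) V (1 - χ) := ⟨fun x hx => contMDiffAt_const.sub (hχ.sm x hx),
    fun x hx hw => (hχ.o x (hx.resolve_right hw) hw).mono fun y hy => by simp [hy]⟩
  have o := hU.union hV
  have m : ∀ x ∈ V, x ∉ U → x ∈ interior {x | χ x = 0} ∩ V := fun x a b =>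
    ⟨mem_interior_iff_mem_nhds.2 (hχ.z x a b), a⟩
  have s := union_subset h.sub h2
  refine ⟨_, (cs_indicator o ((h.on _).sub (cl_dM o (z.sm_smul q1) (z.dg_smul q2)))
    ((h.hc.isCompact.union hK).diff (isOpen_interior.inter hV : IsOpen (interior {x | χ x = 0} ∩ V)))
    (sdiff_subset.trans s) fun x hx k => ?_).mono fun x hx => by_contra fun k =>
      hx.2 (m x ((s hx.1).resolve_left k) k), (ex_dM (z.sm_smul q1)).congr fun x hx => ?_⟩
  · rw [Pi.sub_apply, sub_eq_zero]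
    by_cases k' : x ∈ interior {x | χ x = 0} ∩ V
    · rw [← q3 x k'.2]
      exact dM_congr (eventually_of_mem (mem_interior_iff_mem_nhds.1 k'.1) fun y hy => by
        simp [show χ y = 0 from hy])
    · have a : x ∉ tsupport c ∪ K := fun e => k ⟨e, k'⟩
      have b : x ∉ V := fun e => k' (m x e fun l => a (.inr (h1 ⟨l, e⟩)))
      rw [image_eq_zero_of_notMem_tsupport fun e => a (.inl e), dM_congr (z.smul_zero hx b q), dM_zero]
      rfl
  · rw [Pi.sub_apply, indicator_of_mem hx, Pi.sub_apply, sub_sub_cancel]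

namespace Ct

variable (h : Ct I W U V N)
include h

theorem symm : Ct I W V U N :=
  ⟨h.oV, h.oU, h.oN, h.dj.symm, (union_left_comm _ _ _).trans h.eq, h.cp, h.zN, h.zV, h.zU, h.cV, h.cU⟩

theorem op : IsOpen W := h.eq ▸ h.oU.union (h.oV.union h.oN)

theorem sU : U ⊆ W := h.eq ▸ subset_union_left

theorem inter : U ∩ (V ∪ N) = U ∩ N := by rw [inter_union_distrib_left, h.dj.inter_eq, empty_union]

variable [SigmaCompactSpace M]

theorem sj (hk : k < 2) : Sj I k U (V ∪ N) := by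
  obtain rfl | rfl : k = 0 ∨ k = 1 := by omega
  exacts [sj0 (h.oU.inter (h.oV.union h.oN)) (h.inter ▸ h.cU), HZ.sj (h.inter ▸ h.zU 0 two_pos)]

theorem bij (hk : k < 2) : Bijective (res (I := I) (k := k + 1) (subset_union_left : V ⊆ V ∪ N)) := by
  refine res_bij h.oV h.oN (h.zN k hk) (h.zV k hk) ?_ rfl _
  obtain rfl | rfl : k = 0 ∨ k = 1 := by omega
  exacts [sj0 (h.oV.inter h.oN) h.cV, (h.zV 0 two_pos).sj]

theorem mid (hk : k < 2) (y : HR I (k + 1) U) (z : HR I (k + 1) (V ∪ N)) :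
    ∃ x : HR I (k + 1) W, res h.sU x = y ∧ res (h.eq ▸ subset_union_right) x = z := by
  obtain ⟨χ, hχ⟩ := exists_cut (I := I) h.oU (h.oV.union h.oN)
  have z0 : HZ I (k + 1) (U ∩ (V ∪ N)) := h.inter ▸ h.zU k hk
  have := mv_mid h.oU (h.oV.union h.oN) hχ (y := y) (z := z) (by rw [z0.eq (res _ y), z0.eq (res _ z)])
  obtain rfl := h.eq
  exact this

/-- **Mayer-Vietoris** -/
theorem prod_bij (hk : k < 2) :
    Bijective ((res (I := I) (k := k + 1) h.sU).prod (res (I := I) (k := k + 1) h.symm.sU)) := by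
  refine ⟨(injective_iff_map_eq_zero _).2 fun x hx => ?_, fun p => ?_⟩
  · have e := h.eq
    subst e
    exact res_inj h.oU (h.oV.union h.oN) (h.sj hk) (congrArg Prod.fst hx)
      ((h.bij hk).1 ((res_res _ _ x).trans ((congrArg Prod.snd hx).trans (map_zero _).symm)))
  · obtain ⟨z, hz⟩ := (h.bij hk).2 p.2
    obtain ⟨x, h1, h2⟩ := h.mid hk p.1 z
    exact ⟨x, Prod.ext h1 (by rw [← hz, ← h2, res_res]; rfl)⟩

theorem surj (hk : k < 2) : Surjective (res (I := I) (k := k + 1) h.sU) :=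
  fun y => (h.mid hk y 0).imp fun _ => And.left

/-- closed forms extend over a neck -/
theorem ext (hF : Cl I 2 U F) : ∃ F', Cl I 2 W F' ∧ Ex I U (F - F') := by
  obtain ⟨x, hx⟩ := h.surj one_lt_two hF.cls
  obtain ⟨F', h', rfl⟩ := exists_cls x
  exact ⟨F', h', cls_eq.1 hx.symm⟩

/-- a closed form that is exact on `V` is cohomologous to a form supported in `U` -/
theorem cs (hc : Cs I 2 W c) (hx : Ex I V c) : ∃ e, Cs I 2 U e ∧ Ex I W (c - e) := by
  obtain ⟨C, c1, c2, c3⟩ := h.cp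
  have := cls_eq_zero.1 ((h.bij one_lt_two).1 (a₁ := (hc.on (V ∪ N)).cls) (a₂ := 0)
    ((cls_eq_zero.2 hx).trans (map_zero _).symm))
  obtain rfl := h.eq
  exact exists_cs' h.oU (h.oV.union h.oN) c1 (h.inter ▸ inter_subset_right.trans c2) c3 hc this

end Ct

variable [MeasurableSpace E] [BorelSpace E] [MeasurableSpace M] [BorelSpace M] [SecondCountableTopology M]
  {ι κ : Type*} [Fintype ι] [DecidableEq ι] [Fintype κ] [DecidableEq κ] {e : ι → M → Ext E} {G : Matrix ι ι ℝ}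
  {f : κ → M → Ext E} {G' : Matrix κ κ ℝ}

variable (I) in
/-- a lattice -/
structure LD (o : M → Ext E) (U : Set M) where
  n : ℕ
  e : Fin n → M → Ext E
  G : Matrix (Fin n) (Fin n) ℝ
  h : Lat I o U U e G

variable (I) in
/-- the set has numbers -/
structure HL (o : M → Ext E) (U : Set M) : Prop where
  lat : Nonempty (LD I o U)
  fin : Module.Finite ℝ (HR I 1 U)

variable (I) in
open Classical in
/-- **the numbers** `b₁`, `b⁺`, `b⁻`, `F · F'` -/
def nu (o F F' : M → Ext E) (U : Set M) : ℝ × ℝ × ℝ × ℝ :=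
  if h : Nonempty (LD I o U) then (finrank ℝ (HR I 1 U), sigPos h.some.G.toQuadraticForm',
    sigNeg h.some.G.toQuadraticForm', isq I o h.some.e h.some.G F F') else 0

theorem Lat.ld (h : Lat I o U K e G) : Nonempty (LD I o U) :=
  ⟨⟨_, _, _, (h.reindex (Fintype.equivFin ι).symm).mono h.sub Subset.rfl⟩⟩

theorem Lat.nu (h : Lat I o U K e G) (hF : Cl I 2 U F) (hF' : Cl I 2 U F') : nu I o F F' U =
    ((finrank ℝ (HR I 1 U) : ℝ), (sigPos G.toQuadraticForm' : ℝ), (sigNeg G.toQuadraticForm' : ℝ),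
      isq I o e G F F') := by
  rw [Dr59.nu, dif_pos h.ld, (sig_eq h.ld.some.h h).1, (sig_eq h.ld.some.h h).2, isq_eq h.ld.some.h h hF hF']

theorem HL.op (h : HL I o U) : IsOpen U := h.lat.some.h.op

theorem HL.nu_ip (h : HL I o U) (hF : Cl I 2 U F) (hF' : Cs I 2 U F') : (nu I o F F' U).2.2.2 = ip I o F F' := by
  rw [h.lat.some.h.nu hF (hF'.on U), h.lat.some.h.ip_eq hF hF']
  rfl

theorem HL.nu_coh (h : HL I o U) {A A' : M → Ext E} (hF : Cl I 2 U F) (hF' : Cl I 2 U F') (hA : Cl I 2 U A)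
    (hA' : Cl I 2 U A') (h1 : Ex I U (F - A)) (h2 : Ex I U (F' - A')) : nu I o F F' U = nu I o A A' U := by
  rw [h.lat.some.h.nu hF hF', h.lat.some.h.nu hA hA', isq_coh h.lat.some.h hF.sm hA.sm hF'.sm hA'.sm h1 h2]

theorem HL.hz (h : HL I o U) (k : (Dr59.nu I o F F' U).1 = 0) : HZ I 1 U := by
  haveI := h.fin
  rw [Dr59.nu, dif_pos h.lat] at k
  exact bd_zero.1 (bd_of_finrank (Nat.cast_eq_zero.1 k).le)

section push

variable {E' : Type*} [NormedAddCommGroup E'] [NormedSpace ℝ E'] [FiniteDimensional ℝ E']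
  {H' : Type*} [TopologicalSpace H'] {J : ModelWithCorners ℝ E' H'} [J.Boundaryless]
  {P : Type*} [TopologicalSpace P] [ChartedSpace H' P] [IsManifold J ∞ P] [T2Space P]
  [MeasurableSpace E'] [BorelSpace E'] [MeasurableSpace P] [BorelSpace P] [SecondCountableTopology P]
  (φ : PartialDiffeomorph J I P M ∞) {v : P → Ext E'} {S : Set P}

theorem HL.push (h : HL J v S) (hS : S ⊆ φ.source) (ho : Ori I o) (hp : SameOn v (pm J I φ o) S) :
    HL I o (φ '' S) :=
  haveI := h.fin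
  ⟨(h.lat.some.h.push φ hS ho hp).ld, Module.Finite.of_injective _ (pd_st_bij φ h.op hS).1⟩

theorem HL.nu_push (h : HL J v S) (hS : S ⊆ φ.source) (ho : Ori I o) (hp : SameOn v (pm J I φ o) S)
    (hF : Cl I 2 (φ '' S) F) (hF' : Cl I 2 (φ '' S) F') :
    nu I o F F' (φ '' S) = nu J v (pm J I φ F) (pm J I φ F') S := by
  have k := h.lat.some.h
  rw [(k.push φ hS ho hp).nu hF hF', k.nu (hF.pm (pd_mp φ hS)) (hF'.pm (pd_mp φ hS)), finrank_pd φ h.op hS, isq, isq]
  simp only [fun i => (k.cs i).ip_psh φ hS ho k.ori hp]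

end push

theorem ncard_sign {g : ι → ℝ} (h : ∀ i, g i ≠ 0) :
    ({i | 0 < g i}.ncard : ℝ) = (Fintype.card ι + ∑ i, (SignType.sign (g i) : ℝ)) / 2 ∧
    ({i | g i < 0}.ncard : ℝ) = (Fintype.card ι - ∑ i, (SignType.sign (g i) : ℝ)) / 2 := by
  have k : ∀ (P : ι → Prop) [DecidablePred P], ({i | P i}.ncard : ℝ) = ∑ i, if P i then 1 else 0 := fun P _ => by
    rw [← Finset.coe_filter_univ, ncard_coe_finset, Finset.card_filter]
    simp
  rw [k, k, ← Finset.card_univ, Finset.card_eq_sum_ones, Nat.cast_sum, ← Finset.sum_add_distrib,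
    ← Finset.sum_sub_distrib, Finset.sum_div, Finset.sum_div]
  refine ⟨Finset.sum_congr rfl fun i _ => ?_, Finset.sum_congr rfl fun i _ => ?_⟩ <;>
    rcases (h i).lt_or_gt with e | e <;> simp [e, e.not_gt]

namespace Ct

variable (h : Ct I W U V N)
include h

theorem lat (hU : Lat I o U K e G) {L : Set M} (hV : Lat I o V L f G') :
    Lat I o W (K ∪ L) (Sum.elim e f) (fromBlocks G 0 0 G') :=
  haveI := Int54.sigmaCompact (I := I) M
  h.eq ▸ hU.union (hV.of_bd (h.oV.union h.oN) (hV.sub.trans subset_union_left)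
    (hV.bd.of_inj _ (h.bij one_lt_two).1)) (h.sj one_lt_two) (h.dj.mono hU.sub hV.sub)

/-- gluing -/
theorem glue (hU : HL I o U) (hV : HL I o V) : HL I o W :=
  haveI := Int54.sigmaCompact (I := I) M
  haveI := hU.fin
  haveI := hV.fin
  ⟨(h.lat hU.lat.some.h hV.lat.some.h).ld, Module.Finite.of_injective _ (h.prod_bij two_pos).1⟩

/-- splitting -/
theorem hl (hW : HL I o W) : HL I o U := by
  haveI := Int54.sigmaCompact (I := I) M
  haveI := hW.fin
  obtain ⟨⟨n, e, G, k⟩⟩ := hW.lat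
  haveI := (k.bd.of_surj _ (h.surj one_lt_two)).finite
  have : ∀ y : HR I 2 U, ∃ (e : M → Ext E) (he : Cs I 2 U e), (he.on U).cls = y := fun y => by
    obtain ⟨x, hx⟩ := (h.prod_bij one_lt_two).2 (y, 0)
    obtain ⟨t, rfl⟩ := k.span' x
    rw [← k.cls_comb] at hx
    obtain ⟨e, he, hc⟩ := h.cs (k.cs_comb t) (cls_eq_zero.1 (congrArg Prod.snd hx))
    exact ⟨e, he, (cls_eq.2 (hc.mono h.sU)).symm.trans (congrArg Prod.fst hx)⟩
  choose e' he e'' using this
  exact ⟨(lat_of_basis k.ori h.oU Subset.rfl (finBasis ℝ _) (fun i => he _) (fun i => e'' _)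
    fun a ha h0 => (k.ex (ha.on _) fun i => (ip_comm ha.cl.dg _).trans (h0 _ ((k.cs i).on U))).mono h.sU).ld,
    Module.Finite.of_surjective _ (h.surj two_pos)⟩

/-- **additivity** -/
theorem nu (hW : HL I o W) (hF : Cl I 2 W F) (hF' : Cl I 2 W F') :
    nu I o F F' W = nu I o F F' U + nu I o F F' V := by
  haveI := Int54.sigmaCompact (I := I) M
  obtain ⟨⟨⟨n, e, G, k⟩⟩, _⟩ := h.hl hW
  obtain ⟨⟨⟨n', e', G', k'⟩⟩, _⟩ := h.symm.hl hW
  have k'' := k'.of_bd (h.oV.union h.oN) subset_union_left (k'.bd.of_inj _ (h.bij one_lt_two).1)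
  have s := sig_union k k'' (h.sj one_lt_two) h.dj
  rw [(h.lat k k').nu hF hF', k.nu (hF.mono h.sU) (hF'.mono h.sU), k'.nu (hF.mono h.symm.sU) (hF'.mono h.symm.sU),
    s.1, s.2, isq_union k k', (LinearEquiv.ofBijective _ (h.prod_bij two_pos)).finrank_eq, finrank_prod]
  simp

end Ct

end gen

/-! ### necks -/

section nk

open M Cyl58

variable {X : Mf 4} {Y : Mf 3} [CompactSpace Y.M] [ConnectedSpace Y.M] {j : Y.M × ℝ → X.M} {S : Bool → Set X.M}
  {W : Set X.M}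

theorem ct_sides (h : Sides Y j S) (hz : ∀ k < 2, HZ Y.I (k + 1) (univ : Set Y.M)) (hW : IsOpen W) (s : range j ⊆ W)
    (b : Bool) :
    Ct X.I W (W ∩ S b) (W ∩ S !b) (j '' (univ ×ˢ Ioo (-1) 1)) := by
  have z : ∀ {A : Set ℝ}, IsOpen A → Convex ℝ A → ∀ k < 2, HZ X.I (k + 1) (j '' (univ ×ˢ A)) := fun a c k hk =>
    (hz_oe h.oe.loc h.oe.inj (isOpen_univ.prod a)).2 ((hz k hk).prod_convex isOpen_univ a c)
  have e : ∀ b, W ∩ S b ∩ j '' (univ ×ˢ Ioo (-1) 1) = j '' (univ ×ˢ (Ioo (-1) 1 ∩ {t | 0 < M.pm b * t})) := fun b =>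
    Subset.antisymm (by rintro _ ⟨k, p, hp, rfl⟩; exact ⟨p, ⟨trivial, hp.2, h.j_mem.1 k.2⟩, rfl⟩)
      (by rintro _ ⟨p, hp, rfl⟩; exact ⟨⟨s ⟨p, rfl⟩, h.mem b p hp.2.2⟩, p, ⟨trivial, hp.2.1⟩, rfl⟩)
  have o : ∀ b, IsOpen (Ioo (-1 : ℝ) 1 ∩ {t | 0 < M.pm b * t}) := fun b =>
    isOpen_Ioo.inter (isOpen_lt continuous_const (by fun_prop))
  have c : ∀ b, Convex ℝ (Ioo (-1 : ℝ) 1 ∩ {t | 0 < M.pm b * t}) := fun b =>
    (convex_Ioo _ _).inter (convex_halfSpace_gt (LinearMap.mul ℝ ℝ (M.pm b)).isLinear 0)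
  have p : ∀ b, IsPreconnected (W ∩ S b ∩ j '' (univ ×ˢ Ioo (-1) 1)) := fun b =>
    e b ▸ (isPreconnected_univ.prod (c b).isPreconnected).image _ h.oe.continuous.continuousOn
  refine ⟨hW.inter (h.op _), hW.inter (h.op _), h.oe.isOpen_image (isOpen_univ.prod isOpen_Ioo),
    disjoint_left.2 fun x k k' => h.not_mem k.2 k'.2, Subset.antisymm (union_subset inter_subset_left
      (union_subset inter_subset_left ((image_subset_range _ _).trans s))) fun x hx => ?_,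
    ⟨_, h.oe.isCompact_slab (-1) 1, image_mono (prod_mono Subset.rfl Ioo_subset_Icc_self),
      (image_subset_range _ _).trans s⟩, z isOpen_Ioo (convex_Ioo _ _), e _ ▸ z (o _) (c _), e _ ▸ z (o _) (c _),
    p _, p _⟩
  have k : (∃ b', x ∈ S b') ∨ x ∈ j '' (univ ×ˢ Ioo (-1) 1) := by
    by_cases k : x ∈ range j
    · obtain ⟨p, rfl⟩ := k
      rcases lt_trichotomy p.2 0 with l | l | l
      · exact .inl ⟨false, h.mem _ _ (by simpa [M.pm] using l)⟩
      · exact .inr ⟨p, ⟨trivial, by simp [l]⟩, rfl⟩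
      · exact .inl ⟨true, h.mem _ _ (by simpa [M.pm] using l)⟩
    · exact .inl (h.cov x k)
  rcases k with ⟨b', k⟩ | k
  · by_cases l : b' = b
    exacts [.inl ⟨hx, l ▸ k⟩, .inr (.inl ⟨hx, Bool.eq_not_of_ne l ▸ k⟩)]
  · exact .inr (.inr k)

theorem hl_univ [CompactSpace X.M] {o : X.M → Ext X.E} (ho : Ori X.I o) : HL X.I o univ :=
  let ⟨_, _, _, k⟩ := exists_lat X.dim ho isOpen_univ isCompact_univ
  let ⟨_, _, hF⟩ := Met55.exists_fr (I := X.I) (M := X.M)
  ⟨k.ld, (ok_ov X.dim hF ho).fin1⟩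

end nk

end Crest.Agent.X212.Dr59
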