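import Crest.Agent.X212.Dr59.NbG
import Crest.Agent.X212.Dr59.NbA

/-!
# X212 / Dr59, part NbT (helper59): test forms and orders on a rod manifold

* `mv` (the path of a family of moves), `OC` (orders of toric classes), `WO` (orders by pairing with tests);
* `exists_wo`, `WO.tr`, `TS` (tests), `nu_slab`, `nu_disc`, `ex_disc`.
-/

set_option autoImplicit false
set_option linter.unusedSectionVars false
set_option linter.style.haveILetI false

open Set Filter Topology Function Module MeasureTheory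
open scoped ContDiff Manifold Real
open Crest.Agent.R208 Crest.Agent.R208.FI
open Crest.Agent.R208.F hiding wd
open Crest.Agent.X212.Int54 hiding dt pr kap tp_pr pr_eq cAt_pr pm_pr kap_ne sigmaCompact
open Crest.Agent.X212.Line51 hiding tp Uni
open Crest.Agent.X212.Orx52 Crest.Agent.X212.Rod53 Crest.Agent.X212.Pj41
open Crest.Agent.X212.Num57 (isq)
open Crest.Agent.X212.Wd38 (nn)

noncomputable section

namespace Crest.Agent.X212.Dr59

theorem ip_dM {E : Type*} [NormedAddCommGroup E] [NormedSpace ℝ E] [FiniteDimensional ℝ E]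
    {H : Type*} [TopologicalSpace H] {I : ModelWithCorners ℝ E H} [I.Boundaryless]
    {M : Type*} [TopologicalSpace M] [ChartedSpace H M] [IsManifold I ∞ M] [T2Space M] [MeasurableSpace E]
    [BorelSpace E] [MeasurableSpace M] [BorelSpace M] [SecondCountableTopology M] {o F β : M → Ext E}
    {U K : Set M} (ho : Ori I o) (hF : Cl I 2 U F) (hβ : Sm I univ β) (hK : IsCompact K) (s : K ⊆ U)
    (h : ∀ x, x ∉ K → β x = 0) : ip I o F (dM I β) = 0 := by
  have e : ∀ x, x ∉ K → β =ᶠ[𝓝 x] 0 := fun x hx => eventually_of_mem (hK.isClosed.isOpen_compl.mem_nhds hx) h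
  have e' : ∀ x, x ∉ K → F * β =ᶠ[𝓝 x] 0 := fun x hx => (e x hx).mono fun y k => by simp [k]
  rw [← stokes_sm ho (b := F * β) (fun x => (em (x ∈ K)).elim (fun k => (hF.sm x (s k)).mul (hβ x trivial))
    fun k => cAt_zero.congr (e' x k)) (HasCompactSupport.intro hK fun x k => (e' x k).self_of_nhds)]
  refine integ_congr fun x => congrArg _ ?_
  by_cases k : x ∈ K
  · rw [dM_mul ne0 (hF.sm x (s k)) (hβ x trivial), hF.cl x (s k), inv_of_deg (hF.dg x (s k))]
    simp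
  · rw [dM_congr (e' x k), Pi.mul_apply, dM_congr (e x k), dM_zero]
    simp

/-! ### moves -/

/-- the time of a move in the left or right part of a slot -/
def tk (k : ℤ × Bool) : ℝ := k.1 + cond k.2 (3 / 4) 0

/-- the path of a family of moves -/
def mv (a : ℤ → Z2) (S : Finset (ℤ × Bool)) (l : ℤ × Bool → ℝ) (t : ℝ) : ℝ × ℝ :=
  ∑ k ∈ S, (sw (1 / 12) (t - tk k) * l k) • pp (a k.1)

/-- its orders -/
def oh (a : ℤ → Z2) (S : Finset (ℤ × Bool)) (l : ℤ × Bool → ℝ) (j : ℤ) : ℝ :=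
  ∑ k ∈ S with k.1 < j, l k * dt (a k.1) (a j)

/-- the half slots of a range -/
def hs (x y : ℤ) : Finset (ℤ × Bool) := Finset.Ioc x y ×ˢ {false} ∪ Finset.Ico x y ×ˢ {true}

/-- the half slot of a window that starts at `s` -/
def wk (s j : ℤ) : ℤ × Bool := (j, decide (j = s))

/-- the half slots of a window -/
def win (s t : ℤ) : Finset (ℤ × Bool) := (Finset.Icc s t).map ⟨wk s, fun _ _ e => congrArg Prod.fst e⟩

section mv

variable {a : ℤ → Z2} {S : Finset (ℤ × Bool)} {l l' : ℤ × Bool → ℝ} {t p q : ℝ} {j x y s s' : ℤ} {k : ℤ × Bool}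

theorem tk_mem (k : ℤ × Bool) : (k.1 : ℝ) ≤ tk k ∧ tk k ≤ k.1 + 3 / 4 := by
  unfold tk
  cases k.2 <;> norm_num

theorem mem_hs : k ∈ hs x y ↔ cond k.2 (x ≤ k.1 ∧ k.1 < y) (x < k.1 ∧ k.1 ≤ y) := by
  obtain ⟨j, _ | _⟩ := k <;> simp [hs]

theorem tk_hs (h : k ∈ hs x y) : (x : ℝ) + 3 / 4 ≤ tk k ∧ tk k ≤ y := by
  obtain ⟨j, _ | _⟩ := k <;> obtain ⟨h1, h2⟩ := mem_hs.1 h <;> simp only [tk, cond]
  · have : (x : ℝ) + 1 ≤ j := by exact_mod_cast h1
    have : (j : ℝ) ≤ y := by exact_mod_cast h2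
    constructor <;> linarith
  · have : (x : ℝ) ≤ j := by exact_mod_cast h1
    have : (j : ℝ) + 1 ≤ y := by exact_mod_cast h2
    constructor <;> linarith

theorem hs_mono (h1 : x ≤ s) (h2 : s' ≤ y) : hs s s' ⊆ hs x y := by
  rintro ⟨j, _ | _⟩ <;> simp only [mem_hs, cond] <;> omega

theorem win_sub (h : s < s') : win s s' ⊆ hs s s' := fun k hk => by
  obtain ⟨j, hj, rfl⟩ := Finset.mem_map.1 hk
  have := Finset.mem_Icc.1 hj
  by_cases e : j = s <;> simp [mem_hs, wk, e] <;> omega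

theorem sw_tk (h : |t - j| < 1 / 12) (k : ℤ × Bool) : sw (1 / 12) (t - tk k) = if k.1 < j then 1 else 0 := by
  have := tk_mem k
  have := abs_lt.1 h
  split_ifs with e
  · have : (k.1 : ℝ) + 1 ≤ j := by exact_mod_cast e
    exact sw_one h12 (by linarith)
  · have : (j : ℝ) ≤ k.1 := by exact_mod_cast not_lt.1 e
    exact sw_zero h12 (by linarith)

theorem mv_slot (h : t ∈ Ioo (j : ℝ) (j + 1)) : dr (mv a S l t) (a j) = oh a S l j := by
  rw [mv, dr_sum, oh, Finset.sum_filter]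
  refine Finset.sum_congr rfl fun k _ => ?_
  have := tk_mem k
  rw [dr_smul, dr_pp]
  rcases lt_trichotomy k.1 j with e | e | e
  · have : (k.1 : ℝ) + 1 ≤ j := by exact_mod_cast e
    rw [if_pos e, sw_one h12 (by linarith [h.1]), one_mul]
  · simp [e, dt_self]
  · have : (j : ℝ) + 1 ≤ k.1 := by exact_mod_cast e
    rw [if_neg e.not_gt, sw_zero h12 (by linarith [h.2]), zero_mul, zero_mul]

theorem hd_sw (z t : ℝ) : HasDerivAt (fun t => sw (1 / 12) (t - z)) (deriv (sw (1 / 12)) (t - z)) t :=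
  ((contDiff_sw _).differentiable (by simp) _).hasDerivAt.comp_sub_const t z

theorem adm_mv : Adm (wd a) (mv a S l) := by
  refine ⟨ContDiff.sum fun k _ => (((contDiff_sw _).comp (contDiff_id.sub contDiff_const)).mul
    contDiff_const).smul contDiff_const, fun t => ?_⟩
  rcases (Int.floor_le t).lt_or_eq with k | k
  · have o := isOpen_Ioo.mem_nhds (show t ∈ Ioo (⌊t⌋ : ℝ) (⌊t⌋ + 1) from ⟨k, Int.lt_floor_add_one t⟩)
    exact eventually_of_mem (prod_mem_prod o o) fun z hz => by rw [wd_of_mem hz.2, mv_slot hz.1, mv_slot hz.2]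
  · have o : Metric.ball (⌊t⌋ : ℝ) (1 / 12) ∈ 𝓝 t := by rw [k]; exact Metric.ball_mem_nhds _ h12
    refine eventually_of_mem (prod_mem_prod o o) fun z hz => ?_
    simp only [mv, sw_tk (j := ⌊t⌋) hz.1, sw_tk (j := ⌊t⌋) hz.2]

theorem mv_lo (h : ∀ k ∈ S, p ≤ tk k) (ht : t ≤ p + 1 / 12) : mv a S l t = 0 :=
  Finset.sum_eq_zero fun k hk => by rw [sw_zero h12 (by linarith [h k hk]), zero_mul, zero_smul]

theorem mv_hi (h : ∀ k ∈ S, tk k ≤ q) (ht : q + 1 / 6 ≤ t) : mv a S l t = ∑ k ∈ S, l k • pp (a k.1) :=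
  Finset.sum_congr rfl fun k hk => by rw [sw_one h12 (by linarith [h k hk]), one_mul]

theorem mv_add : mv a S (l + l') = mv a S l + mv a S l' := funext fun t => by
  simp only [mv, Pi.add_apply, mul_add, add_smul, Finset.sum_add_distrib]

theorem mv_smul (r : ℝ) : mv a S (r • l) = r • mv a S l := funext fun t => by
  simp only [mv, Pi.smul_apply, Finset.smul_sum, smul_smul, smul_eq_mul, mul_left_comm]

theorem sum_ind {V : Type*} [AddCommMonoid V] {S' : Finset (ℤ × Bool)} (h : S ⊆ S') (f : ℤ × Bool → ℝ → V)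
    (h0 : ∀ k, f k 0 = 0) : ∑ k ∈ S', f k (indicator S l k) = ∑ k ∈ S, f k (l k) :=
  (Finset.sum_subset h fun k _ e => by rw [indicator_of_notMem e, h0]).symm.trans
    (Finset.sum_congr rfl fun k e => by rw [indicator_of_mem e])

theorem mv_ind {S' : Finset (ℤ × Bool)} (h : S ⊆ S') : mv a S' (indicator S l) = mv a S l :=
  funext fun t => sum_ind h (fun k r => (sw (1 / 12) (t - tk k) * r) • pp (a k.1)) (by simp)

theorem integral_mv {A : ℝ → ℝ × ℝ} {n : ℤ → ℝ} (h : ∀ j : ℤ, ∀ t ∈ Ioo (j : ℝ) (j + 1), dr (A t) (a j) = n j) :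
    ∫ t, om A (mv a S l) t = ∑ k ∈ S, l k * n k.1 := by
  have e : ∀ t, om A (mv a S l) t = ∑ k ∈ S, deriv (sw (1 / 12)) (t - tk k) * (l k * n k.1) := fun t => by
    rw [om, show deriv (mv a S l) t = _ from
      (HasDerivAt.fun_sum fun k _ => ((hd_sw (tk k) t).mul_const (l k)).smul_const (pp (a k.1))).deriv,
      Prod.fst_sum, Prod.snd_sum, Finset.mul_sum, Finset.mul_sum, ← Finset.sum_sub_distrib]
    refine Finset.sum_congr rfl fun k _ => ?_
    by_cases c : t - tk k ∈ Icc (1 / 12 : ℝ) (2 * (1 / 12))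
    · rw [← h k.1 t ⟨by linarith [c.1, tk_mem k], by linarith [c.2, tk_mem k]⟩]
      simp only [dr, pp, Prod.smul_fst, Prod.smul_snd, smul_eq_mul]
      ring
    · rw [deriv_sw h12 c]
      simp
  rw [funext e, integral_finsetSum _ fun j _ => Integrable.mul_const (Integrable.comp_sub_right
    (((contDiff_sw _).continuous_deriv (by simp)).integrable_of_hasCompactSupport
      (HasCompactSupport.intro isCompact_Icc fun _ => deriv_sw h12)) _) _]
  exact Finset.sum_congr rfl fun j _ => by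
    rw [integral_mul_const, integral_sub_right_eq_self (deriv (sw (1 / 12))), integral_deriv_sw h12, one_mul]

theorem oh_win {d : ℤ → ℝ} (h : j ≤ s' + 1) : oh a (win s s') (fun k => d k.1) j = od a s d j := by
  rw [oh, win, Finset.filter_map, Finset.sum_map]
  exact Finset.sum_congr (by ext; simp [wk]; omega) fun _ _ => rfl

theorem fst_tot : (∑ k ∈ S, l k • pp (a k.1)).1 = -∑ k ∈ S, l k * pv a k.1 := by
  simp [Prod.fst_sum, pp, pv]

theorem snd_tot : (∑ k ∈ S, l k • pp (a k.1)).2 = ∑ k ∈ S, l k * qv a k.1 := by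
  simp [Prod.snd_sum, pp, qv]

end mv

variable {EN HN : Type} [NormedAddCommGroup EN] [NormedSpace ℝ EN] [FiniteDimensional ℝ EN]
  [TopologicalSpace HN] {IN : ModelWithCorners ℝ EN HN} [IN.Boundaryless]
  {N : Type} [TopologicalSpace N] [ChartedSpace HN N] [IsManifold IN ∞ N] [T2Space N] {T : Tb IN N}

section tg

variable {v : ℝ → Z2} {r R : ℝ} {A B : ℝ → ℝ × ℝ} {F F' : X T v → Ext E4} {α : N → Ext EN} {c c' : ℝ → ℝ}

theorem TG.uniq (h : TG T v r α A c F) (h' : TG T v r α A c F') : F = F' := funext fun p =>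
  form_eq_of_dense dense_off ((h.cl.sm p trivial).of_le (by simp)) ((h'.cl.sm p trivial).of_le (by simp))
    (Eventually.of_forall fun q k => (h.eq q k).trans (h'.eq q k).symm)

theorem TG.comb (s : ℝ) (h : TG T v r α A c F) (h' : TG T v r α B c' F') :
    TG T v r α (A + s • B) (c + s • c') (F + s • F') := by
  have e : pot T v r α (A + s • B) (c + s • c') = pot T v r α A c + s • pot T v r α B c' := funext fun p => by
    simp only [pot_apply, tq_apply, Pi.add_apply, Pi.smul_apply, Prod.fst_add, Prod.snd_add, Prod.smul_fst,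
      Prod.smul_snd, smul_eq_mul]
    module
  refine ⟨h.pos, ⟨h.adm.sm.add (h'.adm.sm.const_smul s), fun t => ((h.adm.ev t).and (h'.adm.ev t)).mono fun z k => ?_⟩,
    h.sc.add (h'.sc.const_smul s), e ▸ h.sm.add (h'.sm.smul s), e ▸ h.dg.add (h'.dg.smul s), h.cl.add (h'.cl.smul s),
    fun p k => ?_⟩
  · simp only [Pi.add_apply, Pi.smul_apply, dr_add, dr_smul, k.1, k.2]
  · rw [e, dM_add ne0 (h.sm p k) ((h'.sm p k).smul s), dM_smul ne0 s (h'.sm p k), ← h.eq p k, ← h'.eq p k]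
    rfl

variable [MeasurableSpace E4] [BorelSpace E4] [MeasurableSpace (X T v)] [BorelSpace (X T v)]
  [SecondCountableTopology (X T v)] [CompactSpace N] {O G : X T v → Ext E4} {U : Set (X T v)}

/-- a toric form whose potential extends over the axis pairs to zero -/
theorem TG.ip_zero (h : TG T v r α A c F) (hv : Loc v) (ho : Ori (𝓡 4) O) (hG : Cl (𝓡 4) 2 U G) {K : Set ℝ}
    (hK : IsCompact K) (s : T.time v ⁻¹' K ⊆ U) (h0 : ∀ t, t ∉ K → A t = 0 ∧ c t = 0)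
    (h1 : ∀ t ∈ K, ∀ᶠ u in 𝓝 t, ∀ s, dr (A s) (v u) = 0) : ip (𝓡 4) O G F = 0 := by
  have z : ∀ t, t ∉ K → ∀ᶠ u in 𝓝 t, A u = 0 ∧ c u = 0 := fun t ht =>
    eventually_of_mem (hK.isClosed.isOpen_compl.mem_nhds ht) h0
  obtain ⟨β, b1, -, b3⟩ := exists_ext_form (I := 𝓡 4) dense_off isOpen_univ (k := 1) (α := pot T v r α A c)
    fun p _ => by
      by_cases e : p ∈ off T v
      · exact ⟨_, ⟨h.sm p e, h.dg p e⟩, Eventually.of_forall fun _ _ => rfl⟩
      · obtain ⟨β, a1, a2, a3⟩ := tq_ext e h.adm.sm ((em (T.time v p ∈ K)).elim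
          (fun k => (tendsto_snd.eventually (h1 _ k)).mono fun z l => l _)
          fun k => (tendsto_fst.eventually (z _ k)).mono fun z l => by rw [l.1]; simp [dr])
        refine ⟨β, ⟨a1, a2⟩, ?_⟩
        filter_upwards [a3, pot_near (α := α) (A := A) (c := c) h.pos (tor_of_not_off e)
          ((yy_axis e).trans_lt h.pos)] with q k1 k2 k3 using k2.trans (k1 k3)
  rw [show F = dM (𝓡 4) β from funext fun p => form_eq_of_dense dense_off ((h.cl.sm p trivial).of_le (by simp))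
    ((b1 p trivial).dM.of_le (by simp)) (Eventually.of_forall fun q k => (h.eq q k).trans
      (dM_congr (eventually_of_mem (isOpen_off.mem_nhds k) fun z l => (b3 z trivial l).symm)))]
  exact ip_dM ho hG b1 (T.isCompact_time hK fun x _ => hv x) s fun p hp =>
    form_eq_of_dense dense_off ((b1 p trivial).of_le (by simp)) cAt_zero
      ((T.continuous_time.continuousAt.eventually (z _ hp)).mono fun q k l => by
        rw [b3 q trivial l, pot_apply, tq_apply, k.1, k.2]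
        simp)

end tg

variable {a : ℤ → Z2} {S : Finset (ℤ × Bool)} {l : ℤ × Bool → ℝ} {x y s t : ℤ} {α : N → Ext EN} {o : N → Ext EN}
  {O F F' φ ψ : X T (wd a) → Ext E4} {U K W : Set (X T (wd a))} {n n' : ℤ × Bool → ℝ} {d : ℤ → ℝ}

variable (T a) in
/-- `F` is cohomologous on `U` to a toric form with orders `n` -/
structure OC (U : Set (X T (wd a))) (F : X T (wd a) → Ext E4) (n : ℤ → ℝ) : Prop where
  cl : Cl (𝓡 4) 2 U F
  ex : ∃ G A, TF T (wd a) U G A ∧ Ex (𝓡 4) U (F - G) ∧ ∀ j : ℤ, ∀ t ∈ Ioo (j : ℝ) (j + 1), dr (A t) (a j) = n j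

theorem WC.oc {m : ℤ → ℝ × ℝ} (h : WC T a U F m) : OC T a U F fun j => dr (m j) (a j) :=
  let ⟨G, h1, h2⟩ := h.ex
  ⟨h.cl, G, _, h1, h2, fun j _ ht => dr_pth (h.step j) ⟨by linarith [ht.1], ht.2⟩⟩

theorem TG.oc {r : ℝ} {c : ℝ → ℝ} (h : TG T (wd a) r α (mv a S l) c φ) (U : Set (X T (wd a))) :
    OC T a U φ (oh a S l) :=
  ⟨h.cl.mono (subset_univ _), φ, _, h.tf.mono (subset_univ _), ex_of_zero fun _ _ => sub_self _, fun _ _ => mv_slot⟩

variable (T a α) in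
/-- the test form of a family of moves -/
abbrev TT (S : Finset (ℤ × Bool)) (l : ℤ × Bool → ℝ) (φ : X T (wd a) → Ext E4) : Prop :=
  TG T (wd a) (1 / 12) α (mv a S l) (fun t => (mv a S l t).2) φ

variable (T a) in
/-- the slab that carries the tests of a range -/
abbrev sb (x y : ℤ) : Set (X T (wd a)) := T.time (wd a) ⁻¹' Icc ((x : ℝ) + 5 / 6) (y + 1 / 6)

theorem sb_mono (h1 : x ≤ s) (h2 : t ≤ y) : sb T a s t ⊆ sb T a x y :=
  preimage_mono (Icc_subset_Icc (by gcongr) (by gcongr))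

theorem exists_tt (hα : XA T α (0, 1) 1) (S : Finset (ℤ × Bool)) (l : ℤ × Bool → ℝ) : ∃ φ, TT T a α S l φ :=
  exists_TG h12 adm_mv adm_mv.sm.snd hα

theorem out_sb {u : ℝ} (hS : S ⊆ hs x y) (h : u ∉ Icc ((x : ℝ) + 5 / 6) (y + 1 / 6)) :
    (∀ᶠ v in 𝓝 u, mv a S l v = 0) ∨ ∀ᶠ v in 𝓝 u, mv a S l v = ∑ k ∈ S, l k • pp (a k.1) :=
  (not_and_or.1 h).imp (fun k => (eventually_le_nhds (not_le.1 k)).mono fun _ e =>
    mv_lo (fun _ b => (tk_hs (hS b)).1) (by linarith)) fun k => (eventually_ge_nhds (not_le.1 k)).mono fun _ =>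
      mv_hi fun _ b => (tk_hs (hS b)).2

variable [CompactSpace N]

theorem TT.cs (h : TT T a α S l φ) (hα : XA T α (0, 1) 1) (ha : IsWd a) (hS : S ⊆ hs x y)
    (h0 : ∑ k ∈ S, l k * pv a k.1 = 0) : Cs (𝓡 4) 2 (sb T a x y) φ :=
  h.cs_time hα (by norm_num) ha.loc isCompact_Icc fun _ ht => (out_sb hS ht).elim
    (fun k => ⟨0, k.mono fun _ e => by simp [e]⟩) fun k => ⟨_, k.mono fun _ e =>
      ⟨Prod.ext (by rw [e, fst_tot, h0]; simp) (by rw [e]; simp), congrArg Prod.snd e⟩⟩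

variable [MeasurableSpace E4] [BorelSpace E4] [MeasurableSpace (X T (wd a))] [BorelSpace (X T (wd a))]
  [SecondCountableTopology (X T (wd a))]

variable (T a α O) in
/-- **orders**: the pairing with all tests of the range -/
def WO (x y : ℤ) (F : X T (wd a) → Ext E4) (n : ℤ × Bool → ℝ) : Prop :=
  ∀ l φ, ∑ k ∈ hs x y, l k * pv a k.1 = 0 → TT T a α (hs x y) l φ →
    ip (𝓡 4) (-O) F φ = (2 * π) ^ 2 * ∑ k ∈ hs x y, l k * n k

theorem WO.sub (h : WO T a α O x y F n) (hS : S ⊆ hs x y) (h0 : ∑ k ∈ S, l k * pv a k.1 = 0)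
    (k : TT T a α S l φ) : ip (𝓡 4) (-O) F φ = (2 * π) ^ 2 * ∑ k ∈ S, l k * n k := by
  rw [h (indicator S l) φ ((sum_ind hS (fun k r => r * pv a k.1) (by simp)).trans h0) (by rwa [TT, mv_ind hS]),
    sum_ind hS (fun k r => r * n k) (by simp)]

theorem WO.congr (h : WO T a α O x y F n) (e : ∀ k ∈ hs x y, n k = n' k) : WO T a α O x y F n' :=
  fun l φ h0 k => (h l φ h0 k).trans (congrArg _ (Finset.sum_congr rfl fun k hk => by rw [e k hk]))

theorem WO.add_p (h : WO T a α O x y F n) (r : ℝ) : WO T a α O x y F fun k => n k + r * pv a k.1 :=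
  fun l φ h0 k => by
    simp only [h l φ h0 k, mul_add, Finset.sum_add_distrib, mul_left_comm _ r, ← Finset.mul_sum, h0, mul_zero, add_zero]

variable (T a α o O) in
/-- the standing assumptions -/
structure Sa (x y : ℤ) (U : Set (X T (wd a))) : Prop where
  xa : XA T α (0, 1) 1
  ox : OX T (wd a) o O
  pos : Pos IT IN T.τ {z | z.2 ≠ 0} oT o
  iw : IsWd a
  op : IsOpen U
  sub : sb T a x y ⊆ U

variable (T a α O) in
/-- a test for the weights `d` on the slots `s, …, t`, supported in `K` -/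
structure TS (x y : ℤ) (U K : Set (X T (wd a))) (s t : ℤ) (d : ℤ → ℝ) (φ : X T (wd a) → Ext E4) : Prop where
  cs : Cs (𝓡 4) 2 K φ
  wo : WO T a α O x y φ fun k => oh a (win s t) (fun k => d k.1) k.1
  ip : ∀ F n, Cl (𝓡 4) 2 U F → WO T a α O x y F n →
    ip (𝓡 4) (-O) F φ = (2 * π) ^ 2 * prs s t d fun j => n (wk s j)

theorem TS.mono {K' : Set (X T (wd a))} (h : TS T a α O x y U K s t d φ) (k : K ⊆ K') :
    TS T a α O x y U K' s t d φ := ⟨h.cs.mono k, h.wo, h.ip⟩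

namespace Sa

variable (H : Sa T a α o O x y U)
include H

theorem ori : Ori (𝓡 4) (-O) := H.ox.ori.neg

theorem cs (k : TT T a α (hs x y) l φ) (h0 : ∑ k ∈ hs x y, l k * pv a k.1 = 0) : Cs (𝓡 4) 2 U φ :=
  (k.cs H.xa H.iw subset_rfl h0).mono H.sub

theorem wo {m : ℤ → ℝ} (h : OC T a U F m) : WO T a α O x y F fun k => m k.1 := fun l φ h0 k => by
  obtain ⟨G, A, h1, h2, h3⟩ := h.ex
  rw [ip_neg_ori, (H.cs k h0).ip_coh H.ox.ori h.cl.sm h1.cl.sm h2, h1.ip_eq H.ox H.pos H.op k.tf (H.cs k h0),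
    integral_mv h3, neg_neg]

theorem coh (h : WO T a α O x y F n) (hF : Sm (𝓡 4) U F) (hF' : Sm (𝓡 4) U F') (e : Ex (𝓡 4) U (F' - F)) :
    WO T a α O x y F' n := fun l φ h0 k => ((H.cs k h0).ip_coh H.ori hF' hF e).trans (h l φ h0 k)

theorem comb (r : ℝ) (h : WO T a α O x y F n) (h' : WO T a α O x y F' n') (hF : Sm (𝓡 4) U F)
    (hF' : Sm (𝓡 4) U F') : WO T a α O x y (F + r • F') (n + r • n') := fun l φ h0 k => by
  rw [(H.cs k h0).ip_add H.ori hF (hF'.smul r), ip_smul, h l φ h0 k, h' l φ h0 k]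
  simp only [Pi.add_apply, Pi.smul_apply, smul_eq_mul, mul_add, Finset.sum_add_distrib, mul_left_comm _ r,
    ← Finset.mul_sum]

theorem wo_zero (h : ∀ p ∈ sb T a x y, F p = 0) : WO T a α O x y F 0 := fun l φ h0 k => by
  rw [(k.cs H.xa H.iw subset_rfl h0).ip_zero h]
  simp

/-- **every closed form has orders** -/
theorem exists_wo (hF : Cl (𝓡 4) 2 U F) : ∃ n, WO T a α O x y F n := by
  choose f hf using exists_tt (a := a) H.xa (hs x y)
  let P : (ℤ × Bool → ℝ) →ₗ[ℝ] ℝ := ∑ k ∈ hs x y, pv a k.1 • LinearMap.proj k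
  have hP : ∀ l, l ∈ LinearMap.ker P ↔ ∑ k ∈ hs x y, l k * pv a k.1 = 0 := fun l => by simp [P, mul_comm]
  have e : ∀ l l' (r : ℝ), f (l + r • l') = f l + r • f l' := fun l l' r =>
    (hf _).uniq (by rw [mv_add, mv_smul]; exact (hf l).comb r (hf l'))
  have e0 : f 0 = 0 := by simpa using e 0 0 (-1)
  obtain ⟨g, hg⟩ := LinearMap.exists_extend (p := LinearMap.ker P)
    { toFun := fun l => ip (𝓡 4) (-O) F (f l)
      map_add' := fun l l' => by
        rw [← ip_add_right (H.cs (hf _) ((hP _).1 l.2)) (H.cs (hf _) ((hP _).1 l'.2)) H.ori hF.sm]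
        simpa using congrArg (ip (𝓡 4) (-O) F) (e l l' 1)
      map_smul' := fun r l => by
        simpa [e0, ip_smul_right] using congrArg (ip (𝓡 4) (-O) F) (e 0 l r) }
  refine ⟨fun k => g (Pi.single k 1) / (2 * π) ^ 2, fun l φ h0 k => ?_⟩
  have h1 := (sum_ind subset_rfl (fun k r => r * pv a k.1) (by simp)).trans h0
  have h2 := LinearMap.congr_fun hg ⟨_, (hP _).2 h1⟩
  have h3 : indicator (hs x y) l = ∑ k ∈ hs x y, l k • (Pi.single k 1 : ℤ × Bool → ℝ) := funext fun k => by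
    by_cases c : k ∈ hs x y <;> simp [Finset.sum_apply, Pi.single_apply, c]
  have h4 := hf (indicator (hs x y) l)
  rw [TT, mv_ind subset_rfl] at h4
  rw [k.uniq h4]
  refine h2.symm.trans ((congrArg g h3).trans ?_)
  rw [map_sum, Finset.mul_sum]
  exact Finset.sum_congr rfl fun k _ => by rw [map_smul, smul_eq_mul]; field_simp

theorem two (h : WO T a α O x y F n) (hF : Cl (𝓡 4) 2 U F) {k k' : ℤ × Bool} (h1 : k ∈ hs x y) (h2 : k' ∈ hs x y)
    (lt : tk k < tk k') {ε : ℤ} (e : a k.1 = ε • a k'.1)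
    (hJ : Icc (tk k + 1 / 12) (tk k' + 1 / 6) ⊆ Jr (wd a) (a k'.1)) : n k = ε * n k' := by
  have ne : k ≠ k' := fun c => lt.ne (c ▸ rfl)
  have sm : ∀ {V : Type} [AddCommMonoid V] (f : ℤ × Bool → ℝ → V), ∑ z ∈ {k, k'}, f z (if z = k then 1 else -ε) =
      f k 1 + f k' (-ε) := fun f => by rw [Finset.sum_pair ne, if_pos rfl, if_neg ne.symm]
  obtain ⟨φ, hφ⟩ := exists_tt (a := a) H.xa {k, k'} fun z => if z = k then 1 else -ε
  have k1 := h.sub (by simp [Finset.insert_subset_iff, h1, h2])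
    ((sm fun z r => r * pv a z.1).trans (by simp [pv, e])) hφ
  have z : ∀ u, u ∉ Icc (tk k + 1 / 12) (tk k' + 1 / 6) → mv a {k, k'} (fun z => if z = k then 1 else -ε) u = 0 :=
    fun u hu => (not_and_or.1 hu).elim (fun c => mv_lo (by simp [lt.le]) (not_le.1 c).le) fun c =>
      (mv_hi (by simp [lt.le]) (not_le.1 c).le).trans ((sm fun z r => r • pp (a z.1)).trans (by simp [pp, e]))
  rw [hφ.ip_zero H.iw.loc H.ori hF isCompact_Icc ((preimage_mono (Icc_subset_Icc (by linarith [tk_hs h1])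
    (by linarith [tk_hs h2]))).trans H.sub) (fun u hu => by simp [z u hu]) fun u hu =>
      (mem_Jr.1 (hJ hu)).mono fun u' c r => dr_pm c (by
        rw [mv, sm fun z c => (sw (1 / 12) (r - tk z) * c) • pp (a z.1)]
        simp [dr_add, dr_smul, dr_pp, e, dt_self, -neg_smul, -zsmul_eq_mul, show dt (ε • a k'.1) (a k'.1) = 0 by
          simp only [dt, Prod.smul_fst, Prod.smul_snd, smul_eq_mul]; ring]), sm fun z r => r * n z] at k1
  linarith [(mul_eq_zero.1 k1.symm).resolve_left (by positivity)]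

/-- orders are consistent along a rod -/
theorem tr_rod (h : WO T a α O x y F n) (hF : Cl (𝓡 4) 2 U F) {j : ℤ} (h1 : x < j) (h2 : j < y) :
    n (j, false) = n (j, true) := by
  simpa using H.two h hF (k := (j, false)) (k' := (j, true)) (mem_hs.2 ⟨h1, h2.le⟩) (mem_hs.2 ⟨h1.le, h2⟩)
    (by simp [tk]) (ε := 1) (by simp) fun u hu => Ioo_subset_Jr (by
      simp only [tk, cond] at hu; exact ⟨by linarith [hu.1], by linarith [hu.2]⟩)

theorem tr_pt (h : WO T a α O x y F n) (hF : Cl (𝓡 4) 2 U F) {c ε : ℤ} (h1 : x < c) (h2 : c ≤ y)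
    (e : a (c - 1) = ε • a c) (hp : PM (a (c - 1)) (a c)) : n (c - 1, true) = ε * n (c, false) :=
  H.two h hF (k := (c - 1, true)) (k' := (c, false)) (mem_hs.2 ⟨by omega, by omega⟩) (mem_hs.2 ⟨h1, h2⟩)
    (by simp only [tk, cond]; push_cast; linarith) e fun u hu => Ioo_subset_Jr' (i := c - 1) (j := c) (fun k k1 k2 => by
      obtain rfl | rfl : k = c - 1 ∨ k = c := by omega
      exacts [hp, PM.refl _]) (by
        simp only [tk, cond] at hu; exact ⟨by linarith [hu.1], by push_cast at hu; linarith [hu.2]⟩)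

theorem wk_eq (h : WO T a α O x y F n) (hF : Cl (𝓡 4) 2 U F) {c : ℤ} (h1 : x ≤ s) (h2 : s < c) (h3 : c ≤ y) :
    n (wk s (c - 1)) = n (c - 1, true) ∧ n (wk s c) = n (c, false) := by
  refine ⟨?_, by simp [wk, h2.ne']⟩
  by_cases e : c - 1 = s
  · simp [wk, e]
  · simpa [wk, e] using H.tr_rod h hF (j := c - 1) (by omega) (by omega)

theorem tra (h : WO T a α O x y F n) (hF : Cl (𝓡 4) 2 U F) (h1 : x ≤ s) (h2 : t ≤ y) :
    TRa a s t fun j => n (wk s j) := fun c c1 c2 => by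
  obtain ⟨e1, e2⟩ := H.wk_eq h hF h1 c1 (c2.trans h2)
  simp only [e1, e2]
  exact ⟨fun e => by simpa using H.tr_pt h hF (ε := 1) (by omega) (by omega) (by simpa) (.inl e),
    fun e => by simpa using H.tr_pt h hF (ε := -1) (by omega) (by omega) (by simpa) (.inr e)⟩

theorem sum_win (f : ℤ × Bool → ℝ) : ∑ k ∈ win s t, d k.1 * f k = prs s t d fun j => f (wk s j) :=
  Finset.sum_map _ _ _

/-- **tests in slabs** -/
theorem exists_ts (h1 : x ≤ s) (h2 : s < t) (h3 : t ≤ y) (h0 : prs s t d (pv a) = 0) :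
    ∃ φ, TS T a α O x y U (sb T a s t) s t d φ ∧ TT T a α (win s t) (fun k => d k.1) φ :=
  let ⟨φ, k⟩ := exists_tt (a := a) H.xa (win s t) fun k => d k.1
  have e := (H.sum_win fun k => pv a k.1).trans h0
  ⟨φ, ⟨k.cs H.xa H.iw (win_sub h2) e, H.wo (k.oc U), fun _ _ _ h =>
    (h.sub ((win_sub h2).trans (hs_mono h1 h3)) e k).trans (congrArg _ (H.sum_win _))⟩, k⟩

/-- **tests near the axis** -/
theorem exists_ts' (h1 : x ≤ s) (h2 : s < t) (h3 : t ≤ y) (h0 : prs s t d (pv a) = 0) (h0' : prs s t d (qv a) = 0) :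
    ∃ φ, TS T a α O x y U (T.ov (wd a) (Icc ((s : ℝ) + 5 / 6) (t + 1 / 6) ×ˢ Icc 0 (1 / 6))) s t d φ := by
  obtain ⟨ψ, k1, k2⟩ := H.exists_ts h1 h2 h3 h0
  obtain ⟨φ, k⟩ := exists_TG (c := fun _ => 0) h12 (adm_mv (a := a) (S := win s t) (l := fun k => d k.1)) contDiff_const H.xa
  have z : ∀ u, u ∉ Icc ((s : ℝ) + 5 / 6) (t + 1 / 6) → ∀ᶠ v in 𝓝 u, mv a (win s t) (fun k => d k.1) v = 0 :=
    fun u hu => (out_sb (win_sub h2) hu).elim id fun c => c.mono fun _ e => e.trans (Prod.ext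
      (by rw [fst_tot, H.sum_win]; exact neg_eq_zero.2 h0) (by rw [snd_tot, H.sum_win]; exact h0'))
  have c := k.cs_ov H.xa (by norm_num) H.iw.loc isCompact_Icc fun u hu => by simpa using z u hu
  have s1 := (sb_mono (T := T) (a := a) h1 h3).trans H.sub
  refine ⟨φ, by norm_num at c ⊢; exact c, H.wo (k.oc U), fun F n hF h => ?_⟩
  have := (k2.comb (-1) k).ip_zero H.iw.loc H.ori hF isCompact_Icc s1
    (fun u hu => by simp [(z u hu).self_of_nhds]) fun u _ => Eventually.of_forall fun _ _ => by simp [dr]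
  rw [ip_add_right (k1.cs.mono s1) ((c.mono fun p hp => s1 hp.2.1).smul _) H.ori hF.sm, ip_smul_right,
    k1.ip F n hF h] at this
  linarith

variable {ι : Type} [Fintype ι] [DecidableEq ι] {L : ι → ℤ → ℝ} {g : ι → ℝ} {e : ι → X T (wd a) → Ext E4}

theorem ip_ts {d' : ℤ → ℝ} {K' : Set (X T (wd a))} (h : TS T a α O x y U K s t d φ)
    (h' : TS T a α O x y U K' s t d' ψ) : ip (𝓡 4) (-O) φ ψ = (2 * π) ^ 2 * prs s t d' (od a s d) := by
  rw [h'.ip φ _ (h.cs.on U) h.wo, prs_congr fun j _ b _ => oh_win (by simp [wk]; omega)]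
  rfl

theorem lat (hg : OG a s t s t L g) (he : ∀ i, TS T a α O x y U W s t (L i) (e i)) (hW : IsOpen W)
    (hb : Bd (𝓡 4) 2 W (Fintype.card ι)) :
    Lat (𝓡 4) (-O) W W e (Matrix.diagonal fun i => (2 * π) ^ 2 * g i) :=
  ⟨H.ori, hW, subset_rfl, hb, fun i => (he i).cs, fun i k => by
    rw [H.ip_ts (he i) (he k), hg.gram, Matrix.diagonal_apply, mul_ite, mul_zero], by
    rw [Matrix.det_diagonal]
    exact Finset.prod_ne_zero_iff.2 fun i _ => mul_ne_zero (by positivity) (hg.ne i)⟩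

theorem nu_eq (hg : OG a s t s t L g) (he : ∀ i, TS T a α O x y U W s t (L i) (e i)) (hW : IsOpen W) (sW : W ⊆ U)
    (hb : Bd (𝓡 4) 2 W (Fintype.card ι)) (hz : HZ (𝓡 4) 1 W) (hF : Cl (𝓡 4) 2 U F) (hF' : Cl (𝓡 4) 2 U F')
    (h : WO T a α O x y F n) (h' : WO T a α O x y F' n') (hψ : TS T a α O x y U W s t d ψ) {m : ℝ × ℝ}
    (hm : ∀ i, prs s t (L i) (fun j => dr m (a j)) = 0)
    (hd : ∀ j ∈ Finset.Icc s t, n' (wk s j) = dr m (a j) + od a s d j) :
    nu (𝓡 4) (-O) F F' W = (0, (Fintype.card ι + ∑ i, (SignType.sign (g i) : ℝ)) / 2,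
      (Fintype.card ι - ∑ i, (SignType.sign (g i) : ℝ)) / 2, (2 * π) ^ 2 * prs s t d fun j => n (wk s j)) := by
  have k := H.lat hg he hW hb
  have p : (0 : ℝ) < (2 * π) ^ 2 := by positivity
  rw [k.nu (hF.mono sW) (hF'.mono sW), (Num57.sig_diag _).1, (Num57.sig_diag _).2, ← hψ.ip F n hF h,
    k.ip_eq (hF.mono sW) hψ.cs, ← (ncard_sign hg.ne).1, ← (ncard_sign hg.ne).2,
    Nat.eq_zero_of_le_zero (bd_zero.2 hz).finrank_le, isq]
  simp only [mul_pos_iff_of_pos_left p, mul_neg_iff, p, p.not_gt, true_and, false_and, or_false, Nat.cast_zero]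
  congr 5
  funext i
  rw [(he i).ip F' n' hF' h', H.ip_ts hψ (he i), prs_congr (n' := (fun j => dr m (a j)) + od a s d)
    fun j j1 j2 _ => hd j (Finset.mem_Icc.2 ⟨j1, j2⟩), prs_add', hm, zero_add]

theorem sum_lr (h1 : x ≤ s) (h3 : t ≤ y) (hF : Cl (𝓡 4) 2 U F) (hF' : Cl (𝓡 4) 2 U F') (h : WO T a α O x y F n)
    (h' : WO T a α O x y F' n') : ∑ c ∈ Finset.Ioc s t, lr (a (c - 1)) (a c) (n (wk s (c - 1))) (n (wk s c))
      (n' (wk s (c - 1))) (n' (wk s c)) = ∑ c ∈ Finset.Ioc s t,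
      lr (a (c - 1)) (a c) (n (c - 1, true)) (n (c, false)) (n' (c - 1, true)) (n' (c, false)) :=
  Finset.sum_congr rfl fun c hc => by
    have := Finset.mem_Ioc.1 hc
    rw [(H.wk_eq h hF h1 this.1 (this.2.trans h3)).1, (H.wk_eq h hF h1 this.1 (this.2.trans h3)).2,
      (H.wk_eq h' hF' h1 this.1 (this.2.trans h3)).1, (H.wk_eq h' hF' h1 this.1 (this.2.trans h3)).2]

theorem prs_dr (h : prs s t d (pv a) = 0) {m : ℝ × ℝ} (h' : m.1 * prs s t d (qv a) = 0) :
    prs s t d (fun j => dr m (a j)) = 0 := by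
  rw [show (fun j => dr m (a j)) = m.1 • qv a + m.2 • pv a from rfl, prs_add', prs_smul', prs_smul', h, h']
  simp

theorem prs_tot {m m' : ℝ × ℝ} (h : m + ∑ j ∈ Finset.Icc s t, d j • pp (a j) = m') :
    prs s t d (pv a) = m.1 - m'.1 ∧ prs s t d (qv a) = m'.2 - m.2 := by
  simp [← h, Prod.fst_sum, Prod.snd_sum, pp, prs, pv, qv]

/-- **the numbers of a slab between rational homology spheres** -/
theorem nu_slab (h1 : x ≤ s) (h2 : s < t) (h3 : t ≤ y) (p1 : (a s).2 ≠ 0) (p2 : (a t).2 ≠ 0)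
    (hz : ∀ k < 2, HZ (𝓡 4) (k + 1) (T.time (wd a) ⁻¹' Ioo ((s : ℝ) + 1 / 2) (s + 3 / 4)))
    (sW : T.time (wd a) ⁻¹' Ioo ((s : ℝ) + 1 / 2) (t + 1 / 2) ⊆ U) :
    HL (𝓡 4) (-O) (T.time (wd a) ⁻¹' Ioo ((s : ℝ) + 1 / 2) (t + 1 / 2)) ∧ ∀ F F' n n', Cl (𝓡 4) 2 U F →
      Cl (𝓡 4) 2 U F' → WO T a α O x y F n → WO T a α O x y F' n' →
      nu (𝓡 4) (-O) F F' (T.time (wd a) ⁻¹' Ioo ((s : ℝ) + 1 / 2) (t + 1 / 2)) =
        (0, (nvr a s t + sgr a s t) / 2, (nvr a s t - sgr a s t) / 2, (2 * π) ^ 2 * ∑ c ∈ Finset.Ioc s t,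
          lr (a (c - 1)) (a c) (n (c - 1, true)) (n (c, false)) (n' (c - 1, true)) (n' (c, false))) := by
  haveI := Int54.sigmaCompact (I := 𝓡 4) (X T (wd a))
  have st : (s : ℝ) + 1 ≤ t := by exact_mod_cast h2
  have hd := hd_time (T := T) H.iw (α := s + 1 / 2) (β := s + 3 / 4) (γ := t + 1 / 2) (by linarith) (by linarith)
  rw [show ⌈(s : ℝ) + 3 / 4⌉ = s + 1 from Int.ceil_eq_iff.2 ⟨by push_cast; linarith, by push_cast; linarith⟩,
    show ⌈(t : ℝ) + 1 / 2⌉ = t + 1 from Int.ceil_eq_iff.2 ⟨by push_cast; linarith, by push_cast; linarith⟩,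
    add_sub_cancel_right, add_sub_cancel_right] at hd
  obtain ⟨ι, _, _, L, g, k, e1, e2, -⟩ := dg_slab H.iw le_rfl le_rfl h2.le p1 p2
  have sK : sb T a s t ⊆ T.time (wd a) ⁻¹' Ioo ((s : ℝ) + 1 / 2) (t + 1 / 2) :=
    preimage_mono (Icc_subset_Ioo (by linarith) (by linarith))
  choose e he _ using fun i => H.exists_ts h1 h2 h3 (k.cl i)
  have hb : Bd (𝓡 4) 2 _ (Fintype.card ι) := (hd.bd2 (bd_zero.2 (hz 1 one_lt_two))).mono
    (by rw [← nv_eq H.iw] at e1; exact_mod_cast e1.ge)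
  have z1 := hd.hz (by simp) (hz 0 two_pos)
  refine ⟨⟨(H.lat k (fun i => (he i).mono sK) hd.op hb).ld, (bd_zero.2 z1).finite⟩, fun F F' n n' hF hF' h h' => ?_⟩
  have q1 : ((a s).2 : ℝ) ≠ 0 := Int.cast_ne_zero.2 p1
  have q2 : ((a t).2 : ℝ) ≠ 0 := Int.cast_ne_zero.2 p2
  obtain ⟨d, d1, d2, d3⟩ := exists_d H.iw h2.le (H.tra h' hF' h1 h3) (m := (0, n' (wk s s) / (a s).2))
    (m' := (0, n' (wk s t) / (a t).2)) (by simp [dr, q1]) (by simp [dr, q2])
  obtain ⟨ψ, hψ, -⟩ := H.exists_ts h1 h2 h3 ((H.prs_tot d1).1.trans (sub_self _))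
  rw [H.nu_eq k (fun i => (he i).mono sK) hd.op sW hb z1 hF hF' h h' (hψ.mono sK)
    (fun i => H.prs_dr (k.cl i) (zero_mul _)) d2, e1, e2, ← H.sum_lr h1 h3 hF hF' h h', d3 _ (H.tra h hF h1 h3)]
  simp [kk, p1, p2]

theorem ov_disc : T.ov (wd a) (Icc ((s : ℝ) + 5 / 6) (t + 1 / 6) ×ˢ Icc 0 (1 / 6)) ⊆
    T.disc (wd a) ((s + t + 1) / 2) (Iio ((t - s) / 2)) := fun p hp => by
  obtain ⟨h1, ⟨h2, h3⟩, h4, h5⟩ : p ∈ T.tor _ ∧ T.time _ p ∈ Icc _ _ ∧ T.yy _ p ∈ Icc _ _ := hp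
  refine ⟨h1, (Real.sqrt_lt' (by linarith)).2 ?_⟩
  change (T.time _ p - _) ^ 2 + T.yy _ p ^ 2 < _
  nlinarith [mul_nonneg (sub_nonneg.2 h2) (sub_nonneg.2 h3)]

/-- **the numbers of a half disc whose feet form a basis** -/
theorem nu_disc (h1 : x ≤ s) (h2 : s < t) (h3 : t ≤ y) (hu : Uni (a s) (a t))
    (sW : T.disc (wd a) ((s + t + 1) / 2) (Iio ((t - s) / 2)) ⊆ U) :
    HL (𝓡 4) (-O) (T.disc (wd a) ((s + t + 1) / 2) (Iio ((t - s) / 2))) ∧ (∀ F F' n n', Cl (𝓡 4) 2 U F →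
      Cl (𝓡 4) 2 U F' → WO T a α O x y F n → WO T a α O x y F' n' →
      nu (𝓡 4) (-O) F F' (T.disc (wd a) ((s + t + 1) / 2) (Iio ((t - s) / 2))) =
        (0, (nvr a s t + sgr a s t) / 2 - (1 + (nn (a s) (a t)).sign) / 2,
          (nvr a s t - sgr a s t) / 2 - (1 - (nn (a s) (a t)).sign) / 2, (2 * π) ^ 2 * (∑ c ∈ Finset.Ioc s t,
          lr (a (c - 1)) (a c) (n (c - 1, true)) (n (c, false)) (n' (c - 1, true)) (n' (c, false)) -
          lr (a s) (a t) (n (s, true)) (n (t, false)) (n' (s, true)) (n' (t, false))))) ∧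
      ∀ F n m, Cl (𝓡 4) 2 U F → WO T a α O x y F n → (∀ j, s ≤ j → j ≤ t → n (wk s j) = dr m (a j)) →
        Ex (𝓡 4) (T.disc (wd a) ((s + t + 1) / 2) (Iio ((t - s) / 2))) F := by
  haveI := Int54.sigmaCompact (I := 𝓡 4) (X T (wd a))
  obtain ⟨ι, _, _, L, g, k, e1, e2, e3⟩ := dg_disc H.iw h2.le hu
  obtain ⟨B, hB, hd⟩ := hd_disc (T := T) (c := (s + t + 1) / 2) (r := (t - s) / 2) H.iw h2
    ⟨by linarith, by linarith⟩ ⟨by linarith, by linarith⟩ (n := Fintype.card ι)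
    (by rw [← nv_eq H.iw, eq_sub_iff_add_eq] at e1; exact_mod_cast e1.symm)
  choose e he using fun i => H.exists_ts' h1 h2 h3 (k.cl i) (e3 i)
  have hb := hd.bd2 (bd_zero.2 (hB.hz 1))
  have z1 := hd.hz (by simp) (hB.hz 0)
  have hl := H.lat k (fun i => (he i).mono H.ov_disc) hd.op hb
  have hm := fun m i => H.prs_dr (m := m) (k.cl i) (by rw [e3 i, mul_zero])
  refine ⟨⟨hl.ld, (bd_zero.2 z1).finite⟩, fun F F' n n' hF hF' h h' => ?_, fun F n m hF h hn =>
    hl.ex (hF.mono sW) fun i => by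
      rw [(he i).ip F n hF h, prs_congr fun j j1 j2 _ => hn j j1 j2, hm, mul_zero]⟩
  obtain ⟨m, m1, m2⟩ := exists_dr hu (n' (wk s s)) (n' (wk s t))
  obtain ⟨d, d1, d2, d3⟩ := exists_d H.iw h2.le (H.tra h' hF' h1 h3) m1 m2
  obtain ⟨ψ, hψ⟩ := H.exists_ts' h1 h2 h3 ((H.prs_tot d1).1.trans (sub_self _)) ((H.prs_tot d1).2.trans (sub_self _))
  have := lr_dr (wd_ne H.iw s) (wd_ne H.iw t) m (n (s, true)) (n (t, false))
  rw [m1, m2, sq_uni hu] at this
  rw [H.nu_eq k (fun i => (he i).mono H.ov_disc) hd.op sW hb z1 hF hF' h h' (hψ.mono H.ov_disc) (hm m) d2, e1, e2,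
    ← H.sum_lr h1 h3 hF hF' h h', d3 _ (H.tra h hF h1 h3)]
  simp only [wk, decide_true, h2.ne', decide_false] at this ⊢
  rw [this]
  congr 2
  · ring
  · congr 1 <;> ring

end Sa

end Crest.Agent.X212.Dr59
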