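import Crest.Agent.X212.Dr59.Lat
import Crest.Agent.X212.Orx52.Rod
import Crest.Agent.X212.Line51.Pot
import Crest.Agent.X212.Int54.Cyl

/-!
# X212 / Dr59, part 7 (helper59): the intersection number of toric two-forms

* `tq T v A = A₁(t) dθ₁ + A₂(t) dθ₂`, `gw T v r` (zero near the axis, one far out);
* `TF T v U F A` : `F` is closed on `U`, `F = dγ` off the axis, `γ = tq A` near the axis;
* `TF.ip_eq` : `∫ F ∧ F' = -(2π)² ∫ det (A, dB/dt) dt`.
-/

set_option autoImplicit false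
set_option linter.unusedSectionVars false
set_option linter.style.haveILetI false

open Set Filter Topology Function Module MeasureTheory
open scoped ContDiff Manifold Real
open Crest.Agent.R208 Crest.Agent.R208.F Crest.Agent.R208.FI
open Crest.Agent.X212.Int54 hiding dt pr kap tp_pr pr_eq cAt_pr pm_pr kap_ne sigmaCompact
open Crest.Agent.X212.Line51 hiding tp Uni
open Crest.Agent.X212.Orx52 Crest.Agent.X212.Rod53 Crest.Agent.X212.Pj41
open Crest.Agent.X212.Glue52 (dir dir_mul norm_mul_dir contMDiffAt_of_comp)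

noncomputable section

namespace Crest.Agent.X212.Dr59

section gen

variable {E : Type*} [NormedAddCommGroup E] [NormedSpace ℝ E] [FiniteDimensional ℝ E]
  {H : Type*} [TopologicalSpace H] {I : ModelWithCorners ℝ E H} [I.Boundaryless]
  {M : Type*} [TopologicalSpace M] [ChartedSpace H M] [IsManifold I ∞ M]
  {E' : Type*} [NormedAddCommGroup E'] [NormedSpace ℝ E'] [FiniteDimensional ℝ E']
  {H' : Type*} [TopologicalSpace H'] {J : ModelWithCorners ℝ E' H'} [J.Boundaryless]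
  {N : Type*} [TopologicalSpace N] [ChartedSpace H' N] [IsManifold J ∞ N]
  {F : Type*} [NormedAddCommGroup F] [NormedSpace ℝ F] [FiniteDimensional ℝ F]
  {G : Type*} [TopologicalSpace G] {K : ModelWithCorners ℝ F G} [K.Boundaryless]
  {P : Type*} [TopologicalSpace P] [ChartedSpace G P] [IsManifold K ∞ P]

theorem df_comp {g : M → ℝ} {x : M} (hg : MDifferentiableAt I 𝓘(ℝ, ℝ) g x) {χ : ℝ → ℝ}
    (hχ : DifferentiableAt ℝ χ (g x)) : df I (fun y => χ (g y)) x = deriv χ (g x) • df I g x := by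
  have h := pm_df hg hχ.mdifferentiableAt
  rw [df_real, pm_fsmul, Pi.smul_apply', ← oR_eq_dt, pm_oR hg] at h
  exact h.symm

theorem pos_comp {f : N → M} {g : P → N} {s : Set N} {t : Set P} {o : M → Ext E} {a : N → Ext E'}
    {b : P → Ext F} (h : Pos J I f s a o) (h' : Pos K J g t b a)
    (hf : ∀ y ∈ s, MDifferentiableAt J I f y) (hg : ∀ z ∈ t, MDifferentiableAt K J g z)
    (ht : MapsTo g t s) (hr : finrank ℝ E' = finrank ℝ F) : Pos K I (f ∘ g) t b o := fun z hz => by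
  have k := h' z hz
  rw [pm_apply, tp_pb hr, mul_right_comm, mul_comm] at k
  rw [← pm_comp (hf _ (ht hz)) (hg z hz), pm_apply, tp_pb hr, mul_comm (jac _), mul_assoc]
  exact pos_trans (h _ (ht hz)) k

theorem io_four (s a t b : Module.Dual ℝ E) :
    io s * io a * (io t * io b) = -(io a * io b * io s * io t) := by
  rw [io_anti s a, io_anti t b, neg_mul_neg, mul_assoc (io a), ← mul_assoc (io s), io_anti s b]
  simp only [neg_mul, mul_neg, mul_assoc]

theorem io_tor (s t a b : Module.Dual ℝ E) (p q : ℝ × ℝ) :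
    io s * (p.1 • io a + p.2 • io b) * (io t * (q.1 • io a + q.2 • io b)) =
      -(p.1 * q.2 - p.2 * q.1) • (io a * io b * io s * io t) := by
  have h : ∀ a : Module.Dual ℝ E, io s * io a * (io t * io a) = 0 := fun a => by
    rw [mul_assoc, io_three, mul_zero]
  simp only [mul_add, add_mul, mul_smul_comm, smul_mul_assoc, h, io_four s a t b, io_four s b t a,
    io_anti b a, neg_mul]
  module

end gen

theorem integ_oC [MeasurableSpace Circle] [BorelSpace Circle] : integ (𝓡 1) oC oC = 2 * π := by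
  have h := integOn_map (J := 𝓘(ℝ, ℝ)) (I := 𝓡 1) (f := Circle.exp) (s := Ioc (-π) π) (by simp) ori_oC
    ori_oR measurableSet_Ioc (fun w _ => contMDiff_circleExp w) (Circle.exp_injOn_Ioc (by linarith))
    (by rw [pm_exp_oC]; exact ori_oR.same _) oC
  have e : Circle.exp '' Ioc (-π) π = univ :=
    eq_univ_of_univ_subset Circle.surjOn_exp_neg_pi_pi
  rw [e, integOn_univ, pm_exp_oC, oR_eq_dt] at h
  have k := integOn_dt 1 (Ioc (-π) π)
  rw [one_smul] at k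
  rw [h, k]
  simp [Real.pi_pos.le, two_mul]

/-- zero below `r`, one above `2 r` -/
def sw (r y : ℝ) : ℝ := Real.smoothTransition (y / r - 1)

section sw

variable {r y : ℝ}

theorem contDiff_sw (r : ℝ) : ContDiff ℝ ∞ (sw r) :=
  Real.smoothTransition.contDiff.comp ((contDiff_id.div_const r).sub contDiff_const)

theorem sw_zero (hr : 0 < r) (h : y ≤ r) : sw r y = 0 :=
  Real.smoothTransition.zero_of_nonpos (sub_nonpos.2 ((div_le_one hr).2 h))

theorem sw_one (hr : 0 < r) (h : 2 * r ≤ y) : sw r y = 1 :=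
  Real.smoothTransition.one_of_one_le (le_sub_iff_add_le.2 ((le_div_iff₀ hr).2 (by linarith)))

theorem deriv_sw (hr : 0 < r) (h : y ∉ Icc r (2 * r)) : deriv (sw r) y = 0 := by
  rcases not_and_or.1 h with h | h
  · rw [EventuallyEq.deriv_eq (f := fun _ => 0) (eventually_of_mem (Iio_mem_nhds (not_le.1 h))
      fun _ k => sw_zero hr (le_of_lt k)), deriv_const]
  · rw [EventuallyEq.deriv_eq (f := fun _ => 1) (eventually_of_mem (Ioi_mem_nhds (not_le.1 h))
      fun _ k => sw_one hr (le_of_lt k)), deriv_const]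

theorem integral_deriv_sw (hr : 0 < r) : ∫ y, deriv (sw r) y = 1 := by
  rw [integral_of_hasDerivAt_of_tendsto (f := sw r) (m := 0) (n := 1)
    (fun y => ((contDiff_sw r).differentiable (by simp) y).hasDerivAt)
    (((contDiff_sw r).continuous_deriv (by simp)).integrable_of_hasCompactSupport
      (HasCompactSupport.intro isCompact_Icc fun _ => deriv_sw hr))
    (tendsto_const_nhds.congr' ((eventually_le_atBot r).mono fun _ k => (sw_zero hr k).symm))
    (tendsto_const_nhds.congr' ((eventually_ge_atTop _).mono fun _ k => (sw_one hr k).symm)), sub_zero]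

end sw

variable {EN HN : Type} [NormedAddCommGroup EN] [NormedSpace ℝ EN] [FiniteDimensional ℝ EN]
  [TopologicalSpace HN] {IN : ModelWithCorners ℝ EN HN} [IN.Boundaryless]
  {N : Type} [TopologicalSpace N] [ChartedSpace HN N] [IsManifold IN ∞ N] [T2Space N]
  {T : Tb IN N} {v : ℝ → Z2} {p : X T v} {r ε : ℝ} {A B : ℝ → ℝ × ℝ} {U V : Set (X T v)}
  {F F' : X T v → Ext E4}

theorem off_iff (h : p ∈ T.tor v) : p ∈ off T v ↔ 0 < T.yy v p := by
  obtain ⟨h1, h2⟩ := T.eta_of_tor h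
  rw [off, mem_ofPred_eq, h2, inv_lt_one₀ (by positivity), lt_add_iff_pos_right]

theorem yy_axis (h : p ∉ off T v) : T.yy v p = 0 :=
  le_antisymm (not_lt.1 (mt (off_iff (tor_of_not_off h)).2 h)) (T.eta_of_tor (tor_of_not_off h)).1

theorem exists_std (h : p ∈ T.tor v) (h' : p ∈ off T v) :
    ∃ w : (Circle × ℂ) × ℝ, w.1.2 ≠ 0 ∧ T.rod v uni_std w = p :=
  let ⟨w, hw, e⟩ := T.mem_rod uni_std h (Or.inl ((off_iff h).1 h').ne')
  ⟨w, (rod_mem_off uni_std hw).1 (e ▸ h'), e⟩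

theorem hf_tor {Z : Type} (g : ℝ → Z) (d : Z) (h : p ∈ T.tor v) : T.hf v g d p = g (T.yy v p) := by
  by_cases k : p ∈ off T v
  · obtain ⟨w, hw, rfl⟩ := exists_std h k
    rw [T.hf_rod _ _ _ (Or.inl hw), T.yy_rod _ (Or.inl hw)]
  · rw [yy_axis k]
    induction p using T.ind with
    | h1 q x hq => exact absurd (ext_mem_off hq) k
    | h2 a b hu u x hx => rw [T.hf_rod _ _ hu (Or.inr hx), norm_zero]
    | h3 a b hu c hc => simp [T.hf_vtx _ _ hu (Tb.zero_mem_Uv hc)]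

theorem hf_not {Z : Type} (g : ℝ → Z) (d : Z) (h : p ∉ T.tor v) : T.hf v g d p = d := by
  obtain ⟨q, hq, rfl⟩ := exists_ext_of_off (by_contra fun k => h (tor_of_not_off k))
  exact (T.hf_ext _ _ hq).trans (T.rf_not _ _ fun k => h ((T.ext_mem_tor hq).2 k))

theorem sm_yy (h : p ∈ T.tor v) (h' : p ∈ off T v) : FSm (𝓡 4) (T.yy v) p := by
  obtain ⟨w, hw, rfl⟩ := exists_std h h'
  refine contMDiffAt_of_comp (ld_pd (T.rod v uni_std) (Or.inl hw))
    (((sm_norm hw).comp w contMDiffAt_fst).congr_of_eventuallyEq ?_)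
  filter_upwards [isOpen_Ur.mem_nhds (Or.inl hw)] with z hz using T.yy_rod _ hz

theorem ev_lt (h : p ∈ T.tor v) (h' : T.yy v p < ε) : ∀ᶠ q in 𝓝 p, q ∈ T.tor v ∧ T.yy v q < ε :=
  (show ∀ᶠ q in 𝓝 p, q ∈ T.tor v from T.isOpen_tor.mem_nhds h).and
    ((T.continuousOn_yy.continuousAt (T.isOpen_tor.mem_nhds h)).eventually_lt_const h')

variable (T v) in
/-- zero near the axis, one far out -/
def gw (r : ℝ) : X T v → ℝ := T.hf v (sw r) 1

theorem gw_ev (h : p ∈ T.tor v) : gw T v r =ᶠ[𝓝 p] fun q => sw r (T.yy v q) :=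
  eventually_of_mem (T.isOpen_tor.mem_nhds h) fun _ => hf_tor _ _

theorem gw_zero (hr : 0 < r) (h : p ∈ T.tor v) (h' : T.yy v p < r) : gw T v r =ᶠ[𝓝 p] 0 :=
  (ev_lt h h').mono fun _ k => (hf_tor _ _ k.1).trans (sw_zero hr k.2.le)

theorem gw_axis (hr : 0 < r) (h : p ∉ off T v) : gw T v r =ᶠ[𝓝 p] 0 :=
  gw_zero hr (tor_of_not_off h) ((yy_axis h).trans_lt hr)

theorem gw_one (hr : 0 < r) (h : ¬(p ∈ T.tor v ∧ T.yy v p ≤ 2 * r)) : gw T v r =ᶠ[𝓝 p] 1 := by
  filter_upwards [(T.isClosed_le_yy (2 * r)).isOpen_compl.mem_nhds h] with q hq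
  by_cases k : q ∈ T.tor v
  · exact (hf_tor _ _ k).trans (sw_one hr (le_of_not_ge fun e => hq ⟨k, e⟩))
  · exact hf_not _ _ k

theorem sm_gw (hr : 0 < r) (p : X T v) : FSm (𝓡 4) (gw T v r) p := by
  by_cases k : p ∈ off T v
  · by_cases h : p ∈ T.tor v
    · exact (cm_fun (contDiff_sw r).contDiffAt (sm_yy h k)).congr_of_eventuallyEq (gw_ev h)
    · exact contMDiffAt_const.congr_of_eventuallyEq (gw_one hr fun e => h e.1)
  · exact contMDiffAt_const.congr_of_eventuallyEq (gw_axis hr k)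

theorem cz_gw (hr : 0 < r) : Cz (𝓡 4) U (U ∩ off T v) (gw T v r) :=
  ⟨fun p _ => sm_gw hr p, fun _ hp k => gw_axis hr fun e => k ⟨hp, e⟩⟩

variable (T v) in
/-- the toric one-form of a path -/
def tq (A : ℝ → ℝ × ℝ) : X T v → Ext E4 := Line51.tp T v fun p => A (T.time v p)

theorem tq_apply (A : ℝ → ℝ × ℝ) (p : X T v) : tq T v A p =
    (A (T.time v p)).1 • ang (𝓡 4) (chi T v (1, 0)) p + (A (T.time v p)).2 • ang (𝓡 4) (chi T v (0, 1)) p := rfl

theorem sm_time {f : ℝ → ℝ} (hf : ContDiff ℝ ∞ f) (p : X T v) :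
    FSm (𝓡 4) (fun q => f (T.time v q)) p := cm_fun hf.contDiffAt (T.contMDiff_time p)

theorem smAt_tq (hA : ContDiff ℝ ∞ A) (h : p ∈ T.tor v) (h' : p ∈ off T v) : SmAt (𝓡 4) (tq T v A) p :=
  smAt_tp h h' (sm_time hA.fst p) (sm_time hA.snd p)

theorem dM_tq (hA : ContDiff ℝ ∞ A) (h : p ∈ T.tor v) (h' : p ∈ off T v) :
    dM (𝓡 4) (tq T v A) p = df (𝓡 4) (T.time v) p * tq T v (deriv A) p := by
  have k : ∀ (l : ℝ × ℝ →L[ℝ] ℝ) (η : Z2), dM (𝓡 4) ((fun q => l (A (T.time v q))) • ang (𝓡 4) (chi T v η)) p =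
      l (deriv A (T.time v p)) • (df (𝓡 4) (T.time v) p * ang (𝓡 4) (chi T v η) p) := fun l η => by
    have d := l.hasFDerivAt.comp_hasDerivAt _ (hA.differentiable (by simp) (T.time v p)).hasDerivAt
    rw [dM_fsmul ne0 ((sm_time (f := fun t => l (A t)) (l.contDiff.comp hA) p).mdifferentiableAt ne0) (smAt_ang (csm_off h h')),
      dM_ang (csm_off h h'), smul_zero, add_zero, ← smul_mul_assoc, ← d.deriv,
      ← df_comp ((T.contMDiff_time p).mdifferentiableAt ne0) d.differentiableAt]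
    rfl
  rw [tq_apply, mul_add, mul_smul_comm, mul_smul_comm]
  exact (dM_add ne0 ((smAt_ang (csm_off h h')).fsmul le_rfl (sm_time hA.fst p))
    ((smAt_ang (csm_off h h')).fsmul le_rfl (sm_time hA.snd p))).trans
      (congrArg₂ (· + ·) (k (.fst ℝ ℝ ℝ) _) (k (.snd ℝ ℝ ℝ) _))

variable (T v) in
/-- the punctured neighbourhood of the axis -/
def nb (ε : ℝ) : Set (X T v) := {p | p ∈ T.tor v ∧ p ∈ off T v ∧ T.yy v p < ε}

theorem nb_mem (h : p ∈ nb T v ε) : nb T v ε ∈ 𝓝 p :=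
  ((ev_lt h.1 h.2.2).and (isOpen_off.mem_nhds h.2.1)).mono fun _ k => ⟨k.1.1, k.2, k.1.2⟩

theorem nb_mono (h : r ≤ ε) : nb T v r ⊆ nb T v ε := fun _ k => ⟨k.1, k.2.1, k.2.2.trans_le h⟩

variable (T v) in
/-- toric closed two-forms -/
structure TF (U : Set (X T v)) (F : X T v → Ext E4) (A : ℝ → ℝ × ℝ) : Prop where
  cl : Cl (𝓡 4) 2 U F
  sm : ContDiff ℝ ∞ A
  pot : ∃ γ ε, 0 < ε ∧ Sm (𝓡 4) (U ∩ off T v) γ ∧ (∀ p ∈ U, p ∈ off T v → dM (𝓡 4) γ p = F p) ∧
    EqOn γ (tq T v A) (U ∩ nb T v ε)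

theorem TF.mono (h : TF T v U F A) (hV : V ⊆ U) : TF T v V F A :=
  let ⟨γ, ε, h1, h2, h3, h4⟩ := h.pot
  ⟨h.cl.mono hV, h.sm, γ, ε, h1, h2.mono (inter_subset_inter_left _ hV), fun p hp => h3 p (hV hp),
    h4.mono (inter_subset_inter_left _ hV)⟩

theorem TF.congr (h : TF T v U F A) (hU : IsOpen U) (e : EqOn F' F U) : TF T v U F' A :=
  let ⟨γ, ε, h1, h2, h3, h4⟩ := h.pot
  ⟨h.cl.congr hU e, h.sm, γ, ε, h1, h2, fun p hp k => (h3 p hp k).trans (e hp).symm, h4⟩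

theorem TF.add (h : TF T v U F A) (h' : TF T v U F' B) : TF T v U (F + F') (A + B) :=
  let ⟨γ, ε, h1, h2, h3, h4⟩ := h.pot
  let ⟨γ', ε', k1, k2, k3, k4⟩ := h'.pot
  ⟨h.cl.add h'.cl, h.sm.add h'.sm, γ + γ', min ε ε', lt_min h1 k1, h2.add k2, fun p hp k => by
    rw [dM_add ne0 (h2 p ⟨hp, k⟩) (k2 p ⟨hp, k⟩), h3 p hp k, k3 p hp k, Pi.add_apply], fun p hp => by
    rw [Pi.add_apply, h4 ⟨hp.1, nb_mono (min_le_left _ _) hp.2⟩,
      k4 ⟨hp.1, nb_mono (min_le_right _ _) hp.2⟩]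
    simp only [tq_apply, Pi.add_apply, Prod.fst_add, Prod.snd_add]
    module⟩

theorem TF.smul (c : ℝ) (h : TF T v U F A) : TF T v U (c • F) (c • A) :=
  let ⟨γ, ε, h1, h2, h3, h4⟩ := h.pot
  ⟨h.cl.smul c, h.sm.const_smul c, c • γ, ε, h1, h2.smul c, fun p hp k => by
    rw [dM_smul ne0 c (h2 p ⟨hp, k⟩), h3 p hp k, Pi.smul_apply], fun p hp => by
    rw [Pi.smul_apply, h4 hp]
    simp only [tq_apply, Pi.smul_apply, Prod.smul_fst, Prod.smul_snd, smul_eq_mul]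
    module⟩

theorem near_eq (hU : IsOpen U) (hA : ContDiff ℝ ∞ A) {γ : X T v → Ext E4}
    (h : EqOn γ (tq T v A) (U ∩ nb T v ε)) (hp : p ∈ U) (k : p ∈ nb T v ε) :
    dM (𝓡 4) γ p = df (𝓡 4) (T.time v) p * tq T v (deriv A) p :=
  (dM_congr (eventually_of_mem (inter_mem (hU.mem_nhds hp) (nb_mem k)) h)).trans (dM_tq hA k.1 k.2.1)

/-- the determinant of a path and the velocity of another one -/
def om (A B : ℝ → ℝ × ℝ) (t : ℝ) : ℝ := (A t).1 * (deriv B t).2 - (A t).2 * (deriv B t).1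

/-- the model of `T² × ℝ × ℝ` -/
abbrev IQ := (((𝓡 1).prod (𝓡 1)).prod 𝓘(ℝ, ℝ)).prod 𝓘(ℝ, ℝ)

/-- polar coordinates -/
def rho (z : ((Circle × Circle) × ℝ) × ℝ) : (Circle × ℂ) × ℝ := ((z.1.1.1, z.1.2 * z.1.1.2), z.2)

section rho

variable {z : ((Circle × Circle) × ℝ) × ℝ}

theorem q1 : CSm IQ (fun z : ((Circle × Circle) × ℝ) × ℝ => z.1.1.1) z := contMDiffAt_fst.fst.fst
theorem q2 : CSm IQ (fun z : ((Circle × Circle) × ℝ) × ℝ => z.1.1.2) z := contMDiffAt_fst.fst.snd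
theorem q3 : FSm IQ (fun z : ((Circle × Circle) × ℝ) × ℝ => z.1.2) z := contMDiffAt_fst.snd
theorem q4 : FSm IQ (fun z : ((Circle × Circle) × ℝ) × ℝ => z.2) z := contMDiffAt_snd

theorem sm_rho : ContMDiffAt IQ IR ∞ rho z :=
  (q1.prodMk (FSm.mul' q3.ofReal ((contMDiff_coe _).comp z q2))).prodMk q4

theorem rho_ne (h : 0 < z.1.2) : (rho z).1.2 ≠ 0 :=
  mul_ne_zero (by exact_mod_cast h.ne') (Circle.coe_ne_zero _)

/-- the volume form of `T² × ℝ × ℝ` -/
def vq (z : ((Circle × Circle) × ℝ) × ℝ) :=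
  ang IQ (fun z => z.1.1.1) z * ang IQ (fun z => z.1.1.2) z * df IQ (fun z => z.1.2) z * df IQ (fun z => z.2) z

/-- `dθ₁ dθ₂` -/
def o2 := Int54.pr oC oC

/-- `dθ₁ dθ₂ f(s) ds` -/
def o3 (f : ℝ → ℝ) := Int54.pr o2 (f • oR)

/-- `dθ₁ dθ₂ f(s) ds g(t) dt` -/
def o4 (f g : ℝ → ℝ) := Int54.pr (o3 f) (g • oR)

theorem o4_eq (f g : ℝ → ℝ) : o4 f g z = (f z.1.2 * g z.2) • vq z := by
  have h := pm_pr (K := IQ) (φ := id) (y := z) mdifferentiableAt_id (o3 f) (g • oR)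
  have h1 := pm_pr (K := IQ) (φ := Prod.fst) (y := z) mdifferentiableAt_fst o2 (f • oR)
  have h2 := pm_pr (K := IQ) (φ := Prod.fst ∘ Prod.fst) (y := z)
    (contMDiffAt_fst.fst.mdifferentiableAt ne0) oC oC
  rw [pm_id, pm_fsmul] at h
  rw [pm_fsmul] at h1
  refine (h.trans (congrArg₂ (· * ·) (h1.trans (congrArg₂ (· * ·) (h2.trans (congrArg₂ (· * ·)
    (pm_oC (q1.mdifferentiableAt ne0)) (pm_oC (q2.mdifferentiableAt ne0))))
    (congrArg (f z.1.2 • ·) (pm_oR (q3.mdifferentiableAt ne0)))))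
    (congrArg (g z.2 • ·) (pm_oR (q4.mdifferentiableAt ne0))))).trans ?_
  simp only [vq, mul_smul_comm, smul_mul_assoc, smul_smul, mul_comm (g z.2)]
  rfl

theorem ori_o2 : Ori ((𝓡 1).prod (𝓡 1)) o2 := ori_pr ori_oC ori_oC

theorem ori_o3 : Ori (((𝓡 1).prod (𝓡 1)).prod 𝓘(ℝ, ℝ)) (o3 1) := ori_pr ori_o2 (by simpa using ori_oR)

theorem ori_o4 : Ori IQ (o4 1 1) := ori_pr ori_o3 (by simpa using ori_oR)

theorem pos_rho : Pos IQ IR rho {z | 0 < z.1.2} (-o4 1 1) (pr oT oR) := by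
  refine pos_of_eq (oriOn ori_o4 _).neg (c := fun z => z.1.2) (fun _ h => h) fun z _ => ?_
  rw [pm_pr (sm_rho.mdifferentiableAt ne0), oT, pm_pr (φ := Prod.fst ∘ rho) (sm_rho.fst.mdifferentiableAt ne0),
    Pi.neg_apply, o4_eq]
  refine (congrArg₂ (· * ·) (congrArg₂ (· * ·) (pm_oC (q1.mdifferentiableAt ne0)) (pm_oZ_polar q3 q2))
    (pm_oR (q4.mdifferentiableAt ne0))).trans ?_
  rw [vq, ang, ang, th, th, df, io_anti _ (tl IQ (sc fun z => z.1.1.2) z)]
  simp only [mul_smul_comm, smul_mul_assoc, mul_neg, neg_mul, smul_neg, mul_assoc, Pi.one_apply, one_smul,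
    mul_one]

theorem integ_o4 [MeasurableSpace Circle] [BorelSpace Circle] (f g : ℝ → ℝ) :
    integ IQ (o4 1 1) (o4 f g) = (2 * π) ^ 2 * (∫ s, f s) * ∫ t, g t := by
  have k : ∀ f : ℝ → ℝ, integ 𝓘(ℝ, ℝ) ((1 : ℝ → ℝ) • oR) (f • oR) = ∫ s, f s := fun f => by
    rw [one_smul, oR_eq_dt, ← integOn_univ, integOn_dt, Measure.restrict_univ]
  have c : Cd 𝓘(ℝ, ℝ) ((1 : ℝ → ℝ) • oR) := by simpa using ori_oR.cd
  rw [o4, o4, integ_pr ori_o3.cd c, o3, o3, integ_pr ori_o2.cd c, o2, integ_pr ori_oC.cd ori_oC.cd,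
    integ_oC, k, k, sq]

theorem inj_rho : InjOn rho {z | 0 < z.1.2} := fun z hz w hw e => by
  have e1 : (z.1.2 : ℂ) * z.1.1.2 = w.1.2 * w.1.1.2 := congrArg (·.1.2) e
  exact Prod.ext (Prod.ext (Prod.ext (congrArg (·.1.1) e)
    ((dir_mul hz _).symm.trans ((congrArg dir e1).trans (dir_mul hw _))))
    ((norm_polar hz.le _).symm.trans ((congrArg norm e1).trans (norm_polar hw.le _)))) (congrArg (·.2) e)

variable (T v) in
/-- the free toric part -/
def ph (z : ((Circle × Circle) × ℝ) × ℝ) : X T v := T.rod v uni_std (rho z)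

theorem sm_ph (h : 0 < z.1.2) : ContMDiffAt IQ (𝓡 4) ∞ (ph T v) z :=
  (ld_pd (T.rod v uni_std) (Or.inl (rho_ne h))).contMDiffAt.comp z sm_rho

theorem ph_tor (h : 0 < z.1.2) : ph T v z ∈ T.tor v := T.rod_mem_tor _ (Or.inl (rho_ne h))

theorem ph_off (h : 0 < z.1.2) : ph T v z ∈ off T v := (rod_mem_off _ (Or.inl (rho_ne h))).2 (rho_ne h)

theorem yy_ph (h : 0 < z.1.2) : T.yy v (ph T v z) = z.1.2 :=
  (T.yy_rod _ (Or.inl (rho_ne h))).trans (norm_polar h.le _)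

theorem time_ph (h : 0 < z.1.2) : T.time v (ph T v z) = z.2 := T.time_rod _ (Or.inl (rho_ne h))

theorem exists_ph (h : p ∈ T.tor v) (h' : p ∈ off T v) : p ∈ ph T v '' {z | 0 < z.1.2} := by
  obtain ⟨w, hw, rfl⟩ := exists_std h h'
  exact ⟨(((w.1.1, dir w.1.2), ‖w.1.2‖), w.2), norm_pos_iff.2 hw, by simp [ph, rho, norm_mul_dir]⟩

theorem ev_pos (h : 0 < z.1.2) : ∀ᶠ w : ((Circle × Circle) × ℝ) × ℝ in 𝓝 z, 0 < w.1.2 :=
  continuous_fst.snd.continuousAt.eventually_const_lt h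

theorem pm_tq (h : 0 < z.1.2) (A : ℝ → ℝ × ℝ) : pm IQ (𝓡 4) (ph T v) (tq T v A) z =
    (A z.2).1 • ang IQ (fun z => z.1.1.1) z + (A z.2).2 • ang IQ (fun z => z.1.1.2) z := by
  have k : ∀ η, pm IQ (𝓡 4) (ph T v) (ang (𝓡 4) (chi T v η)) z =
      ang IQ (fun z => z.1.1.2 ^ η.2 * z.1.1.1 ^ η.1) z := fun η =>
    (pm_ang (csm_off (ph_tor h) (ph_off h)) ((sm_ph h).mdifferentiableAt ne0)).trans
      (ang_congr ((ev_pos h).mono fun w hw => (chi_rod _ (rho_ne hw)).trans (by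
        simp [rho, dot, dir_mul hw])))
  have k1 := k (1, 0)
  have k2 := k (0, 1)
  simp only [zpow_zero, zpow_one, one_mul, mul_one] at k1 k2
  rw [pm_apply, tq_apply, map_add, map_smul, map_smul, time_ph h, ← k1, ← k2]
  rfl

theorem pm_tor (h : 0 < z.1.2) (A B : ℝ → ℝ × ℝ) : pm IQ (𝓡 4) (ph T v)
    (df (𝓡 4) (T.yy v) * tq T v A * (df (𝓡 4) (T.time v) * tq T v (deriv B))) z = -om A B z.2 • vq z := by
  have d := (sm_ph (T := T) (v := v) h).mdifferentiableAt ne0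
  rw [pm_mul, pm_mul, pm_mul, Pi.mul_apply, Pi.mul_apply, Pi.mul_apply, pm_tq h, pm_tq h,
    pm_df d ((sm_yy (ph_tor h) (ph_off h)).mdifferentiableAt ne0),
    pm_df d ((T.contMDiff_time _).mdifferentiableAt ne0),
    df_congr (f := T.yy v ∘ ph T v) (g := fun z => z.1.2) ((ev_pos h).mono fun _ => yy_ph),
    df_congr (f := T.time v ∘ ph T v) (g := fun z => z.2) ((ev_pos h).mono fun _ => time_ph)]
  exact io_tor _ _ _ _ _ _

end rho

variable [MeasurableSpace E4] [BorelSpace E4] [MeasurableSpace (X T v)] [BorelSpace (X T v)]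
  [SecondCountableTopology (X T v)] {o : N → Ext EN} {O : X T v → Ext E4}

theorem integ_tor (hO : OX T v o O) (hτ : Pos IT IN T.τ {z | z.2 ≠ 0} oT o) (hr : 0 < r)
    {W : X T v → Ext E4} (h : ∀ p ∈ T.tor v, p ∈ off T v → T.yy v p ∈ Icc r (2 * r) →
      W p = (tq T v A * (df (𝓡 4) (T.time v) * tq T v (deriv B))) p) :
    integ (𝓡 4) O (df (𝓡 4) (gw T v r) * W) = (2 * π) ^ 2 * ∫ t, om A B t := by
  borelize Circle
  have k := hO.rod hτ uni_std
  rw [show -((dt (0, 1) (1, 0) : ℤ) : ℝ) = 1 by simp [dt], one_smul] at k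
  have k1 : Pos IQ (𝓡 4) (ph T v) {z | 0 < z.1.2} (-o4 1 1) O :=
    pos_comp k pos_rho (fun _ hy => (ld_pd _ hy).mdifferentiableAt ne0)
      (fun _ _ => sm_rho.mdifferentiableAt ne0) (fun _ hz => Or.inl (rho_ne hz)) (by simp)
  have k2 : InjOn (ph T v) {z | 0 < z.1.2} :=
    (T.rod v uni_std).injOn.comp inj_rho fun _ hz => Or.inl (rho_ne hz)
  refine (integ_eq_of_map (by simp) hO.ori ori_o4.neg
    (isOpen_lt continuous_const continuous_fst.snd).measurableSet (fun _ => sm_ph) k2 (same_symm k1)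
    (b := o4 (deriv (sw r)) (-om A B)) (fun x hx => ?_) (fun z hz => ?_) fun z hz => congrArg _ ?_).trans ?_
  · by_cases k : x ∈ off T v
    · rw [Pi.mul_apply, df_eq_zero (c := 1) (gw_one hr fun e => hx (exists_ph e.1 k)), zero_mul, map_zero]
    · rw [Pi.mul_apply, df_eq_zero (c := 0) (gw_axis hr k), zero_mul, map_zero]
  · rw [o4_eq, deriv_sw hr fun e => hz (hr.trans_le e.1), zero_mul, zero_smul, map_zero]
  · have e : (df (𝓡 4) (gw T v r) * W) (ph T v z) = deriv (sw r) z.1.2 • (df (𝓡 4) (T.yy v) * tq T v A *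
        (df (𝓡 4) (T.time v) * tq T v (deriv B))) (ph T v z) := by
      rw [Pi.mul_apply, df_congr (gw_ev (ph_tor hz)), df_comp (g := T.yy v)
        ((sm_yy (ph_tor hz) (ph_off hz)).mdifferentiableAt ne0) ((contDiff_sw r).differentiable (by simp) _), yy_ph hz, smul_mul_assoc, mul_assoc]
      by_cases c : z.1.2 ∈ Icc r (2 * r)
      · rw [h _ (ph_tor hz) (ph_off hz) ((yy_ph (T := T) hz).symm ▸ c)]
        rfl
      · rw [deriv_sw hr c, zero_smul, zero_smul]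
    rw [pm_apply, e, map_smul, ← pm_apply, pm_tor hz, o4_eq, smul_smul]
    rfl
  · rw [integ_neg_ori, integ_o4, integral_deriv_sw hr, mul_one]
    simp [integral_neg]

/-- **the intersection number of two toric forms** -/
theorem TF.ip_eq (hO : OX T v o O) (hτ : Pos IT IN T.τ {z | z.2 ≠ 0} oT o) (hU : IsOpen U)
    (h : TF T v U F A) (h' : TF T v univ F' B) (hc : Cs (𝓡 4) 2 U F') :
    ip (𝓡 4) O F F' = -((2 * π) ^ 2 * ∫ t, om A B t) := by
  obtain ⟨γ, ε, h1, h2, h3, h4⟩ := h.pot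
  obtain ⟨γ', ε', k1, -, k3, k4⟩ := h'.pot
  obtain ⟨r, hr, r1, r2⟩ : ∃ r, 0 < r ∧ 2 * r < ε ∧ 2 * r < ε' :=
    ⟨min ε ε' / 4, by positivity, by linarith [min_le_left ε ε', lt_min h1 k1],
      by linarith [min_le_right ε ε', lt_min h1 k1]⟩
  have e' : ∀ p ∈ nb T v ε', F' p = df (𝓡 4) (T.time v) p * tq T v (deriv B) p := fun p hp =>
    (k3 p trivial hp.2.1).symm.trans (near_eq isOpen_univ h'.sm k4 trivial hp)
  have z : ∀ p ∈ U, p ∈ nb T v (min ε ε') → (F * F') p = 0 := fun p hp k => by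
    rw [Pi.mul_apply, e' p (nb_mono (min_le_right _ _) k), ← h3 p hp k.2.1,
      near_eq hU h.sm h4 hp (nb_mono (min_le_left _ _) k), tq_apply (deriv A)]
    simp only [df, ang, th, mul_add, add_mul, mul_smul_comm, smul_mul_assoc, ← mul_assoc (io _ * io _),
      mul_assoc (io _) (io _) (io _), io_three, zero_mul, smul_zero, add_zero]
  have c := cz_gw (U := U) hr
  have k := hc.ip_ex hO.ori (c.ex_cut h2 fun p hp k => h3 p hp k.2)
  rw [cut, hc.ip_add hO.ori (h.cl.sm.fsmul c.sm) (c.cf.sm_mul h2), ip, ip, mul_assoc,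
    integ_tor (A := A) (B := B) hO hτ hr fun p a b d => ?_] at k
  · refine (integ_congr fun p => congrArg _ ?_).trans (eq_neg_of_add_eq_zero_left k)
    rw [smul_mul_assoc, Pi.smul_apply']
    by_cases hp : p ∈ U
    swap
    · rw [Pi.mul_apply, hc.eq_zero hp, mul_zero, smul_zero]
    by_cases a : p ∈ T.tor v ∧ T.yy v p ≤ 2 * r
    · rw [form_eq_of_dense dense_off (((h.cl.sm p hp).mul (hc.cl.sm p trivial)).of_le (by simp)) cAt_zero
        (((ev_lt a.1 (a.2.trans_lt (lt_min r1 r2))).and (hU.mem_nhds hp)).mono fun q b d =>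
          z q b.2 ⟨b.1.1, d, b.1.2⟩), Pi.zero_apply, smul_zero]
    · rw [(gw_one hr a).self_of_nhds, Pi.one_apply, one_smul]
  · have := e' p ⟨a, b, d.2.trans_lt r2⟩
    rw [Pi.mul_apply, Pi.mul_apply, Pi.mul_apply, ← this]
    by_cases hp : p ∈ U
    · rw [h4 ⟨hp, a, b, d.2.trans_lt r1⟩]
    · rw [hc.eq_zero hp, mul_zero, mul_zero]

end Crest.Agent.X212.Dr59
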