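import Crest.Agent.X212.Dr59.Hd
import Crest.Agent.X212.Dr59.Tor
import Crest.Agent.X212.Rod53.Fill

/-!
# X212 / Dr59, part 11 (helper59): handle decompositions of rod manifolds

* `cp T v hu` (the product structure off the axis and over the rods `± a`), `rg T v J K` (regions);
* `eqv_rg`, `Rg`, `Rg.eqv` (no vertex), `Rg.two` (one vertex), `Rg.hd` (words), `hd_time`;
* `acy_ov`, `eqv_ov`, `hd_ov` (convex toric regions, half discs).
-/

set_option autoImplicit false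
set_option linter.unusedSectionVars false
set_option linter.style.haveILetI false

open Set Filter Topology Function Module
open scoped ContDiff Manifold
open Crest.Agent.R208 Crest.Agent.R208.FI
open Crest.Agent.R208.F hiding wd
open Crest.Agent.X212.Line51 hiding tp Uni
open Crest.Agent.X212.Rod53 Crest.Agent.X212.Glue52

noncomputable section

namespace Crest.Agent.X212.Dr59

variable {EN HN : Type} [NormedAddCommGroup EN] [NormedSpace ℝ EN] [FiniteDimensional ℝ EN]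
  [TopologicalSpace HN] {IN : ModelWithCorners ℝ EN HN} [IN.Boundaryless]
  {N : Type} [TopologicalSpace N] [ChartedSpace HN N] [IsManifold IN ∞ N] [T2Space N]
  {T : Tb IN N} {v : ℝ → Z2} {a b : Z2} {p : X T v}
  {EY HY : Type} [NormedAddCommGroup EY] [NormedSpace ℝ EY] [TopologicalSpace HY]
  {IY : ModelWithCorners ℝ EY HY} {Y : Type} [TopologicalSpace Y] [ChartedSpace HY Y]

section cp

variable (F : Fl T a b IY Y) (v) (hu : Uni a b)

/-- the domain of the product structure -/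
def cd : Set (Y × ℝ) := {q | q.1 ∈ F.pe.target ∨ q.2 ∈ Jr v a}

variable {v}

theorem isOpen_cd : IsOpen (cd v F) :=
  (F.pe.open_target.preimage continuous_fst).union (isOpen_interior.preimage continuous_snd)

theorem it_mem_cd {w : Circle × ℂ} {t : ℝ} : (F.it w, t) ∈ cd v F ↔ (w, t) ∈ Ur v a :=
  or_congr_left (F.mem_pe_target.trans ⟨fun h e => h w.1 (by rw [← show w.2 = 0 from e]),
    fun h _ e => h (congrArg Prod.snd (F.oeT.inj e)).symm⟩)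

theorem e_mem_cd {q : N} (h : q ∈ T.Ex) (t : ℝ) : (F.e q, t) ∈ cd v F := Or.inl ⟨q, h, rfl⟩

theorem cd_cases {q : Y × ℝ} (h : q ∈ cd v F) : (∃ x ∈ T.Ex, F.e x = q.1) ∨ q.1 ∉ F.pe.target ∧ q.2 ∈ Jr v a :=
  (em (q.1 ∈ F.pe.target)).imp id fun k => ⟨k, h.resolve_left k⟩

theorem off_cyf {q : Y × ℝ} (h : q ∈ cd v F) : F.cyf v hu q ∈ off T v ↔ q.1 ∈ F.pe.target := by
  obtain ⟨y, t⟩ := q
  rcases F.surj' y with ⟨x, hx, rfl⟩ | ⟨u, rfl⟩
  · exact iff_of_true (F.cyf_e v hu hx t ▸ ext_mem_off hx) ⟨x, hx, rfl⟩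
  · rw [F.cyf_it, rod_mem_off hu ((it_mem_cd F).1 h), F.mem_pe_target]
    exact iff_of_false (fun k => k rfl) fun k => k u rfl

/-- the product structure -/
def cp : PartialDiffeomorph (IY.prod 𝓘(ℝ, ℝ)) (𝓡 4) (Y × ℝ) (X T v) ∞ :=
  pdOn (f := F.cyf v hu) (isOpen_cd (v := v) F) ⟨_, e_mem_cd F ((T.τ_mem (w := (1, 1))).2 one_ne_zero) 0⟩
    (fun ⟨y, t⟩ h => by
      rcases cd_cases F h with ⟨x, hx, rfl⟩ | k
      · refine ld_of_comp (ld_prodMap_at (F.ld_e hx) (ld_id t)) (ld_congr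
          (ld_pd (T.ext v) (mk_mem_prod hx (mem_univ t))) ?_)
        filter_upwards [(T.isOpen_Ex.preimage continuous_fst).mem_nhds hx] with z hz using F.cyf_e v hu hz z.2
      · exact F.ld_cyf hu y k.2)
    fun ⟨y, t⟩ h ⟨y', t'⟩ h' e => by
      have k := (off_cyf F hu h).symm.trans (e ▸ off_cyf F hu h')
      rcases cd_cases F h with ⟨x, hx, rfl⟩ | l
      · obtain ⟨x', hx', rfl⟩ := k.1 ⟨x, hx, rfl⟩
        rw [F.cyf_e v hu hx, F.cyf_e v hu hx'] at e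
        cases (T.ext v).injOn (mk_mem_prod hx (mem_univ t)) (mk_mem_prod hx' (mem_univ t')) e
        rfl
      · exact F.injOn_cyf hu ⟨trivial, l.2⟩ ⟨trivial, h'.resolve_left (mt k.2 l.1)⟩ e

theorem cp_source : (cp (v := v) F hu).source = cd v F := rfl

theorem cp_apply (q : Y × ℝ) : cp F hu q = F.cyf v hu q := rfl

theorem exists_cp (h : p ∈ off T v ∨ T.time v p ∈ Jr v a) : ∃ q ∈ cd v F, cp F hu q = p := by
  rcases h with h | h
  · obtain ⟨q, hq, rfl⟩ := exists_ext_of_off h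
    exact ⟨_, e_mem_cd F hq q.2, F.cyf_e v hu hq _⟩
  · exact let ⟨y, e⟩ := F.exists_cyf hu h; ⟨_, Or.inr h, e⟩

end cp

variable (T v) in
/-- the region with the fibres `J r` in the toric part and `K` outside -/
def rg (J : ℝ → Set ℝ) (K : Set ℝ) : Set (X T v) :=
  {p | (p ∈ T.tor v ∧ T.time v p ∈ J (T.yy v p)) ∨ (p ∉ T.tor v ∧ T.time v p ∈ K)}

variable {J J' : ℝ → Set ℝ} {K K' C S : Set ℝ} {c β β' γ δ ε t : ℝ}

theorem mem_rg (h : p ∈ T.tor v) : p ∈ rg T v J K ↔ T.time v p ∈ J (T.yy v p) := by simp [rg, h]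

theorem mem_rg' (h : p ∉ T.tor v) : p ∈ rg T v J K ↔ T.time v p ∈ K := by simp [rg, h]

theorem rg_ext {U : Set (X T v)} (h : ∀ p ∈ T.tor v, p ∈ U ↔ T.time v p ∈ J (T.yy v p))
    (h' : ∀ p, p ∉ T.tor v → (p ∈ U ↔ T.time v p ∈ K)) : U = rg T v J K := Set.ext fun p =>
  (em (p ∈ T.tor v)).elim (fun k => (h p k).trans (mem_rg k).symm) fun k => (h' p k).trans (mem_rg' k).symm

theorem rg_time (S : Set ℝ) : T.time v ⁻¹' S = rg T v (fun _ => S) S := rg_ext (fun _ _ => Iff.rfl) fun _ _ => Iff.rfl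

theorem rg_ov (O : Set (ℝ × ℝ)) : T.ov v O = rg T v (fun r => {t | (t, r) ∈ O}) ∅ :=
  rg_ext (fun _ h => and_iff_right h) fun _ h => iff_of_false (fun k => h k.1) id

theorem rg_inter (S : Set ℝ) : rg T v J K ∩ T.time v ⁻¹' S = rg T v (fun r => J r ∩ S) (K ∩ S) :=
  rg_ext (fun _ h => and_congr_left' (mem_rg h)) fun _ h => and_congr_left' (mem_rg' h)

theorem rg_off (S : Set ℝ) : rg T v J K ∩ (off T v ∪ T.time v ⁻¹' S) =
    rg T v (fun r => J r ∩ {t | 0 < r ∨ t ∈ S}) K :=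
  rg_ext (fun _ h => and_congr (mem_rg h) (or_congr_left (off_iff h))) fun _ h =>
    (and_iff_left (Or.inl (by_contra fun k => h (tor_of_not_off k)))).trans (mem_rg' h)

theorem fib_cp (F : Fl T a b IY Y) (hu : Uni a b) (y : Y) :
    (∃ r, ∀ (J : ℝ → Set ℝ) K, J 0 ⊆ Jr v a → {t | (y, t) ∈ cd v F ∩ cp F hu ⁻¹' rg T v J K} = J r) ∨
    ∀ J K, {t | (y, t) ∈ cd v F ∩ cp F hu ⁻¹' rg T v J K} = K := by
  by_cases h : ∃ w, F.it w = y
  · obtain ⟨w, rfl⟩ := h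
    have k : ∀ J K t, (w, t) ∈ Ur v a → (cp F hu (F.it w, t) ∈ rg T v J K ↔ t ∈ J ‖w.2‖) := fun J K t e => by
      rw [cp_apply, F.cyf_it, mem_rg (T.rod_mem_tor hu e), T.time_rod hu e, T.yy_rod hu e]
    refine Or.inl ⟨‖w.2‖, fun J K h => Set.ext fun t => ⟨fun l => (k J K t ((it_mem_cd F).1 l.1)).1 l.2,
      fun l => ?_⟩⟩
    have e : (w, t) ∈ Ur v a := (em (w.2 = 0)).symm.imp_right fun e => h (by simpa [e] using l)
    exact ⟨(it_mem_cd F).2 e, (k J K t e).2 l⟩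
  · obtain ⟨x, hx, rfl⟩ := (F.surj' y).resolve_right fun ⟨_, e⟩ => h ⟨_, e⟩
    refine Or.inr fun J K => Set.ext fun t => (and_iff_right (e_mem_cd F hx t)).trans ?_
    rw [mem_preimage, cp_apply, F.cyf_e v hu hx, mem_rg', T.time_ext hx]
    rw [T.ext_mem_tor hx]
    rintro ⟨w, rfl⟩
    exact h ⟨_, (F.e_τ' hu (T.τ_mem.1 hx)).symm⟩

theorem image_cp (F : Fl T a b IY Y) (hu : Uni a b) (h : J 0 ⊆ Jr v a) :
    cp F hu '' (cd v F ∩ cp F hu ⁻¹' rg T v J K) = rg T v J K :=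
  Subset.antisymm (by rintro _ ⟨q, hq, rfl⟩; exact hq.2) fun p hp => by
    obtain ⟨q, h1, rfl⟩ := exists_cp F hu (p := p) ((em _).imp_right fun k => h (by
      rw [← yy_axis k]; exact (mem_rg (tor_of_not_off k)).1 hp))
    exact ⟨q, ⟨h1, hp⟩, rfl⟩

theorem eqv_rg (hu : Uni a b) (hU : IsOpen (rg T v J K)) (hW : IsOpen (rg T v J' K')) (h0 : J 0 ⊆ Jr v a)
    (h : ∀ r, J' r ⊆ J r ∧ StarConvex ℝ c (J r) ∧ StarConvex ℝ c (J' r) ∧ ∀ t ∈ J r, c ∈ J' r)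
    (h' : K' ⊆ K ∧ StarConvex ℝ c K ∧ StarConvex ℝ c K' ∧ ∀ t ∈ K, c ∈ K') :
    Eqv (𝓡 4) (rg T v J K) (rg T v J' K') := by
  have h1 := (h 0).1.trans h0
  have o : ∀ {U}, IsOpen U → IsOpen (cd v (T.fl hu) ∩ cp (T.fl hu) hu ⁻¹' U) := fun k =>
    (cp (T.fl hu) hu).contMDiffOn_toFun.continuousOn.isOpen_inter_preimage (isOpen_cd _) k
  have k : ∀ y, ∃ A B : Set ℝ, (B ⊆ A ∧ StarConvex ℝ c A ∧ StarConvex ℝ c B ∧ ∀ t ∈ A, c ∈ B) ∧
      {t | (y, t) ∈ cd v (T.fl hu) ∩ cp (T.fl hu) hu ⁻¹' rg T v J K} = A ∧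
      {t | (y, t) ∈ cd v (T.fl hu) ∩ cp (T.fl hu) hu ⁻¹' rg T v J' K'} = B := fun y =>
    (fib_cp (T.fl hu) hu y).elim (fun ⟨r, e⟩ => ⟨_, _, h r, e J K h0, e J' K' h1⟩)
      fun e => ⟨_, _, h', e J K, e J' K'⟩
  rw [← image_cp (T.fl hu) hu h0, ← image_cp (T.fl hu) hu h1]
  refine (eqv_fib (c := c) (o hU) (o hW) (fun z hz => ?_) (fun z hz => ?_) (fun y => ?_) fun y => ?_).pd _
    (o hU) (o hW) inter_subset_left
  · obtain ⟨A, B, l, e, e'⟩ := k z.1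
    exact e.ge (l.1 (e'.le hz))
  · obtain ⟨A, B, l, e, e'⟩ := k z.1
    exact e'.ge (l.2.2.2 _ (e.le hz))
  · obtain ⟨A, B, l, e, -⟩ := k y
    exact e ▸ l.2.1
  · obtain ⟨A, B, l, -, e⟩ := k y
    exact e ▸ l.2.2.1

variable (T v) in
/-- open regions whose fibres are intervals that are empty or contain `C` -/
structure Rg (J : ℝ → Set ℝ) (K C : Set ℝ) : Prop where
  op : IsOpen (rg T v J K)
  cv : ∀ r, Convex ℝ (J r)
  cv' : Convex ℝ K
  sub : ∀ r, ∀ t ∈ J r, C ⊆ J r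
  sub' : ∀ t ∈ K, C ⊆ K

theorem rg_of_time (hS : IsOpen S) (h : Convex ℝ S) : Rg T v (fun _ => S) S S :=
  ⟨rg_time (T := T) (v := v) S ▸ hS.preimage T.continuous_time, fun _ => h, h, fun _ _ _ => Subset.rfl, fun _ _ => Subset.rfl⟩

theorem star_aux {A B B' : Set ℝ} (h : Convex ℝ A) (hB : Convex ℝ B) (hB' : Convex ℝ B') (s : B' ⊆ B)
    (k : ∀ t ∈ A, c ∈ A) (hc : c ∈ B') : A ∩ B' ⊆ A ∩ B ∧ StarConvex ℝ c (A ∩ B) ∧
      StarConvex ℝ c (A ∩ B') ∧ ∀ t ∈ A ∩ B, c ∈ A ∩ B' :=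
  ⟨inter_subset_inter_right _ s, fun t ht => (h.inter hB) ⟨k t ht.1, s hc⟩ ht,
    fun t ht => (h.inter hB') ⟨k t ht.1, hc⟩ ht, fun t ht => ⟨k t ht.1, hc⟩⟩

variable [SigmaCompactSpace (X T v)]

/-- no vertex -/
theorem Rg.eqv (h : Rg T v J K C) (hu : Uni a b) (hS : IsOpen S) (hc : Convex ℝ S) (s : Iio β ⊆ S)
    (ht : t ∈ C) (ht' : t ∈ Ioo β' β) (h0 : J 0 ∩ (S ∩ Ioi β') ⊆ Jr v a) :
    Eqv (𝓡 4) (rg T v J K ∩ T.time v ⁻¹' S) (rg T v J K ∩ T.time v ⁻¹' Iio β) := by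
  have o : ∀ {S}, IsOpen S → IsOpen (rg T v J K ∩ T.time v ⁻¹' S) := fun k =>
    h.op.inter (k.preimage T.continuous_time)
  have c1 := hc.inter (convex_Ioi β')
  have s1 : Ioo β' β ⊆ S ∩ Ioi β' := fun _ k => ⟨s k.2, k.1⟩
  have k := eqv_rg (T := T) (v := v) hu (by rw [← rg_inter]; exact o (hS.inter isOpen_Ioi))
    (by rw [← rg_inter]; exact o isOpen_Ioo) h0
    (fun r => star_aux (h.cv r) c1 (convex_Ioo _ _) s1 (fun x hx => h.sub r x hx ht) ht')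
    (star_aux h.cv' c1 (convex_Ioo _ _) s1 (fun x hx => h.sub' x hx ht) ht')
  rw [← rg_inter, ← rg_inter] at k
  convert k.exc (o (hS.inter isOpen_Ioi)) (o isOpen_Ioo) (o isOpen_Iio) fun p l => ⟨l.1.1, l.2.2.2, l.1.2⟩ using 1
  · refine Subset.antisymm (fun p l => ?_) (union_subset (fun p l => ⟨l.1, s l.2⟩) fun p l => ⟨l.1, l.2.1⟩)
    exact (lt_or_ge (T.time v p) β).imp (fun e => ⟨l.1, e⟩) fun e => ⟨l.1, l.2, (ht'.1.trans ht'.2).trans_le e⟩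
  · exact (union_eq_self_of_subset_right (inter_subset_inter_right _ fun p l => l.2)).symm

section ov

variable {O O' : Set (ℝ × ℝ)}

theorem mem_ov : p ∈ T.ov v O ↔ p ∈ T.tor v ∧ (T.time v p, T.yy v p) ∈ O := Iff.rfl

theorem ov_eq_vtx (hu : Uni a b) (h : ∀ t, (t, 0) ∈ O → t ∈ Jv v a b c) :
    {z : ℂ × ℂ | (tm c z, 2 * ‖z.1‖ * ‖z.2‖) ∈ O} ⊆ Uv v a b c ∧
    T.ov v O = T.vtx v hu c '' {z | (tm c z, 2 * ‖z.1‖ * ‖z.2‖) ∈ O} := by
  have k : {z : ℂ × ℂ | (tm c z, 2 * ‖z.1‖ * ‖z.2‖) ∈ O} ⊆ Uv v a b c := fun z hz =>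
    (em _).imp_right fun e => h _ (by
      rcases not_and_or.1 e with e | e <;> simpa [not_not.1 e] using hz)
  refine ⟨k, Subset.antisymm (fun p hp => ?_) ?_⟩
  · obtain ⟨z, hz, rfl⟩ := T.mem_vtx hu (c := c) hp.1 ((em (T.yy v p = 0)).symm.imp_right fun e =>
      h _ (by rw [← e]; exact hp.2))
    exact ⟨z, by rw [mem_ofPred_eq, ← T.time_vtx hu hz, ← T.yy_vtx hu hz]; exact hp.2, rfl⟩
  · rintro _ ⟨z, hz, rfl⟩
    exact mem_ov.2 ⟨T.vtx_mem_tor hu (k hz), by rwa [T.time_vtx hu (k hz), T.yy_vtx hu (k hz)]⟩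

theorem ov_eq_rod (hu : Uni a b) (h : ∀ t, (t, 0) ∈ O → t ∈ Jr v a) :
    {w : (Circle × ℂ) × ℝ | (w.2, ‖w.1.2‖) ∈ O} ⊆ Ur v a ∧
    T.ov v O = T.rod v hu '' {w | (w.2, ‖w.1.2‖) ∈ O} := by
  have k : {w : (Circle × ℂ) × ℝ | (w.2, ‖w.1.2‖) ∈ O} ⊆ Ur v a := fun w hw =>
    (em _).symm.imp_right fun e => h _ (by simpa [show w.1.2 = 0 from e] using hw)
  refine ⟨k, Subset.antisymm (fun p hp => ?_) ?_⟩
  · obtain ⟨z, hz, rfl⟩ := T.mem_rod hu hp.1 ((em (T.yy v p = 0)).symm.imp_right fun e =>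
      h _ (by rw [← e]; exact hp.2))
    exact ⟨z, by rw [mem_ofPred_eq, ← T.time_rod hu hz, ← T.yy_rod hu hz]; exact hp.2, rfl⟩
  · rintro _ ⟨z, hz, rfl⟩
    exact mem_ov.2 ⟨T.rod_mem_tor hu (k hz), by rwa [T.time_rod hu (k hz), T.yy_rod hu (k hz)]⟩

/-- a star shaped region round one vertex is a ball -/
theorem acy_ov (hu : Uni a b) (hO : IsOpen O) (hc : (c, 0) ∈ O) (hs : StarConvex ℝ (c, 0) O)
    (h : ∀ t, (t, 0) ∈ O → t ∈ Jv v a b c) : Acy (𝓡 4) (T.ov v O) := by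
  obtain ⟨k, e⟩ := ov_eq_vtx (T := T) hu h
  refine e ▸ (acy_star (c := 0) (hO.preimage ((continuous_tm c).prodMk (by fun_prop))) (by simpa [tm] using hc)
    fun z hz s t hs' ht hst => ?_).pd _ k
  have := seg_mem hs hz (t := t ^ 2) ⟨sq_nonneg t, by nlinarith⟩
  rw [mem_preimage]
  convert this using 1
  simp only [tm, smul_zero, zero_add, Prod.smul_fst, Prod.smul_snd, norm_smul, Real.norm_of_nonneg ht,
    Prod.smul_mk, Prod.mk_add_mk, smul_eq_mul, Prod.mk.injEq]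
  constructor <;> ring

/-- a star shaped region over one rod is `S¹ × B³` -/
theorem circ_ov (hu : Uni a b) (hO : IsOpen O) (hc : (c, 0) ∈ O) (hs : StarConvex ℝ (c, 0) O)
    (h : ∀ t, (t, 0) ∈ O → t ∈ Jr v a) : Circ (𝓡 4) (T.ov v O) := by
  obtain ⟨k, e⟩ := ov_eq_rod (T := T) hu h
  have o : IsOpen {w : (Circle × ℂ) × ℝ | (w.2, ‖w.1.2‖) ∈ O} := hO.preimage (by fun_prop)
  have m : ∀ (x : ℝ) (ζ : ℂ), (x, ‖ζ‖) ∈ O → ∀ t ∈ Icc (0 : ℝ) 1, ((1 - t) • c + t • x, ‖(1 - t) • (0 : ℂ) + t • ζ‖) ∈ O :=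
    fun x ζ hx t ht => by simpa [norm_smul, abs_of_nonneg ht.1] using seg_mem hs hx ht
  have i : ∀ j, Injective ((⟨fun _ _ => (contMDiffAt_id.prodMk contMDiffAt_const).prodMk contMDiffAt_const,
      fun _ _ => by simpa using hc⟩ : Mp (𝓡 1) IR univ {w : (Circle × ℂ) × ℝ | (w.2, ‖w.1.2‖) ∈ O}
        fun u => ((u, 0), c)).st j) := fun j =>
    st_inj_of_ht o _ (g := fun w => w.1.1) ⟨fun _ _ => contMDiffAt_fst.fst, mapsTo_univ _ _⟩
      (G := fun p => ((p.1.1.1, (1 - p.2) • (0 : ℂ) + p.2 • p.1.1.2), (1 - p.2) • c + p.2 • p.1.2))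
      ⟨fun _ _ _ _ => (contMDiffAt_fst.fst.fst.prodMk
        ((contMDiff_seg 0 _).comp _ (contMDiffAt_fst.fst.snd.prodMk contMDiffAt_snd))).prodMk
        ((contMDiff_seg c _).comp _ (contMDiffAt_fst.snd.prodMk contMDiffAt_snd)),
        fun w hw => m _ _ hw⟩ (fun _ _ => by simp) fun _ _ => by simp
  refine e ▸ Circ.pd _ ⟨?_, bd_circle.of_inj _ (i 1), fun j => hz_circle.of_inj _ (i _)⟩ o k
  have s : StarConvex ℝ ((0 : ℂ), c) {q : ℂ × ℝ | (q.2, ‖q.1‖) ∈ O} := fun q hq s t h1 h2 h3 => by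
    obtain rfl : s = 1 - t := by linarith
    exact m _ _ hq t ⟨h2, by linarith⟩
  convert (isConnected_univ.prod (s.isPathConnected (by simpa using hc)).isConnected).image
    (fun z : Circle × ℂ × ℝ => ((z.1, z.2.1), z.2.2)) (by fun_prop) using 1
  exact Subset.antisymm (fun w hw => ⟨(w.1.1, w.1.2, w.2), ⟨trivial, hw⟩, rfl⟩) (by rintro _ ⟨z, hz, rfl⟩; exact hz.2)

theorem eqv_off (hO : IsOpen O) (hO' : IsOpen O') (s : O' ⊆ O) (h : ∀ q ∈ O, 0 < q.2) {q : ℝ × ℝ}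
    (hq : q ∈ O') (h1 : StarConvex ℝ q O) (h2 : StarConvex ℝ q O') : Eqv (𝓡 4) (T.ov v O) (T.ov v O') := by
  obtain ⟨k, e⟩ := ov_eq_rod (T := T) (v := v) uni_std fun t ht => absurd (h _ ht) (lt_irrefl _)
  obtain ⟨-, e'⟩ := ov_eq_rod (T := T) (v := v) uni_std fun t ht => absurd (h _ (s ht)) (lt_irrefl _)
  have o : ∀ {O : Set (ℝ × ℝ)}, IsOpen O → IsOpen {w : (Circle × ℂ) × ℝ | (w.2, ‖w.1.2‖) ∈ O} :=
    fun h => h.preimage (by fun_prop)
  have m : ∀ {O' : Set (ℝ × ℝ)}, O' ⊆ O → StarConvex ℝ q O' → ∀ w : (Circle × ℂ) × ℝ, (w.2, ‖w.1.2‖) ∈ O' →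
      ∀ t ∈ Icc (0 : ℝ) 1, ((1 - t) • q.1 + t • w.2,
        ‖(((1 - t) • q.2 + t • ‖w.1.2‖ : ℝ) : ℂ) * dir w.1.2‖) ∈ O' := fun s c w hw t ht => by
    have := seg_mem c hw ht
    exact (norm_polar (r := (1 - t) • q.2 + t • ‖w.1.2‖) (h _ (s this)).le _).symm ▸ this
  rw [e, e']
  refine (eqv_of_ht (o hO) (o hO') (fun _ k => s k)
    (G := fun p => ((p.1.1.1, (((1 - p.2) • q.2 + p.2 • ‖p.1.1.2‖ : ℝ) : ℂ) * dir p.1.1.2),
      (1 - p.2) • q.1 + p.2 • p.1.2)) ⟨fun w hw t _ => ?_, m Subset.rfl h1⟩ (m s h2) (fun w _ => ?_)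
    fun w _ => ?_).pd _ (o hO) (o hO') k
  · have n : w.1.2 ≠ 0 := norm_pos_iff.1 (h _ hw)
    exact (contMDiffAt_fst.fst.fst.prodMk (Pj41.FSm.mul' (Pj41.FSm.ofReal ((contMDiff_seg q.2 _).comp _
      (((Orx52.sm_norm n).comp (w, t) contMDiffAt_fst.fst).prodMk contMDiffAt_snd)))
      ((contMDiff_coe _).comp (w, t) ((Orx52.sm_dir n).comp (w, t) contMDiffAt_fst.fst)))).prodMk
      ((contMDiff_seg q.1 _).comp _ (contMDiffAt_fst.snd.prodMk contMDiffAt_snd))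
  · simpa [abs_of_pos (h _ (s hq))] using hq
  · simp [norm_mul_dir]

/-- a convex region is equivalent to its part near the axis -/
theorem eqv_ov (hO : IsOpen O) (hc : Convex ℝ O) (hε : 0 < ε) (h : (c, 3 / 4 * ε) ∈ O) :
    Eqv (𝓡 4) (T.ov v O) (T.ov v (O ∩ univ ×ˢ Ioo (-ε) ε)) := by
  have o1 := hO.inter (isOpen_univ.prod (isOpen_Ioi (a := ε / 2)))
  have o2 := hO.inter (isOpen_univ.prod (isOpen_Ioo (a := ε / 2) (b := ε)))
  have m : (c, 3 / 4 * ε) ∈ O ∩ univ ×ˢ Ioo (ε / 2) ε := ⟨h, trivial, by constructor <;> linarith⟩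
  have s : O ∩ univ ×ˢ Ioo (ε / 2) ε ⊆ O ∩ univ ×ˢ Ioi (ε / 2) := fun _ k => ⟨k.1, trivial, k.2.2.1⟩
  convert (eqv_off (T := T) (v := v) o1 o2 s (fun _ k => (half_pos hε).trans k.2.2) m
    ((hc.inter (convex_univ.prod (convex_Ioi _))) (s m)) ((hc.inter (convex_univ.prod (convex_Ioo _ _))) m)).exc
    (T.isOpen_ov o1) (T.isOpen_ov o2) (T.isOpen_ov (hO.inter (isOpen_univ.prod (isOpen_Ioo (a := -ε) (b := ε)))))
    fun p l => ⟨l.1.1, l.1.2.1, trivial, l.2.2.2.2, l.1.2.2.2.2⟩ using 1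
  · refine Subset.antisymm (fun p l => (lt_or_ge (T.yy v p) ε).imp (fun e => ⟨l.1, l.2, trivial, ?_, e⟩)
      fun e => ⟨l.1, l.2, trivial, (half_lt_self hε).trans_le e⟩) (union_subset (fun p l => ⟨l.1, l.2.1⟩)
        fun p l => ⟨l.1, l.2.1⟩)
    exact (neg_lt_zero.2 hε).trans_le (T.eta_of_tor l.1).1
  · refine (union_eq_self_of_subset_right fun p l => ?_).symm
    exact ⟨l.1, l.2.1, trivial, (neg_lt_zero.2 hε).trans_le (T.eta_of_tor l.1).1, l.2.2.2.2⟩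

end ov

/-- one vertex -/
theorem Rg.two (h : Rg T v J K C) (hu : Uni a b) (hδ : 0 < δ) (hε : 0 < ε)
    (hJ : Ioo (c - δ) (c + δ) ⊆ Jv v a b c) (hC : Ioo (c - δ) (c + δ) ⊆ C)
    (hb : ∀ r, 0 ≤ r → r < ε → (J r).Nonempty) (h1 : c - δ < β) (h2 : β ≤ c) :
    Hd (𝓡 4) (rg T v J K ∩ T.time v ⁻¹' Iio β) (rg T v J K ∩ T.time v ⁻¹' Iio (c + δ)) 1 := by
  have o : IsOpen (rg T v J K ∩ (off T v ∪ T.time v ⁻¹' Iio c)) :=
    h.op.inter (isOpen_off.union (isOpen_Iio.preimage T.continuous_time))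
  have R : Rg T v (fun r => J r ∩ {t | 0 < r ∨ t ∈ Iio c}) K (C ∩ Iio c) :=
    ⟨rg_off (T := T) (v := v) _ ▸ o, fun r => (h.cv r).inter (by
        by_cases e : 0 < r
        · simpa [e] using convex_univ
        · simpa [e] using! convex_Iio c), h.cv',
      fun r t ht x hx => ⟨h.sub r t ht.1 hx.1, Or.inr hx.2⟩, fun t ht => inter_subset_left.trans (h.sub' t ht)⟩
  obtain ⟨t, ht⟩ := exists_between h1
  have t1 : t < c := ht.2.trans_le h2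
  have t2 : t ∈ Ioo (c - δ) (c + δ) := ⟨ht.1, by linarith⟩
  have k := R.eqv hu isOpen_Iio (convex_Iio (c + δ)) (Iio_subset_Iio (by linarith)) ⟨hC t2, t1⟩ ht
    fun x hx => Jv.left (hJ ⟨hx.2.2, hx.2.1⟩) (hx.1.2.resolve_left (lt_irrefl _))
  rw [← rg_off] at k
  have cv : Convex ℝ (Ioo (c - δ) (c + δ) ×ˢ Iio ε) := (convex_Ioo _ _).prod (convex_Iio _)
  have c0 : ((c, 0) : ℝ × ℝ) ∈ Ioo (c - δ) (c + δ) ×ˢ Iio ε := ⟨⟨by linarith, by linarith⟩, hε⟩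
  have s : T.ov v (Ioo (c - δ) (c + δ) ×ˢ Iio ε) ⊆ rg T v J K ∩ T.time v ⁻¹' Iio (c + δ) := fun p hp =>
    ⟨(mem_rg hp.1).2 (let ⟨x, hx⟩ := hb _ (T.eta_of_tor hp.1).1 hp.2.2; h.sub _ x hx (hC hp.2.1)), hp.2.1.2⟩
  have e : rg T v J K ∩ (off T v ∪ T.time v ⁻¹' Iio c) ∩ T.time v ⁻¹' Iio (c + δ) ∩
      T.ov v (Ioo (c - δ) (c + δ) ×ˢ Iio ε) =
      T.ov v (Ioo (c - δ) (c + δ) ×ˢ Iio ε ∩ {q | 0 < q.2 ∨ q.1 < c}) :=
    Subset.antisymm (fun p l => ⟨l.2.1, l.2.2, l.1.1.2.imp_left (off_iff l.2.1).1⟩) fun p l =>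
      ⟨⟨⟨(s ⟨l.1, l.2.1⟩).1, l.2.2.imp_left (off_iff l.1).2⟩, l.2.1.1.2⟩, l.1, l.2.1⟩
  convert (Hd.of_eqv k (o.inter (isOpen_Iio.preimage T.continuous_time))
    (o.inter (isOpen_Iio.preimage T.continuous_time))).two
    (acy_ov hu (isOpen_Ioo.prod isOpen_Iio) c0 (cv c0) fun x hx => hJ hx.1)
    (e ▸ circ_ov (c := t) hu ((isOpen_Ioo.prod isOpen_Iio).inter ((isOpen_lt continuous_const continuous_snd).union
      (isOpen_lt continuous_fst continuous_const))) ⟨⟨t2, hε⟩, Or.inr t1⟩ ((cv (x := (t, 0)) ⟨t2, hε⟩).inter ?_)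
      fun x hx => Jv.left (hJ hx.1.1) (hx.2.resolve_left (lt_irrefl _))) using 1
  · exact Subset.antisymm (fun p l => ⟨⟨l.1, Or.inr (l.2.trans_le h2)⟩, l.2⟩) fun p l => ⟨l.1.1, l.2⟩
  · refine Subset.antisymm (fun p l => (em (p ∈ off T v ∪ T.time v ⁻¹' Iio c)).imp (fun e => ⟨⟨l.1, e⟩, l.2⟩)
      fun e => ?_) (union_subset (fun p l => ⟨l.1.1, l.2⟩) s)
    have e1 : p ∉ off T v := fun k => e (Or.inl k)
    exact ⟨tor_of_not_off e1, ⟨(sub_lt_self c hδ).trans_le (not_lt.1 fun k => e (Or.inr k)), l.2⟩, (yy_axis e1).trans_lt hε⟩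
  · intro q hq x y hx hy hxy
    simp only [mem_ofPred_eq, Prod.snd_add, Prod.fst_add, Prod.smul_fst, Prod.smul_snd, smul_eq_mul, mul_zero,
      zero_add]
    rcases hy.eq_or_lt with rfl | hy
    · exact Or.inr (by rw [show x = 1 by linarith]; linarith)
    · exact hq.imp (mul_pos hy) fun k => (add_lt_add_of_le_of_lt (mul_le_mul_of_nonneg_left t1.le hx)
        (mul_lt_mul_of_pos_left k hy)).trans_eq (by rw [← add_mul, hxy, one_mul])

/-! ### words -/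

open Classical in
/-- the number of vertices `c` with `i < c ≤ j` -/
def nv (a : ℤ → Z2) (i j : ℤ) : ℕ := ((Finset.Ioc i j).filter fun c => Uni (a (c - 1)) (a c)).card

theorem nv_self (a : ℤ → Z2) (i : ℤ) : nv a i i = 0 := by simp [nv]

open Classical in
theorem nv_succ (a : ℤ → Z2) {i j : ℤ} (h : i ≤ j) :
    nv a i (j + 1) = nv a i j + if Uni (a j) (a (j + 1)) then 1 else 0 := by
  rw [nv, ← Finset.insert_Ioc_right_eq_Ioc_add_one h, Finset.filter_insert, add_sub_cancel_right]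
  split_ifs
  · exact Finset.card_insert_of_notMem (by simp)
  · rfl

theorem nv_le {a : ℤ → Z2} {i j : ℤ} {s : Finset ℤ} (h : ∀ c, i < c → c ≤ j → Uni (a (c - 1)) (a c) → c ∈ s) :
    nv a i j ≤ s.card := Finset.card_le_card fun c hc => by
  simp only [Finset.mem_filter, Finset.mem_Ioc] at hc
  exact h c hc.1.1 hc.1.2 hc.2

theorem pm_of_nv {a : ℤ → Z2} (ha : IsWd a) {i j : ℤ} (h : nv a i j = 0) {k : ℤ} (h1 : i ≤ k) (h2 : k ≤ j) :
    PM (a k) (a j) := by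
  induction j, h2 using Int.leInduction with
  | base => exact PM.refl _
  | succ j hj ih =>
    rw [nv_succ a (h1.trans hj)] at h
    have st := ha.step (j + 1)
    rw [add_sub_cancel_right] at st
    exact (ih (by omega)).trans (st.resolve_right fun e => by simp [e] at h)

theorem exists_first {a : ℤ → Z2} {i j : ℤ} (hij : i ≤ j) {n : ℕ} (h : nv a i j = n + 1) :
    ∃ f, i < f ∧ f ≤ j ∧ Uni (a (f - 1)) (a f) ∧ nv a i (f - 1) = 0 ∧ nv a f j = n := by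
  induction j, hij using Int.leInduction generalizing n with
  | base => simp [nv_self] at h
  | succ j hj ih =>
    rw [nv_succ a hj] at h
    rcases Nat.eq_zero_or_pos (nv a i j) with e | e
    · split_ifs at h with k
      · exact ⟨j + 1, by omega, le_rfl, by simpa using k, by simpa using e, by rw [nv_self]; omega⟩
      · omega
    · obtain ⟨f, h1, h2, h3, h4, h5⟩ := ih (n := nv a i j - 1) (by omega)
      exact ⟨f, h1, by omega, h3, h4, by rw [nv_succ a h2]; omega⟩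

section wd

variable {a : ℤ → Z2} {i j : ℤ} [SigmaCompactSpace (X T (wd a))]

/-- **one handle for every vertex** -/
theorem Rg.hd (h : Rg T (wd a) J K C) (ha : IsWd a) (hε : 0 < ε) (hb : ∀ r, 0 ≤ r → r < ε → (J r).Nonempty)
    (hij : i ≤ j) (hβ : β' < β) (h1 : β ≤ i + 1) (hl : Ioo β' (i + 1) ⊆ Jr (wd a) (a i)) (h2 : β ≤ γ)
    (h3 : j < γ) (hC : Ioo β' γ ⊆ C) (hS : IsOpen S) (hc : Convex ℝ S) (s : Iio γ ⊆ S)
    (hr : ∀ x ∈ J 0, x ∈ S → j < x → x ∈ Jr (wd a) (a j)) :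
    Hd (𝓡 4) (rg T (wd a) J K ∩ T.time _ ⁻¹' Iio β) (rg T (wd a) J K ∩ T.time _ ⁻¹' S) (nv a i j) := by
  have o : ∀ {S}, IsOpen S → IsOpen (rg T (wd a) J K ∩ T.time _ ⁻¹' S) := fun k =>
    h.op.inter (k.preimage T.continuous_time)
  induction j, hij using Int.leInduction generalizing γ S with
  | base =>
    obtain ⟨b, hu⟩ := ha.prim i
    obtain ⟨t, ht⟩ := exists_between hβ
    exact nv_self a i ▸ Hd.of_eqv (h.eqv hu hS hc ((Iio_subset_Iio h2).trans s) (hC ⟨ht.1, ht.2.trans_le h2⟩) ht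
      fun x hx => (lt_or_ge x (i + 1)).elim (fun e => hl ⟨hx.2.2, e⟩) fun e => hr x hx.1 hx.2.1 (by linarith))
      (o hS) (o isOpen_Iio)
  | succ j hj ih =>
    have e1 : (i : ℝ) ≤ j := by exact_mod_cast hj
    push_cast at h3 hr
    have k := ih (γ := j + 1) (S := Iio (j + 1)) (by linarith) (by linarith)
      ((Ioo_subset_Ioo_right h3.le).trans hC) isOpen_Iio (convex_Iio _) Subset.rfl
      fun x _ e e' => Ioo_subset_Jr ⟨e', e⟩
    obtain ⟨b, hu⟩ := ha.prim (j + 1)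
    have st := ha.step (j + 1)
    rw [add_sub_cancel_right] at st
    rw [nv_succ a hj]
    split_ifs with e
    · obtain ⟨δ, d0, d1, d2, d3⟩ : ∃ δ : ℝ, 0 < δ ∧ δ ≤ 1 ∧ j + 1 + δ ≤ γ ∧ β' ≤ j + 1 - δ :=
        ⟨min 1 (min (γ - (j + 1)) (j + 1 - β')), by simp only [lt_min_iff]; refine ⟨?_, ?_, ?_⟩ <;> linarith,
          min_le_left _ _, by linarith [(min_le_right 1 _).trans (min_le_left (γ - (j + 1)) (j + 1 - β'))],
          by linarith [(min_le_right 1 _).trans (min_le_right (γ - (j + 1)) (j + 1 - β'))]⟩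
      have u := Ioo_subset_Jv (a := a) (i := j + 1) (by rwa [add_sub_cancel_right])
      rw [add_sub_cancel_right] at u
      push_cast at u
      obtain ⟨t, ht⟩ := exists_between (lt_add_of_pos_right ((j : ℝ) + 1) d0)
      exact (k.trans (h.two e d0 hε ((Ioo_subset_Ioo (by linarith) (by linarith)).trans u)
        ((Ioo_subset_Ioo d3 d2).trans hC) hb (by linarith) le_rfl)).eqv (o hS)
        (h.eqv hu hS hc ((Iio_subset_Iio d2).trans s) (hC ⟨by linarith [ht.1], ht.2.trans_le d2⟩) ht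
          fun x hx => hr x hx.1 hx.2.1 hx.2.2)
    · obtain ⟨t, ht⟩ := exists_between (max_lt (show β' < j + 1 by linarith) (lt_add_one (j : ℝ)))
      refine k.eqv (o hS) (h.eqv hu hS hc ((Iio_subset_Iio h3.le).trans s)
        (hC ⟨(le_max_left _ _).trans_lt ht.1, ht.2.trans h3⟩) ht fun x hx => (le_or_gt x (j + 1)).elim
          (fun l => Ioo_subset_Jr' (i := j) (j := j + 1) (fun k k1 k2 => ?_)
            ⟨(le_max_right _ _).trans_lt hx.2.2, by push_cast; linarith⟩) (hr x hx.1 hx.2.1))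
      obtain rfl | rfl : k = j ∨ k = j + 1 := by omega
      exacts [st.resolve_right e, PM.refl _]

/-- slabs -/
theorem hd_time (ha : IsWd a) {α : ℝ} (h1 : α < β) (h2 : β ≤ γ) :
    Hd (𝓡 4) (T.time (wd a) ⁻¹' Ioo α β) (T.time (wd a) ⁻¹' Ioo α γ) (nv a (⌈β⌉ - 1) (⌈γ⌉ - 1)) := by
  have k := (rg_of_time (T := T) (v := wd a) isOpen_Ioi (convex_Ioi α)).hd ha one_pos (fun _ _ _ => nonempty_Ioi)
    (sub_le_sub_right (Int.ceil_mono h2) 1) (β' := max α (⌈β⌉ - 1 : ℤ)) (β := β)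
    (max_lt h1 (by push_cast; linarith [Int.ceil_lt_add_one β])) (by push_cast; linarith [Int.le_ceil β])
    ((Ioo_subset_Ioo_left (le_max_right _ _)).trans Ioo_subset_Jr) h2
    (by push_cast; linarith [Int.ceil_lt_add_one γ]) (fun _ k => (le_max_left _ _).trans_lt k.1) isOpen_Iio
    (convex_Iio γ) Subset.rfl fun x _ e e' => Ioo_subset_Jr ⟨e', by push_cast; linarith [Int.le_ceil γ, mem_Iio.1 e]⟩
  rwa [← rg_time] at k

/-- convex toric regions: a ball with two-handles -/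
theorem hd_ov (ha : IsWd a) {O : Set (ℝ × ℝ)} (hO : IsOpen O) (hc : Convex ℝ O) (hij : i ≤ j)
    (hA : ∀ t, (t, 0) ∈ O → t ∈ Ioo (i : ℝ) (j + 1)) (hi : ((i : ℝ) + 1, 0) ∈ O) (hj : ((j : ℝ), 0) ∈ O)
    {n : ℕ} (h : nv a i j = n + 1) : ∃ B, Acy (𝓡 4) B ∧ Hd (𝓡 4) B (T.ov (wd a) O) n := by
  obtain ⟨f, f1, f2, hu, f3, rfl⟩ := exists_first hij h
  have f4 : (i : ℝ) + 1 ≤ f := by exact_mod_cast f1
  have f5 : (f : ℝ) ≤ j := by exact_mod_cast f2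
  have cv : ∀ r, Convex ℝ {t | (t, r) ∈ O} := fun r x hx y hy s t h1 h2 h3 => by
    simpa [← add_mul, h3] using hc hx hy h1 h2 h3
  obtain ⟨δ, d0, hδ⟩ := Metric.isOpen_iff.1 hO _ hj
  obtain ⟨η, e0, hη⟩ := Metric.isOpen_iff.1 hO _ hi
  obtain ⟨ε, hε, e1, e2, e3⟩ : ∃ ε : ℝ, 0 < ε ∧ ε < δ ∧ ε ≤ η ∧ ε ≤ 1 :=
    ⟨min (δ / 2) (min η 1), by positivity, (min_le_left _ _).trans_lt (half_lt_self d0),
      (min_le_right _ _).trans (min_le_left _ _), (min_le_right _ _).trans (min_le_right _ _)⟩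
  have bx : ∀ r ∈ Ioo (-ε) ε, ∀ t ∈ Icc ((i : ℝ) + 1) (j + ε), (t, r) ∈ O := fun r hr =>
    (cv r).ordConnected.out (hη (by simpa [Prod.dist_eq, e0] using (abs_lt.2 hr).trans_le e2))
      (hδ (by simpa [Prod.dist_eq, abs_of_pos hε, e1] using (abs_lt.2 hr).trans e1))
  have o := hO.inter (isOpen_univ.prod (isOpen_Ioo (a := -ε) (b := ε)))
  have R : Rg T (wd a) (fun r => {t | (t, r) ∈ O ∩ univ ×ˢ Ioo (-ε) ε}) ∅ (Icc (i + 1) (j + ε)) :=
    ⟨rg_ov (T := T) (v := wd a) _ ▸ T.isOpen_ov o, fun r x hx y hy s t h1 h2 h3 => ⟨cv r hx.1 hy.1 h1 h2 h3, hx.2⟩,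
      convex_empty, fun r t ht x hx => ⟨bx r ht.2.2 x hx, ht.2⟩, fun _ => False.elim⟩
  have k := R.hd ha hε (fun r r0 r1 => ⟨f, bx r ⟨by linarith, r1⟩ f ⟨f4, by linarith⟩, trivial, by linarith, r1⟩)
    f2 (lt_add_of_pos_right _ hε) (by linarith) Ioo_subset_Jr (by linarith) (lt_add_of_pos_right _ hε)
    (fun t ht => ⟨f4.trans ht.1.le, ht.2.le⟩) isOpen_univ convex_univ (subset_univ _)
    fun x hx _ e => Ioo_subset_Jr ⟨e, (hA x hx.1).2⟩
  rw [← rg_ov, preimage_univ, inter_univ] at k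
  have m : ((f : ℝ), (0 : ℝ)) ∈ O ∩ univ ×ˢ Ioo (-ε) ε ∩ Iio (f + ε) ×ˢ univ :=
    ⟨⟨bx 0 ⟨by linarith, hε⟩ f ⟨f4, by linarith⟩, trivial, by linarith, hε⟩, lt_add_of_pos_right _ hε, trivial⟩
  refine ⟨_, ?_, k.eqv (T.isOpen_ov hO) (eqv_ov (c := f) hO hc hε
    (bx _ ⟨by linarith, by linarith⟩ f ⟨f4, by linarith⟩))⟩
  convert acy_ov (T := T) (v := wd a) hu (o.inter (isOpen_Iio.prod isOpen_univ)) m
    (((hc.inter (convex_univ.prod (convex_Ioo _ _))).inter ((convex_Iio _).prod convex_univ)) m)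
    fun t ht => (lt_or_ge t f).elim (fun e => Jv.of_left (Ioo_subset_Jr' (i := i) (j := f - 1)
      (fun k => pm_of_nv ha f3) ⟨(hA t ht.1.1).1, by simpa using e⟩) e)
      fun e => Ioo_subset_Jv hu ⟨by linarith, ht.2.1.trans_le (by linarith)⟩ using 1
  exact Subset.antisymm (fun p l => ⟨l.1.1, l.1.2, l.2, trivial⟩) fun p l => ⟨⟨l.1, l.2.1⟩, l.2.2.1⟩

theorem convex_disc (c r : ℝ) : Convex ℝ {q : ℝ × ℝ | √((q.1 - c) ^ 2 + q.2 ^ 2) ∈ Iio r} := by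
  have : {q : ℝ × ℝ | √((q.1 - c) ^ 2 + q.2 ^ 2) ∈ Iio r} =
      Complex.equivRealProdLm.symm.toLinearMap ⁻¹' Metric.ball (c : ℂ) r := by
    ext q
    simp [Complex.dist_eq_re_im, Complex.equivRealProdLm_symm_apply]
  exact this ▸ (convex_ball (c : ℂ) r).linear_preimage _

/-- half discs -/
theorem hd_disc (ha : IsWd a) {r : ℝ} (hij : i < j) (h1 : c - r ∈ Ico (i : ℝ) (i + 1))
    (h2 : c + r ∈ Ioc (j : ℝ) (j + 1)) {n : ℕ} (h : nv a i j = n + 1) :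
    ∃ B, Acy (𝓡 4) B ∧ Hd (𝓡 4) B (T.disc (wd a) c (Iio r)) n := by
  have e : (i : ℝ) + 1 ≤ j := by exact_mod_cast hij
  have k : ∀ t : ℝ, √((t - c) ^ 2 + 0 ^ 2) < r ↔ c - r < t ∧ t < c + r := fun t => by
    rw [zero_pow two_ne_zero, add_zero, Real.sqrt_sq_eq_abs, abs_sub_lt_iff]
    constructor <;> rintro ⟨_, _⟩ <;> constructor <;> linarith
  exact hd_ov ha (isOpen_Iio.preimage (by fun_prop)) (convex_disc c r) hij.le
    (fun t ht => ⟨h1.1.trans_lt ((k t).1 ht).1, ((k t).1 ht).2.trans_le h2.2⟩)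
    ((k _).2 ⟨h1.2, e.trans_lt h2.1⟩) ((k _).2 ⟨h1.2.trans_le e, h2.1⟩) h

end wd

end Crest.Agent.X212.Dr59
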