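import Crest.Agent.X212.Dr59.Hom
import Crest.Agent.X212.Line51.Glue

/-!
# X212 / Dr59, part 5 (helper59): punctured planes, circles, tori, spheres

* `Bd.prod_pl`, `Bd.prod_cz`, `Bd.prod_circle` : products with a punctured plane, with a circle;
* `bd_circle`, `bd_st`, `hz_st`, `bd_cz1`, `bd_cz2`; `span_st`, `span_cz`, `indep_cz`;
* `hz_punct`, `hz_sphere`, `bd_sphere`.
-/

set_option autoImplicit false
set_option linter.unusedSectionVars false
set_option linter.style.haveILetI false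

open Set Filter Topology Function Module
open scoped ContDiff Manifold
open Crest.Agent.R208 Crest.Agent.R208.F Crest.Agent.R208.FI
open Crest.Agent.X212.Line51 (ang CSm cl_ang pm_ang ang_exp ang_const ang_congr)
open Crest.Agent.X212.Glue52 (dir contMDiffAt_dir contMDiff_circle_coe dir_mul)

noncomputable section

namespace Crest.Agent.X212.Dr59

variable {E : Type*} [NormedAddCommGroup E] [NormedSpace ℝ E] [FiniteDimensional ℝ E]
  {H : Type*} [TopologicalSpace H] {I : ModelWithCorners ℝ E H}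
  {M : Type*} [TopologicalSpace M] [ChartedSpace H M] [I.Boundaryless] [IsManifold I ∞ M]
  {E' : Type*} [NormedAddCommGroup E'] [NormedSpace ℝ E'] [FiniteDimensional ℝ E']
  {H' : Type*} [TopologicalSpace H'] {J : ModelWithCorners ℝ E' H'}
  {N : Type*} [TopologicalSpace N] [ChartedSpace H' N] [J.Boundaryless] [IsManifold J ∞ N]
  {k n m : ℕ} {U V : Set M} {a : M → Ext E}

theorem ex_disj (hU : IsOpen U) (hV : IsOpen V) (h : Disjoint U V) (h1 : Ex I U a)
    (h2 : Ex I V a) : Ex I (U ∪ V) a := by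
  obtain ⟨p, hp, dp⟩ := h1
  obtain ⟨q, hq, dq⟩ := h2
  exact ex_glue hU hV hp hq (fun _ hx => (h.ne_of_mem hx.1 hx.2 rfl).elim) dp dq

theorem res_inj_disj {W : Set M} (hU : IsOpen U) (hV : IsOpen V) (h : Disjoint U V)
    (hW : W = U ∪ V) {x : HR I k W} (h1 : res (hW ▸ subset_union_left : U ⊆ W) x = 0)
    (h2 : res (hW ▸ subset_union_right : V ⊆ W) x = 0) : x = 0 := by
  subst hW
  obtain ⟨a, ha, rfl⟩ := exists_cls x
  exact cls_eq_zero.2 (ex_disj hU hV h (cls_eq_zero.1 h1) (cls_eq_zero.1 h2))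

/-- independent classes span -/
theorem Bd.span {ι : Type*} [Fintype ι] (h : Bd I k U (Fintype.card ι)) {e : ι → HR I k U}
    (he : ∀ c : ι → ℝ, ∑ i, c i • e i = 0 → ∀ i, c i = 0) (x : HR I k U) :
    ∃ c : ι → ℝ, ∑ i, c i • e i = x := by
  haveI := h.finite
  have h1 : LinearIndependent ℝ e := Fintype.linearIndependent_iff.2 he
  have h2 := h1.span_eq_top_of_card_eq_finrank'
    (le_antisymm h1.fintype_card_le_finrank h.finrank_le)
  exact (Submodule.mem_span_range_iff_exists_fun ℝ).1 (h2 ▸ Submodule.mem_top)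

theorem star_or {Y : Type*} [AddCommGroup Y] [Module ℝ Y] (π : E' →ₗ[ℝ] Y) (l : E' →ₗ[ℝ] ℝ) {e : E'}
    (h1 : π e = 0) (h2 : 0 < l e) : StarConvex ℝ e {x | π x ≠ 0 ∨ 0 < l x} := by
  intro x hx s t hs ht hst
  simp only [mem_ofPred_eq, map_add, map_smul, h1, smul_zero, zero_add, smul_eq_mul]
  rcases ht.eq_or_lt with rfl | ht
  · rw [add_zero] at hst
    right
    rw [hst]
    simpa using h2
  · exact hx.imp (smul_ne_zero ht.ne') fun h => by positivity

theorem res_fst (S S' : Set N) (h : S' ⊆ S) (y : HR I k U) :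
    res (prod_mono_right h) ((mp_fst U S : Mp (I.prod J) I _ _ _).st k y) = (mp_fst U S').st k y :=
  Mp.res_st _ _ y

section pl

variable [T2Space M] [SigmaCompactSpace M]

/-- product with the complement of a subspace of codimension two -/
theorem Bd.prod_pl (hU : IsOpen U) (h1 : Bd I (k + 1) U n) (h2 : Bd I k U m) (π l : E' →L[ℝ] ℝ)
    {e e' : E'} (e1 : π e = 0) (e2 : 0 < l e) (e3 : 0 < π e') :
    Bd (I.prod 𝓘(ℝ, E')) (k + 1) (U ×ˢ {x | π x ≠ 0 ∨ l x ≠ 0}) (m + n) := by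
  set A : Set E' := {x | π x ≠ 0 ∨ 0 < l x}
  set B : Set E' := {x | π x ≠ 0 ∨ 0 < (-l) x}
  set C : Set E' := {x | 0 < π x}
  set D : Set E' := {x | π x < 0}
  have oA : IsOpen A := (isOpen_ne.preimage π.continuous).union (isOpen_lt continuous_const l.continuous)
  have oB : IsOpen B :=
    (isOpen_ne.preimage π.continuous).union (isOpen_lt continuous_const (-l).continuous)
  have oC : IsOpen C := isOpen_lt continuous_const π.continuous
  have oD : IsOpen D := isOpen_lt π.continuous continuous_const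
  have bA := st_fst_bij (I := I) (k := k) hU oA (Or.inr e2) (star_or π.toLinearMap l.toLinearMap e1 e2)
  have sB : StarConvex ℝ (-e) B := star_or π.toLinearMap (-l).toLinearMap (by simpa using e1)
    (by simpa using e2)
  have bB := st_fst_bij (I := I) (k := k + 1) hU oB (Or.inr (by simpa using e2)) sB
  have mD : -e' ∈ D := by simpa [D] using e3
  have cC : Convex ℝ C := convex_halfSpace_gt π.toLinearMap.isLinear 0
  have cD : Convex ℝ D := convex_halfSpace_lt π.toLinearMap.isLinear 0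
  have bD := st_fst_bij (I := I) (k := k) hU oD mD (cD mD)
  have CA : C ⊆ A := fun x hx => Or.inl (ne_of_gt hx)
  have CB : C ⊆ B := fun x hx => Or.inl (ne_of_gt hx)
  have DA : D ⊆ A := fun x hx => Or.inl (ne_of_lt hx)
  have e4 : U ×ˢ {x | π x ≠ 0 ∨ l x ≠ 0} = U ×ˢ A ∪ U ×ˢ B := by
    rw [← prod_union]
    congr 1
    ext x
    simp only [A, B, mem_ofPred_eq, mem_union, neg_apply, neg_pos, ne_iff_lt_or_gt]
    tauto
  have e5 : U ×ˢ A ∩ U ×ˢ B = U ×ˢ C ∪ U ×ˢ D := by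
    rw [← prod_union, ← prod_inter]
    congr 1
    ext x
    simp only [A, B, C, D, mem_ofPred_eq, mem_union, mem_inter_iff, neg_apply,
      neg_pos, ne_iff_lt_or_gt]
    constructor
    · rintro ⟨h | h, h' | h'⟩
      exacts [h.symm, h.symm, h'.symm, (lt_asymm h h').elim]
    · exact fun h => ⟨Or.inl h.symm, Or.inl h.symm⟩
  have dCD : Disjoint (U ×ˢ C) (U ×ˢ D) :=
    disjoint_left.2 fun x hx hx' => lt_asymm (show 0 < π x.2 from hx.2) hx'.2
  rw [e4]
  obtain ⟨χ, hχ⟩ := exists_cut (I := I.prod 𝓘(ℝ, E')) (hU.prod oA) (hU.prod oB)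
  set rC := res (I := I.prod 𝓘(ℝ, E')) (k := k) (e5 ▸ subset_union_left : U ×ˢ C ⊆ U ×ˢ A ∩ U ×ˢ B)
  set rD := res (I := I.prod 𝓘(ℝ, E')) (k := k) (e5 ▸ subset_union_right : U ×ˢ D ⊆ U ×ˢ A ∩ U ×ˢ B)
  have hC := h2.prod_convex hU oC cC
  haveI := hC.finite
  have inj : Injective (rC.comp (LinearMap.ker rD).subtype) :=
    (injective_iff_map_eq_zero _).2 fun x hx => Subtype.ext
      (res_inj_disj (hU.prod oC) (hU.prod oD) dCD e5 hx x.2)
  haveI := Module.Finite.of_injective _ inj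
  have hA := h1.prod_star hU oA (Or.inr e2) (star_or π.toLinearMap l.toLinearMap e1 e2)
  haveI := hA.finite
  obtain ⟨hf, hle⟩ := finrank_le_of_ker ((hχ.dl k).comp (LinearMap.ker rD).subtype)
    (res (I := I.prod 𝓘(ℝ, E')) (k := k + 1) (subset_union_left : U ×ˢ A ⊆ U ×ˢ A ∪ U ×ˢ B))
    fun x hx => by
      have h3 : res (subset_union_right : U ×ˢ B ⊆ U ×ˢ A ∪ U ×ˢ B) x = 0 := by
        obtain ⟨y, hy⟩ := bB.2 (res (subset_union_right : U ×ˢ B ⊆ U ×ˢ A ∪ U ×ˢ B) x)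
        have h4 : (mp_fst U C : Mp (I.prod 𝓘(ℝ, E')) I _ _ _).st (k + 1) y = 0 := by
          rw [← res_fst B C CB, hy, res_res, ← res_res subset_union_left (prod_mono_right CA), hx,
            map_zero]
        rw [← hy, st_fst_inj hU ⟨e', e3⟩ (h4.trans (map_zero _).symm), map_zero]
      obtain ⟨c, rfl⟩ := mv_ker (hU.prod oA) (hU.prod oB) hχ hx h3
      obtain ⟨y, hy⟩ := bD.2 (rD c)
      refine ⟨⟨c - res inter_subset_left ((mp_fst U A).st k y), ?_⟩, ?_⟩
      · rw [LinearMap.mem_ker, map_sub, ← hy, res_res, res_fst A D DA, sub_self]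
      · rw [LinearMap.comp_apply, Submodule.subtype_apply, map_sub,
          dl_res_left (hU.prod oA) (hU.prod oB), sub_zero]
  exact bd_of_finrank (hle.trans (add_le_add
    ((LinearMap.finrank_le_finrank_of_injective inj).trans hC.finrank_le) hA.finrank_le))

theorem Bd.prod_cz (hU : IsOpen U) (h1 : Bd I (k + 1) U n) (h2 : Bd I k U m) :
    Bd (I.prod 𝓘(ℝ, ℂ)) (k + 1) (U ×ˢ ({0}ᶜ : Set ℂ)) (m + n) := by
  have h := h1.prod_pl hU h2 Complex.imCLM Complex.reCLM (e := 1) (e' := Complex.I) (by simp)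
    (by simp) (by simp)
  convert h using 2
  ext z
  simp only [mem_compl_iff, mem_singleton_iff, Complex.ext_iff, mem_ofPred_eq, Complex.imCLM_apply,
    Complex.reCLM_apply, Complex.zero_re, Complex.zero_im]
  tauto

theorem dir_coe (u : Circle) : dir (u : ℂ) = u := by simpa using dir_mul one_pos u

theorem Bd.prod_circle (hU : IsOpen U) (h1 : Bd I (k + 1) U n) (h2 : Bd I k U m) :
    Bd (I.prod (𝓡 1)) (k + 1) (U ×ˢ (univ : Set Circle)) (m + n) :=
  (h1.prod_cz hU h2).of_inj _ (st_inj_of_inv (hU.prod isOpen_univ) (f := fun p => (p.1, dir p.2))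
    (g := fun p : M × Circle => (p.1, (p.2 : ℂ)))
    ⟨fun p hp => contMDiffAt_fst.prodMk ((contMDiffAt_dir hp.2).comp p contMDiffAt_snd),
      fun _ hp => ⟨hp.1, mem_univ _⟩⟩
    ⟨fun p _ => contMDiffAt_fst.prodMk ((contMDiff_circle_coe _).comp p contMDiffAt_snd),
      fun p hp => ⟨hp.1, p.2.coe_ne_zero⟩⟩ fun p _ => by rw [dir_coe])

end pl

theorem Bd.swap {S : Set N} (hU : IsOpen U) (hS : IsOpen S) (h : Bd (I.prod J) k (U ×ˢ S) n) :
    Bd (J.prod I) k (S ×ˢ U) n :=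
  h.of_inj _ (st_inj_of_inv (hS.prod hU) (f := Prod.swap) (g := Prod.swap)
    ⟨fun _ _ => contMDiffAt_snd.prodMk contMDiffAt_fst, fun _ hp => ⟨hp.2, hp.1⟩⟩
    ⟨fun _ _ => contMDiffAt_snd.prodMk contMDiffAt_fst, fun _ hp => ⟨hp.2, hp.1⟩⟩ fun _ _ => rfl)

theorem Bd.of_prod_left {S : Set N} (hU : IsOpen U) (hS : S.Nonempty)
    (h : Bd (I.prod J) k (U ×ˢ S) n) : Bd I k U n := h.of_inj _ (st_fst_inj hU hS)

theorem Bd.of_prod_right {S : Set N} (hU : U.Nonempty) (hS : IsOpen S)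
    (h : Bd (I.prod J) k (U ×ˢ S) n) : Bd J k S n := by
  obtain ⟨c, hc⟩ := hU
  exact h.of_inj _ (st_inj_of_inv hS (mp_snd U S) (mp_inr S hc) fun _ _ => rfl)

theorem hz_univ : HZ 𝓘(ℝ, E) (k + 1) (univ : Set E) :=
  hz_star isOpen_univ (mem_univ 0) (starConvex_univ 0)

theorem bd_circle : Bd (𝓡 1) 1 (univ : Set Circle) 1 :=
  ((bd_zero.2 (hz_univ (E := ℝ))).prod_circle isOpen_univ
    (bd0 isOpen_univ isPreconnected_univ)).of_prod_right univ_nonempty isOpen_univ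

theorem hz_circle : HZ (𝓡 1) (k + 2) (univ : Set Circle) := hz_of_gt (by simp)

/-- the model of `Circle × ℂ` -/
abbrev IT := (𝓡 1).prod 𝓘(ℝ, ℂ)

/-- the punctured solid torus -/
def cz : Set (Circle × ℂ) := {z | z.2 ≠ 0}

theorem cz_eq : cz = (univ : Set Circle) ×ˢ ({0}ᶜ : Set ℂ) := by
  ext z
  simp [cz]

theorem isOpen_cz : IsOpen cz := isOpen_ne.preimage continuous_snd

theorem isPreconnected_cz : IsPreconnected cz := by
  rw [cz_eq]
  exact isPreconnected_univ.prod (isConnected_compl_singleton_of_one_lt_rank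
    (by rw [Complex.rank_real_complex]; norm_num) 0).isPreconnected

theorem bd_st : Bd IT 1 (univ : Set (Circle × ℂ)) 1 := by
  rw [← univ_prod_univ]
  exact bd_circle.prod_convex isOpen_univ isOpen_univ convex_univ

theorem hz_st : HZ IT (k + 2) (univ : Set (Circle × ℂ)) := by
  rw [← univ_prod_univ]
  exact hz_circle.prod_convex isOpen_univ isOpen_univ convex_univ

theorem bd_cz1 : Bd IT 1 cz 2 :=
  cz_eq ▸ bd_circle.prod_cz isOpen_univ (bd0 isOpen_univ isPreconnected_univ)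

theorem bd_cz2 : Bd IT 2 cz 1 := cz_eq ▸ (bd_zero.2 hz_circle).prod_cz isOpen_univ bd_circle

theorem hz_cz3 : HZ IT (k + 3) cz :=
  bd_zero.1 (cz_eq ▸ (bd_zero.2 hz_circle).prod_cz isOpen_univ (bd_zero.2 hz_circle))

/-! ### angular forms -/

/-- periods of angular forms -/
theorem ang_period {ι : Type*} [Fintype ι] {g : ι → M → Circle} (hg : ∀ i, ∀ x ∈ U, CSm I (g i) x)
    {c : ι → ℝ} (h : Ex I U (∑ i, c i • ang I (g i))) {γ : ℝ → M} (hγ : Mp 𝓘(ℝ, ℝ) I univ U γ)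
    (hτ : γ (2 * Real.pi) = γ 0) {d : ι → ℝ} {u : ι → Circle}
    (e : ∀ i t, g i (γ t) = u i * Circle.exp (d i * t)) : ∑ i, c i * d i = 0 := by
  have h1 := period_zero (r := ∑ i, c i * d i) hγ hτ h
    (dg_sum fun i _ => (Line51.dg_ang (g i)).smul (c i)) fun t => ?_
  · exact (mul_eq_zero.1 h1).resolve_right (by positivity)
  have h2 : ∀ r : ℝ, df 𝓘(ℝ, ℝ) (fun s : ℝ => r * s) t = r • df 𝓘(ℝ, ℝ) (fun s : ℝ => s) t := by
    intro r
    rw [df, df, mf_eq_fderiv, mf_eq_fderiv, ← map_smul]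
    congr 1
    ext
    simp
  have h3 : ∀ r : ℝ, ContMDiffAt 𝓘(ℝ, ℝ) 𝓘(ℝ, ℝ) ∞ (fun s : ℝ => r * s) t :=
    fun r => contMDiffAt_const.mul contMDiffAt_id
  rw [pm_sum, Finset.sum_apply, h2, Finset.sum_smul]
  refine Finset.sum_congr rfl fun i _ => ?_
  have h4 : g i ∘ γ = (fun _ => u i) * fun t => Circle.exp (d i * t) := funext (e i)
  rw [pm_smul, Pi.smul_apply, pm_ang (hg i _ (hγ.maps (mem_univ t)))
    ((hγ.sm t (mem_univ t)).mdifferentiableAt ne0), h4, Line51.ang_mul (g := fun _ => u i)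
    (h := fun t => Circle.exp (d i * t)) contMDiffAt_const
    ((contMDiff_circleExp _).comp t (h3 _)), ang_const, Pi.zero_apply, zero_add, ang_exp (h3 _), h2,
    smul_smul]

theorem csm_fst (z : Circle × ℂ) : CSm IT Prod.fst z := contMDiffAt_fst

theorem csm_dir {z : Circle × ℂ} (h : z ∈ cz) : CSm IT (fun w : Circle × ℂ => dir w.2) z :=
  (contMDiffAt_dir h).comp z contMDiffAt_snd

/-- the longitudinal angular form -/
def aL : Circle × ℂ → Ext (EuclideanSpace ℝ (Fin 1) × ℂ) := ang IT Prod.fst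

/-- the meridional angular form -/
def aM : Circle × ℂ → Ext (EuclideanSpace ℝ (Fin 1) × ℂ) := ang IT fun w => dir w.2

theorem cl_aL {S : Set (Circle × ℂ)} : Cl IT 1 S aL := cl_ang fun z _ => csm_fst z

theorem cl_aM : Cl IT 1 cz aM := cl_ang fun _ h => csm_dir h

theorem indep_cz {x y : ℝ} (h : Ex IT cz (x • aL + y • aM)) : x = 0 ∧ y = 0 := by
  have h1 : Ex IT cz (∑ i, ![x, y] i • ang IT (![Prod.fst, fun w => dir w.2] i)) := by
    rw [Fin.sum_univ_two]
    exact h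
  have h2 : ∀ i, ∀ z ∈ cz, CSm IT (![Prod.fst, fun w : Circle × ℂ => dir w.2] i) z :=
    Fin.forall_fin_two.2 ⟨fun z _ => csm_fst z, fun _ h => csm_dir h⟩
  constructor
  · have := ang_period h2 h1 (γ := fun t => (Circle.exp t, 1))
      ⟨fun t _ => (contMDiff_circleExp t).prodMk contMDiffAt_const, fun _ _ => one_ne_zero⟩
      (by simp) (d := ![1, 0]) (u := ![1, dir 1]) (Fin.forall_fin_two.2 ⟨by simp, by simp⟩)
    simpa using this
  · have := ang_period h2 h1 (γ := fun t => (1, Circle.exp t))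
      ⟨fun t _ => contMDiffAt_const.prodMk ((contMDiff_circle_coe _).comp t (contMDiff_circleExp t)),
        fun t _ => (Circle.exp t).coe_ne_zero⟩
      (by simp) (d := ![0, 1]) (u := ![1, 1])
      (Fin.forall_fin_two.2 ⟨by simp, fun t => by simpa using dir_coe (Circle.exp t)⟩)
    simpa using this

theorem span_cz (x : HR IT 1 cz) : ∃ s t : ℝ, x = s • cl_aL.cls + t • cl_aM.cls := by
  obtain ⟨c, hc⟩ := Bd.span (ι := Fin 2) bd_cz1 (e := ![cl_aL.cls, cl_aM.cls]) (fun c hc => by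
    rw [Fin.sum_univ_two] at hc
    exact Fin.forall_fin_two.2 (indep_cz (cls_eq_zero.1
      ((cls_add (cl_aL.smul _) (cl_aM.smul _)).trans hc)))) x
  exact ⟨c 0, c 1, by rw [← hc, Fin.sum_univ_two]; rfl⟩

theorem span_st (x : HR IT 1 univ) : ∃ s : ℝ, x = s • cl_aL.cls := by
  obtain ⟨c, hc⟩ := Bd.span (ι := Unit) bd_st (e := fun _ => cl_aL.cls) (fun c hc _ => by
    rw [Fintype.sum_unique] at hc
    have h1 : Ex IT univ (c () • aL) := cls_eq_zero.1 ((cls_smul _ cl_aL).trans hc)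
    exact (indep_cz (y := 0) (by simpa using h1.mono (subset_univ cz))).1) x
  exact ⟨c (), by rw [← hc, Fintype.sum_unique]⟩

/-! ### spheres -/

/-- one of the first `m` coordinates is not zero -/
def pun (d m : ℕ) : Set (EuclideanSpace ℝ (Fin d)) := {x | ∃ i : Fin d, i.1 < m ∧ x i ≠ 0}

section pun

variable {d : ℕ}

theorem isOpen_pun (m : ℕ) : IsOpen (pun d m) := by
  rw [pun, ofPred_exists]
  exact isOpen_iUnion fun i => isOpen_const.inter (isOpen_ne.preimage (by fun_prop))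

/-- the first `m` coordinates -/
def prj (d m : ℕ) : EuclideanSpace ℝ (Fin d) →ₗ[ℝ] ({i : Fin d // i.1 < m} → ℝ) where
  toFun x i := x i.1
  map_add' _ _ := rfl
  map_smul' _ _ := rfl

theorem mem_pun {x : EuclideanSpace ℝ (Fin d)} : x ∈ pun d m ↔ prj d m x ≠ 0 := by
  rw [Function.ne_iff]
  exact ⟨fun ⟨i, h1, h2⟩ => ⟨⟨i, h1⟩, h2⟩, fun ⟨i, h⟩ => ⟨i.1, i.2, h⟩⟩

theorem pun_step (hm : m < d) : ∃ (A B : Set (EuclideanSpace ℝ (Fin d))) (e e' : _), IsOpen A ∧
    IsOpen B ∧ e ∈ A ∧ e' ∈ B ∧ StarConvex ℝ e A ∧ StarConvex ℝ e' B ∧ A ∪ B = pun d (m + 1) ∧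
    A ∩ B = pun d m := by
  let l : EuclideanSpace ℝ (Fin d) →L[ℝ] ℝ := EuclideanSpace.proj ⟨m, hm⟩
  let e : EuclideanSpace ℝ (Fin d) := EuclideanSpace.single ⟨m, hm⟩ 1
  have h1 : prj d m e = 0 := funext fun i => by
    have : i.1 ≠ ⟨m, hm⟩ := fun h => i.2.ne (congrArg Fin.val h)
    simp [prj, e, this]
  have h2 : 0 < l e := by simp [l, e]
  have o : IsOpen {x | prj d m x ≠ 0} := by
    simp only [← mem_pun]
    exact isOpen_pun m
  refine ⟨{x | prj d m x ≠ 0 ∨ 0 < l x}, {x | prj d m x ≠ 0 ∨ 0 < (-l) x}, e, -e,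
    o.union (isOpen_lt continuous_const l.continuous),
    o.union (isOpen_lt continuous_const (-l).continuous), Or.inr h2, Or.inr (by simpa using h2),
    star_or _ l.toLinearMap h1 h2, star_or _ (-l).toLinearMap (by simpa using h1)
      (by simpa using h2), ?_, ?_⟩
  · ext x
    simp only [mem_union, mem_ofPred_eq, ← mem_pun, neg_apply, neg_pos]
    constructor
    · have h3 : x ∈ pun d m → x ∈ pun d (m + 1) := fun ⟨i, h, h'⟩ => ⟨i, h.trans m.lt_succ_self, h'⟩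
      rintro ((h | h) | h | h)
      exacts [h3 h, ⟨⟨m, hm⟩, m.lt_succ_self, h.ne'⟩, h3 h, ⟨⟨m, hm⟩, m.lt_succ_self, h.ne⟩]
    · rintro ⟨i, h, h'⟩
      rcases (Nat.lt_succ_iff.1 h).lt_or_eq with h | h
      · exact Or.inl (Or.inl ⟨i, h, h'⟩)
      · obtain rfl : i = ⟨m, hm⟩ := Fin.ext h
        exact h'.lt_or_gt.symm.imp Or.inr Or.inr
  · ext x
    simp only [mem_inter_iff, mem_ofPred_eq, ← mem_pun, neg_apply, neg_pos]
    constructor
    · rintro ⟨h | h, h' | h'⟩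
      exacts [h, h, h', (lt_asymm h h').elim]
    · exact fun h => ⟨Or.inl h, Or.inl h⟩

theorem pun_zero : pun d 0 = ∅ := eq_empty_of_forall_notMem fun _ ⟨_, h, _⟩ => Nat.not_lt_zero _ h

theorem isPreconnected_pun (hm : m ≤ d) (h1 : m ≠ 1) : IsPreconnected (pun d m) := by
  obtain _ | m := m
  · rw [pun_zero]
    exact isPreconnected_empty
  obtain ⟨A, B, e, e', -, -, eA, eB, sA, sB, hu, hi⟩ := pun_step (m := m) hm
  have h0 : 0 < d := by omega
  have h2 : EuclideanSpace.single ⟨0, h0⟩ 1 ∈ A ∩ B := hi ▸ ⟨⟨0, h0⟩, by simp; omega, by simp⟩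
  exact hu ▸ IsPreconnected.union _ h2.1 h2.2 (sA.isPathConnected eA).isConnected.isPreconnected
    (sB.isPathConnected eB).isConnected.isPreconnected

theorem hz_pun (hm : m ≤ d) (hk : k + 2 ≠ m) :
    HZ 𝓘(ℝ, EuclideanSpace ℝ (Fin d)) (k + 1) (pun d m) := by
  induction m generalizing k with
  | zero => exact pun_zero ▸ hz_empty
  | succ m ih =>
    obtain ⟨A, B, e, e', oA, oB, eA, eB, sA, sB, hu, hi⟩ := pun_step (m := m) hm
    rw [← hu]
    cases k with
    | zero =>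
      exact (hz_star oA eA sA).union1 oA oB (hz_star oB eB sB)
        (hi ▸ isPreconnected_pun (by omega) (by omega))
    | succ k =>
      exact (hz_star oA eA sA).union oA oB (hz_star oB eB sB) (hi ▸ ih (by omega) (by omega))

theorem bd_pun (hm : k + 2 ≤ d) : Bd 𝓘(ℝ, EuclideanSpace ℝ (Fin d)) (k + 1) (pun d (k + 2)) 1 := by
  induction k with
  | zero =>
    have h := (bd_zero.2 (hz_univ (E := ℝ))).prod_pl isOpen_univ (bd0 isOpen_univ isPreconnected_univ)
      (EuclideanSpace.proj (⟨0, by omega⟩ : Fin d)) (EuclideanSpace.proj (⟨1, by omega⟩ : Fin d))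
      (e := EuclideanSpace.single ⟨1, by omega⟩ 1) (e' := EuclideanSpace.single ⟨0, by omega⟩ 1)
      (by simp) (by simp) (by simp)
    have e : pun d 2 = {x | EuclideanSpace.proj (𝕜 := ℝ) (⟨0, by omega⟩ : Fin d) x ≠ 0 ∨
        EuclideanSpace.proj (𝕜 := ℝ) (⟨1, by omega⟩ : Fin d) x ≠ 0} := by
      ext x
      constructor
      · rintro ⟨⟨i, hi⟩, h, h'⟩
        obtain rfl | rfl : i = 0 ∨ i = 1 := by simp only at h; omega
        exacts [Or.inl h', Or.inr h']
      · rintro (h | h)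
        exacts [⟨_, by simp, h⟩, ⟨_, by simp, h⟩]
    exact (e ▸ h).of_prod_right univ_nonempty (isOpen_pun 2)
  | succ k ih =>
    obtain ⟨A, B, e, e', oA, oB, eA, eB, sA, sB, hu, hi⟩ := pun_step (d := d) (m := k + 2) hm
    exact hu ▸ (bd_zero.2 (hz_star oA eA sA)).union oA oB (bd_zero.2 (hz_star oB eB sB))
      (hi ▸ ih (by omega))

theorem pun_self : pun d d = {0}ᶜ := by
  ext x
  rw [mem_compl_singleton_iff]
  exact ⟨fun ⟨i, _, h⟩ e => h (by simp [e]), fun h => by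
    by_contra h'
    exact h (PiLp.ext fun i => by_contra fun h2 => h' ⟨i, i.2, h2⟩)⟩

/-- the unit sphere -/
abbrev Sp (d : ℕ) : Type := Metric.sphere (0 : EuclideanSpace ℝ (Fin (d + 1))) 1

open Classical in
/-- radial projection -/
def rad (d : ℕ) (x : EuclideanSpace ℝ (Fin (d + 1))) : Sp d :=
  if h : x = 0 then ⟨EuclideanSpace.single 0 1, by simp⟩ else
    ⟨‖x‖⁻¹ • x, by simp [norm_smul, h]⟩

theorem coe_rad {x : EuclideanSpace ℝ (Fin (d + 1))} (h : x ≠ 0) :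
    (rad d x : EuclideanSpace ℝ (Fin (d + 1))) = ‖x‖⁻¹ • x := by rw [rad, dif_neg h]

theorem rad_coe (x : Sp d) : rad d x = x :=
  Subtype.ext (by rw [coe_rad (ne_zero_of_mem_unit_sphere x), norm_eq_of_mem_sphere]; simp)

theorem contMDiff_coe_sp : ContMDiff (𝓡 d) 𝓘(ℝ, EuclideanSpace ℝ (Fin (d + 1))) ∞
    fun x : Sp d => (x : EuclideanSpace ℝ (Fin (d + 1))) :=
  haveI : Fact (finrank ℝ (EuclideanSpace ℝ (Fin (d + 1))) = d + 1) := ⟨by simp⟩
  contMDiff_coe_sphere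

theorem contMDiffAt_rad {x : EuclideanSpace ℝ (Fin (d + 1))} (h : x ≠ 0) :
    ContMDiffAt 𝓘(ℝ, EuclideanSpace ℝ (Fin (d + 1))) (𝓡 d) ∞ (rad d) x := by
  haveI : Fact (finrank ℝ (EuclideanSpace ℝ (Fin (d + 1))) = d + 1) := ⟨by simp⟩
  let S : TopologicalSpace.Opens (EuclideanSpace ℝ (Fin (d + 1))) := ⟨{0}ᶜ, isOpen_compl_singleton⟩
  have h1 : ContMDiff 𝓘(ℝ, EuclideanSpace ℝ (Fin (d + 1))) 𝓘(ℝ, EuclideanSpace ℝ (Fin (d + 1))) ∞
      fun z : S => (rad d z : EuclideanSpace ℝ (Fin (d + 1))) := fun z => by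
    have h2 : ContDiffAt ℝ ∞ (fun x : EuclideanSpace ℝ (Fin (d + 1)) => ‖x‖⁻¹ • x) z :=
      ((contDiffAt_norm ℝ z.2).inv (norm_ne_zero_iff.2 z.2)).smul contDiffAt_id
    exact (h2.contMDiffAt.comp z contMDiff_subtype_val.contMDiffAt).congr_of_eventuallyEq
      (Eventually.of_forall fun w => coe_rad w.2)
  have h2 : ContMDiff 𝓘(ℝ, EuclideanSpace ℝ (Fin (d + 1))) (𝓡 d) ∞ fun z : S => rad d z :=
    h1.codRestrict_sphere fun z => (rad d z).2
  exact Glue52.contMDiffAt_of_comp (Glue52.ld_val S ⟨x, h⟩) (h2 _)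

theorem Bd.sphere (h : Bd 𝓘(ℝ, EuclideanSpace ℝ (Fin (d + 1))) k
    ({0}ᶜ : Set (EuclideanSpace ℝ (Fin (d + 1)))) n) :
    Bd (𝓡 d) k (univ : Set (Sp d)) n :=
  h.of_inj _ (st_inj_of_inv isOpen_univ (f := rad d) (g := Subtype.val)
    ⟨fun _ hx => contMDiffAt_rad hx, fun _ _ => mem_univ _⟩
    ⟨fun x _ => contMDiff_coe_sp x, fun x _ => ne_zero_of_mem_unit_sphere x⟩ fun x _ => rad_coe x)

theorem hz_punct (hk : k + 2 ≠ d) :
    HZ 𝓘(ℝ, EuclideanSpace ℝ (Fin d)) (k + 1) ({0}ᶜ : Set (EuclideanSpace ℝ (Fin d))) :=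
  pun_self ▸ hz_pun le_rfl hk

/-- **cohomology of spheres** -/
theorem hz_sphere (hk : k + 1 ≠ d) : HZ (𝓡 d) (k + 1) (univ : Set (Sp d)) :=
  bd_zero.1 (bd_zero.2 (hz_punct (by omega))).sphere

theorem bd_sphere : Bd (𝓡 (k + 1)) (k + 1) (univ : Set (Sp (k + 1))) 1 :=
  Bd.sphere (pun_self ▸ bd_pun le_rfl)

end pun

end Crest.Agent.X212.Dr59
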