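import Crest.Agent.R208.F1c

/-!
# X212 / Dr59, part 1 (helper59): differential forms on a boundaryless manifold with any model

A form is a function `a : M → Ext E` (all degrees at once, wedge product = `*`).
* `mf J I f y` the differential, `pm J I f a` the pull-back, `rp I x a` the form in the chart at `x`;
* `CAt I n a x`, `SmAt I a x` regularity at a point, `dM I a` the exterior derivative;
* `pm_comp`, `CAt.pm`, `dM_pm`, `dM_mul`, `dM_dM`; on a normed space `pm = F.pull`, `dM = F.d`.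
-/

set_option autoImplicit false
set_option linter.unusedSectionVars false

open Set Filter Topology Function
open scoped ContDiff Manifold
open Crest.Agent.R208 Crest.Agent.R208.F

noncomputable section

namespace Crest.Agent.X212.Dr59

variable {E : Type*} [NormedAddCommGroup E] [NormedSpace ℝ E] [FiniteDimensional ℝ E]
  {H : Type*} [TopologicalSpace H] {I : ModelWithCorners ℝ E H}
  {M : Type*} [TopologicalSpace M] [ChartedSpace H M]
  {E' : Type*} [NormedAddCommGroup E'] [NormedSpace ℝ E'] [FiniteDimensional ℝ E']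
  {H' : Type*} [TopologicalSpace H'] {J : ModelWithCorners ℝ E' H'}
  {N : Type*} [TopologicalSpace N] [ChartedSpace H' N]
  {E'' : Type*} [NormedAddCommGroup E''] [NormedSpace ℝ E''] [FiniteDimensional ℝ E'']
  {H'' : Type*} [TopologicalSpace H''] {K : ModelWithCorners ℝ E'' H''}
  {P : Type*} [TopologicalSpace P] [ChartedSpace H'' P]

/-- the differential, as a map of the model spaces -/
def mf (J : ModelWithCorners ℝ E' H') (I : ModelWithCorners ℝ E H) (f : N → M) (y : N) :
    E' →L[ℝ] E := mfderiv J I f y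

/-- pull-back of a form -/
def pm (J : ModelWithCorners ℝ E' H') (I : ModelWithCorners ℝ E H) (f : N → M) (a : M → Ext E)
    (y : N) : Ext E' := pb (mf J I f y : E' →ₗ[ℝ] E) (a (f y))

variable (I) in
/-- a form in the chart at `x` -/
def rp (x : M) (a : M → Ext E) : E → Ext E := pm 𝓘(ℝ, E) I (extChartAt I x).symm a

variable (I) in
/-- `a` is of class `C^n` at `x` -/
def CAt (n : WithTop ℕ∞) (a : M → Ext E) (x : M) : Prop :=
  ContDiffAt ℝ n (rp I x a) (extChartAt I x x)

variable (I) in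
/-- `a` is smooth at `x` -/
abbrev SmAt (a : M → Ext E) (x : M) : Prop := CAt I ∞ a x

variable (I) in
/-- exterior derivative -/
def dM (a : M → Ext E) (x : M) : Ext E := F.d (rp I x a) (extChartAt I x x)

/-- a function as a form of degree zero -/
def fn (E : Type*) [AddCommGroup E] [Module ℝ E] {M : Type*} (g : M → ℝ) (x : M) : Ext E :=
  algebraMap ℝ (Ext E) (g x)

/-! ### the differential -/

theorem mf_congr {f g : N → M} {y : N} (h : f =ᶠ[𝓝 y] g) : mf J I f y = mf J I g y :=
  h.mfderiv_eq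

theorem mf_comp {f : P → N} {g : N → M} {z : P} (hg : MDifferentiableAt J I g (f z))
    (hf : MDifferentiableAt K J f z) : mf K I (g ∘ f) z = (mf J I g (f z)).comp (mf K J f z) :=
  mfderiv_comp z hg hf

@[simp] theorem mf_id (x : M) : mf I I (id : M → M) x = ContinuousLinearMap.id ℝ E := mfderiv_id

theorem mf_const (c : M) (y : N) : mf J I (fun _ : N => c) y = 0 := mfderiv_const

theorem mf_eq_fderiv (f : E' → E) (y : E') : mf 𝓘(ℝ, E') 𝓘(ℝ, E) f y = fderiv ℝ f y :=
  mfderiv_eq_fderiv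

theorem mf_of_has {f : N → M} {y : N} {A : E' →L[ℝ] E} (h : HasMFDerivAt J I f y A) :
    mf J I f y = A := h.mfderiv

/-! ### pull-back -/

theorem pm_apply (f : N → M) (a : M → Ext E) (y : N) :
    pm J I f a y = pb (mf J I f y : E' →ₗ[ℝ] E) (a (f y)) := rfl

theorem pm_eq_pull (f : E' → E) (a : E → Ext E) : pm 𝓘(ℝ, E') 𝓘(ℝ, E) f a = F.pull f a := by
  funext y
  rw [pm_apply, mf_eq_fderiv]
  rfl

theorem pm_congr {f g : N → M} {a b : M → Ext E} {y : N} (h : f =ᶠ[𝓝 y] g)
    (h' : a (f y) = b (f y)) : pm J I f a y = pm J I g b y := by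
  rw [pm_apply, pm_apply, mf_congr h, h', h.self_of_nhds]

theorem pm_congr_right {f : N → M} {a b : M → Ext E} {y : N} (h' : a (f y) = b (f y)) :
    pm J I f a y = pm J I f b y := pm_congr EventuallyEq.rfl h'

theorem pm_comp {f : P → N} {g : N → M} {a : M → Ext E} {z : P}
    (hg : MDifferentiableAt J I g (f z)) (hf : MDifferentiableAt K J f z) :
    pm K J f (pm J I g a) z = pm K I (g ∘ f) a z := by
  rw [pm_apply, pm_apply, pm_apply, pb_comp, mf_comp hg hf]
  rfl

@[simp] theorem pm_id (a : M → Ext E) : pm I I id a = a := by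
  funext x
  rw [pm_apply, mf_id]
  exact pb_id _

theorem pm_of_eventually_id {f : M → M} {x : M} (h : f =ᶠ[𝓝 x] id) (a : M → Ext E) :
    pm I I f a x = a x := by
  rw [pm_congr h rfl, pm_id]

theorem pm_mul (f : N → M) (a b : M → Ext E) : pm J I f (a * b) = pm J I f a * pm J I f b :=
  funext fun _ => map_mul _ _ _

theorem pm_add (f : N → M) (a b : M → Ext E) : pm J I f (a + b) = pm J I f a + pm J I f b :=
  funext fun _ => map_add _ _ _

theorem pm_sub (f : N → M) (a b : M → Ext E) : pm J I f (a - b) = pm J I f a - pm J I f b :=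
  funext fun _ => map_sub _ _ _

theorem pm_neg (f : N → M) (a : M → Ext E) : pm J I f (-a) = -pm J I f a :=
  funext fun _ => map_neg _ _

@[simp] theorem pm_zero (f : N → M) : pm J I f (0 : M → Ext E) = 0 :=
  funext fun _ => map_zero _

theorem pm_smul (f : N → M) (r : ℝ) (a : M → Ext E) : pm J I f (r • a) = r • pm J I f a :=
  funext fun y => map_smul (pb (mf J I f y : E' →ₗ[ℝ] E)) r (a (f y))

theorem pm_fsmul (f : N → M) (g : M → ℝ) (a : M → Ext E) :
    pm J I f (g • a) = (g ∘ f) • pm J I f a :=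
  funext fun y => map_smul (pb (mf J I f y : E' →ₗ[ℝ] E)) (g (f y)) (a (f y))

theorem pm_sum {ι : Type*} (s : Finset ι) (f : N → M) (a : ι → M → Ext E) :
    pm J I f (∑ i ∈ s, a i) = ∑ i ∈ s, pm J I f (a i) := by
  funext y
  simp only [pm_apply, Finset.sum_apply, map_sum]

theorem pm_fn (f : N → M) (g : M → ℝ) : pm J I f (fn E g) = fn E' (g ∘ f) :=
  funext fun _ => AlgHom.commutes _ _

theorem pm_inv (f : N → M) (a : M → Ext E) :
    pm J I f (fun x => F.inv (a x)) = fun y => F.inv (pm J I f a y) :=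
  funext fun _ => pb_inv _ _

theorem fn_mul (g : M → ℝ) (a : M → Ext E) : fn E g * a = g • a :=
  funext fun x => (Algebra.smul_def (g x) (a x)).symm

/-! ### charts -/

section chart

variable [I.Boundaryless] [IsManifold I ∞ M]

theorem contMDiffAt_chart {x y : M} (h : y ∈ (extChartAt I x).source) :
    ContMDiffAt I 𝓘(ℝ, E) ∞ (extChartAt I x) y :=
  contMDiffAt_extChartAt' (by simpa using h)

theorem contMDiffAt_chart_symm {x : M} {u : E} (h : u ∈ (extChartAt I x).target) :
    ContMDiffAt 𝓘(ℝ, E) I ∞ (extChartAt I x).symm u :=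
  (contMDiffOn_extChartAt_symm x).contMDiffAt ((isOpen_extChartAt_target x).mem_nhds h)

theorem mf_chart_self (x : M) : mf I 𝓘(ℝ, E) (extChartAt I x) x = ContinuousLinearMap.id ℝ E :=
  mfderiv_extChartAt_self

theorem mf_chart_symm_self (x : M) :
    mf 𝓘(ℝ, E) I (extChartAt I x).symm (extChartAt I x x) = ContinuousLinearMap.id ℝ E := by
  have h := mfderivWithin_range_extChartAt_symm (I := I) (x := x)
  rw [I.range_eq_univ, mfderivWithin_univ] at h
  exact h

theorem rp_self (x : M) (a : M → Ext E) : rp I x a (extChartAt I x x) = a x := by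
  rw [rp, pm_apply, mf_chart_symm_self, extChartAt_to_inv]
  exact pb_id _

/-- a form is the pull-back of its representative -/
theorem pm_chart_rp {x y : M} (h : y ∈ (extChartAt I x).source) (a : M → Ext E) :
    pm I 𝓘(ℝ, E) (extChartAt I x) (rp I x a) y = a y := by
  rw [rp, pm_comp ((contMDiffAt_chart_symm ((extChartAt I x).map_source h)).mdifferentiableAt
    (by simp)) ((contMDiffAt_chart h).mdifferentiableAt (by simp))]
  refine pm_of_eventually_id ?_ a
  filter_upwards [(isOpen_extChartAt_source x).mem_nhds h] with z hz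
  exact (extChartAt I x).left_inv hz

theorem tendsto_chart_symm (x : M) :
    Tendsto (extChartAt I x).symm (𝓝 (extChartAt I x x)) (𝓝 x) := by
  have h := continuousAt_extChartAt_symm (I := I) x
  rwa [ContinuousAt, extChartAt_to_inv] at h

theorem rp_congr {x : M} {a b : M → Ext E} (h : a =ᶠ[𝓝 x] b) :
    rp I x a =ᶠ[𝓝 (extChartAt I x x)] rp I x b := by
  filter_upwards [(tendsto_chart_symm x).eventually h] with u hu
  exact pm_congr_right hu

theorem CAt.congr {n : WithTop ℕ∞} {x : M} {a b : M → Ext E} (ha : CAt I n a x)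
    (h : b =ᶠ[𝓝 x] a) : CAt I n b x :=
  ContDiffAt.congr_of_eventuallyEq ha (rp_congr h)

theorem dM_congr {x : M} {a b : M → Ext E} (h : a =ᶠ[𝓝 x] b) : dM I a x = dM I b x :=
  d_congr (rp_congr h)

theorem dM_congr_nhds {x : M} {a b : M → Ext E} (h : a =ᶠ[𝓝 x] b) : dM I a =ᶠ[𝓝 x] dM I b :=
  h.eventually_nhds.mono fun _ hy => dM_congr hy

theorem CAt.of_le {n m : WithTop ℕ∞} {x : M} {a : M → Ext E} (ha : CAt I n a x) (h : m ≤ n) :
    CAt I m a x := ContDiffAt.of_le ha h

theorem CAt.diff {n : WithTop ℕ∞} {x : M} {a : M → Ext E} (ha : CAt I n a x) (h : n ≠ 0) :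
    DifferentiableAt ℝ (rp I x a) (extChartAt I x x) := ContDiffAt.differentiableAt ha h

variable [J.Boundaryless] [IsManifold J ∞ N]

/-- a pull-back in charts -/
theorem rp_pm {f : N → M} {y : N} (hf : ContMDiffAt J I 1 f y) {x : M}
    (hx : f y ∈ (extChartAt I x).source) (a : M → Ext E) :
    rp J y (pm J I f a) =ᶠ[𝓝 (extChartAt J y y)]
      F.pull (extChartAt I x ∘ f ∘ (extChartAt J y).symm) (rp I x a) := by
  have h1 : ∀ᶠ z in 𝓝 y, ContMDiffAt J I 1 f z := (contMDiffAt_iff_contMDiffAt_nhds (by simp)).1 hf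
  have h2 : ∀ᶠ z in 𝓝 y, f z ∈ (extChartAt I x).source :=
    hf.continuousAt.eventually ((isOpen_extChartAt_source x).mem_nhds hx)
  filter_upwards [(tendsto_chart_symm (I := J) y).eventually (h1.and h2),
    (isOpen_extChartAt_target y).mem_nhds (mem_extChartAt_target (I := J) y)] with u hu hu'
  have c1 := (contMDiffAt_chart_symm hu').mdifferentiableAt (by simp)
  have c2 := hu.1.mdifferentiableAt (by simp)
  have c3 := (contMDiffAt_chart hu.2).mdifferentiableAt (by simp)
  rw [← pm_eq_pull, ← pm_comp (f := f ∘ (extChartAt J y).symm) c3 (c2.comp u c1), rp, pm_comp c2 c1]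
  exact pm_congr_right (pm_chart_rp hu.2 a).symm

theorem contDiffAt_written {n : WithTop ℕ∞} (hn : n ≤ ∞) {f : N → M} {y : N}
    (hf : ContMDiffAt J I n f y) {x : M} (hx : f y ∈ (extChartAt I x).source) :
    ContDiffAt ℝ n (extChartAt I x ∘ f ∘ (extChartAt J y).symm) (extChartAt J y y) := by
  rw [← contMDiffAt_iff_contDiffAt]
  have h1 : ContMDiffAt J I n f ((extChartAt J y).symm (extChartAt J y y)) := by
    rwa [extChartAt_to_inv]
  have h2 : ContMDiffAt I 𝓘(ℝ, E) n (extChartAt I x)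
      ((f ∘ (extChartAt J y).symm) (extChartAt J y y)) := by
    rw [comp_apply, extChartAt_to_inv]
    exact (contMDiffAt_chart hx).of_le hn
  exact h2.comp _ (h1.comp _ ((contMDiffAt_chart_symm (mem_extChartAt_target y)).of_le hn))

theorem fderiv_written {f : N → M} {y : N} (hf : MDifferentiableAt J I f y) {x : M}
    (hx : f y ∈ (extChartAt I x).source) :
    fderiv ℝ (extChartAt I x ∘ f ∘ (extChartAt J y).symm) (extChartAt J y y)
      = (mf I 𝓘(ℝ, E) (extChartAt I x) (f y)).comp (mf J I f y) := by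
  have c1 := (contMDiffAt_chart_symm (mem_extChartAt_target (I := J) y)).mdifferentiableAt (by simp)
  have c2 : MDifferentiableAt J I f ((extChartAt J y).symm (extChartAt J y y)) := by
    rwa [extChartAt_to_inv]
  have c3 : MDifferentiableAt I 𝓘(ℝ, E) (extChartAt I x)
      ((f ∘ (extChartAt J y).symm) (extChartAt J y y)) := by
    rw [comp_apply, extChartAt_to_inv]
    exact (contMDiffAt_chart hx).mdifferentiableAt (by simp)
  rw [← mf_eq_fderiv, mf_comp c3 (c2.comp _ c1), mf_comp c2 c1, mf_chart_symm_self, comp_apply,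
    extChartAt_to_inv]
  rfl

/-- regularity of a pull-back, tested in any chart of the target -/
theorem cAt_pm_of_chart {n : WithTop ℕ∞} (hn : n ≤ ∞) {f : N → M} {y : N}
    (hf : ContMDiffAt J I ∞ f y) {x : M} (hx : f y ∈ (extChartAt I x).source) {a : M → Ext E}
    (ha : ContDiffAt ℝ n (rp I x a) (extChartAt I x (f y))) : CAt J n (pm J I f a) y := by
  refine ContDiffAt.congr_of_eventuallyEq ?_ (rp_pm (hf.of_le (by simp)) hx a)
  refine contDiffAt_pull (contDiffAt_written le_rfl hf hx) ?_ (by simpa using ha)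
  calc n + 1 ≤ ∞ + 1 := by gcongr
    _ = ∞ := rfl

theorem CAt.pm {n : WithTop ℕ∞} (hn : n ≤ ∞) {f : N → M} {y : N} (hf : ContMDiffAt J I ∞ f y)
    {a : M → Ext E} (ha : CAt I n a (f y)) : CAt J n (pm J I f a) y :=
  cAt_pm_of_chart hn hf (mem_extChartAt_source _) ha

theorem SmAt.pm {f : N → M} {y : N} (hf : ContMDiffAt J I ∞ f y)
    {a : M → Ext E} (ha : SmAt I a (f y)) : SmAt J (pm J I f a) y := CAt.pm le_rfl hf ha

theorem dM_pm_of_chart {f : N → M} {y : N} (hf : ContMDiffAt J I ∞ f y) {x : M}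
    (hx : f y ∈ (extChartAt I x).source) {a : M → Ext E}
    (ha : DifferentiableAt ℝ (rp I x a) (extChartAt I x (f y))) :
    dM J (pm J I f a) y = pb (mf J I f y : E' →ₗ[ℝ] E)
      (pm I 𝓘(ℝ, E) (extChartAt I x) (F.d (rp I x a)) (f y)) := by
  rw [dM, d_congr (rp_pm (hf.of_le (by simp)) hx a),
    d_pull ((contDiffAt_written le_rfl hf hx).of_le (by norm_cast)) (by simpa using ha), F.pull,
    fderiv_written (hf.mdifferentiableAt (by simp)) hx, pm_apply, pb_comp]
  simp only [comp_apply, extChartAt_to_inv]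
  rfl

/-- **`d` commutes with pull-back** -/
theorem dM_pm {n : WithTop ℕ∞} (hn : n ≠ 0) {f : N → M} {y : N} (hf : ContMDiffAt J I ∞ f y)
    {a : M → Ext E} (ha : CAt I n a (f y)) : dM J (pm J I f a) y = pm J I f (dM I a) y := by
  rw [dM_pm_of_chart hf (mem_extChartAt_source _) (ha.diff hn), pm_apply, pm_apply, mf_chart_self]
  congr 1
  exact pb_id _

/-- regularity is tested in any chart -/
theorem cAt_of_chart {n : WithTop ℕ∞} (hn : n ≤ ∞) {x y : M} (hx : y ∈ (extChartAt I x).source)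
    {a : M → Ext E} (ha : ContDiffAt ℝ n (rp I x a) (extChartAt I x y)) : CAt I n a y := by
  have h := cAt_pm_of_chart (J := I) hn (f := id) contMDiffAt_id hx ha
  rwa [pm_id] at h

theorem dM_of_chart {x y : M} (hx : y ∈ (extChartAt I x).source) {a : M → Ext E}
    (ha : DifferentiableAt ℝ (rp I x a) (extChartAt I x y)) :
    dM I a y = pm I 𝓘(ℝ, E) (extChartAt I x) (F.d (rp I x a)) y := by
  have h := dM_pm_of_chart (J := I) (f := id) contMDiffAt_id hx ha
  rw [pm_id, mf_id] at h
  exact h.trans (pb_id _)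

end chart

/-! ### normed spaces -/

theorem rp_model (x : E) (a : E → Ext E) : rp 𝓘(ℝ, E) x a = a := by
  rw [rp, extChartAt_model_space_eq_id]
  exact pm_id a

theorem cAt_model {n : WithTop ℕ∞} {x : E} {a : E → Ext E} :
    CAt 𝓘(ℝ, E) n a x ↔ ContDiffAt ℝ n a x := by
  rw [CAt, rp_model, extChartAt_model_space_eq_id]
  rfl

theorem dM_model (a : E → Ext E) : dM 𝓘(ℝ, E) a = F.d a := by
  funext x
  rw [dM, rp_model, extChartAt_model_space_eq_id]
  rfl

section calc'

variable [I.Boundaryless] [IsManifold I ∞ M] {n : WithTop ℕ∞} {x : M} {a b : M → Ext E}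

theorem CAt.chart (hn : n ≤ ∞) {y : M} (hx : y ∈ (extChartAt I x).source) (ha : CAt I n a y) :
    ContDiffAt ℝ n (rp I x a) (extChartAt I x y) := by
  rw [← cAt_model]
  refine CAt.pm hn (contMDiffAt_chart_symm ((extChartAt I x).map_source hx)) ?_
  rwa [(extChartAt I x).left_inv hx]

theorem rp_dM (hn : n ≠ 0) {u : E} (hu : u ∈ (extChartAt I x).target)
    (ha : CAt I n a ((extChartAt I x).symm u)) : rp I x (dM I a) u = F.d (rp I x a) u := by
  rw [← dM_model]
  exact (dM_pm hn (contMDiffAt_chart_symm hu) ha).symm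

theorem CAt.eventually (hn : n < ∞) (ha : CAt I n a x) : ∀ᶠ y in 𝓝 x, CAt I n a y := by
  have h1 : ∀ᶠ u in 𝓝 (extChartAt I x x), ContDiffAt ℝ n (rp I x a) u :=
    ContDiffAt.eventually ha (by rintro rfl; exact lt_irrefl _ hn)
  filter_upwards [(continuousAt_extChartAt (I := I) x).eventually h1,
    extChartAt_source_mem_nhds (I := I) x] with y h2 h3
  exact cAt_of_chart hn.le h3 h2

theorem rp_dM_nhds (ha : CAt I 1 a x) :
    rp I x (dM I a) =ᶠ[𝓝 (extChartAt I x x)] F.d (rp I x a) := by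
  filter_upwards [(tendsto_chart_symm (I := I) x).eventually (ha.eventually (by norm_cast)),
    (isOpen_extChartAt_target x).mem_nhds (mem_extChartAt_target (I := I) x)] with u h1 h2
  exact rp_dM one_ne_zero h2 h1

theorem CAt.dM {m : WithTop ℕ∞} (ha : CAt I n a x) (h : m + 1 ≤ n) : CAt I m (dM I a) x :=
  (contDiffAt_d ha h).congr_of_eventuallyEq (rp_dM_nhds (ha.of_le (le_add_self.trans h)))

theorem SmAt.dM (ha : SmAt I a x) : SmAt I (dM I a) x := CAt.dM ha le_rfl

/-- **`d d = 0`** -/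
theorem dM_dM (ha : CAt I 2 a x) : dM I (dM I a) x = 0 := by
  rw [dM, d_congr (rp_dM_nhds (ha.of_le one_le_two))]
  exact d_d ha

theorem SmAt.dd (ha : SmAt I a x) : Dr59.dM I (Dr59.dM I a) x = 0 :=
  dM_dM (ha.of_le (by norm_cast))

theorem cAt_zero : CAt I n (0 : M → Ext E) x := by
  rw [CAt, rp, pm_zero]
  exact contDiffAt_const

theorem CAt.add (ha : CAt I n a x) (hb : CAt I n b x) : CAt I n (a + b) x := by
  rw [CAt, rp, pm_add]
  exact ContDiffAt.add ha hb

theorem CAt.sub (ha : CAt I n a x) (hb : CAt I n b x) : CAt I n (a - b) x := by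
  rw [CAt, rp, pm_sub]
  exact ContDiffAt.sub ha hb

theorem CAt.neg (ha : CAt I n a x) : CAt I n (-a) x := by
  rw [CAt, rp, pm_neg]
  exact ContDiffAt.neg ha

theorem CAt.smul (r : ℝ) (ha : CAt I n a x) : CAt I n (r • a) x := by
  rw [CAt, rp, pm_smul]
  exact ContDiffAt.const_smul r ha

theorem CAt.mul (ha : CAt I n a x) (hb : CAt I n b x) : CAt I n (a * b) x := by
  rw [CAt, rp, pm_mul]
  exact contDiffAt_mul ha hb

theorem CAt.inv (ha : CAt I n a x) : CAt I n (fun y => F.inv (a y)) x := by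
  rw [CAt, rp, pm_inv]
  exact (invL (E := E)).contDiff.contDiffAt.comp _ ha

theorem cAt_sum {ι : Type*} {s : Finset ι} {c : ι → M → Ext E} (h : ∀ i ∈ s, CAt I n (c i) x) :
    CAt I n (∑ i ∈ s, c i) x := by
  rw [CAt, rp, pm_sum, Finset.sum_fn]
  exact ContDiffAt.sum h

theorem contDiffAt_fun_chart (hn : n ≤ ∞) {g : M → ℝ} (hg : ContMDiffAt I 𝓘(ℝ, ℝ) n g x) :
    ContDiffAt ℝ n (g ∘ (extChartAt I x).symm) (extChartAt I x x) := by
  have h := contDiffAt_written hn hg (mem_extChartAt_source (g x))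
  rwa [extChartAt_model_space_eq_id] at h

theorem CAt.fsmul (hn : n ≤ ∞) {g : M → ℝ} (hg : ContMDiffAt I 𝓘(ℝ, ℝ) n g x) (ha : CAt I n a x) :
    CAt I n (g • a) x := by
  rw [CAt, rp, pm_fsmul]
  exact (contDiffAt_fun_chart hn hg).smul ha

theorem cAt_one : CAt I n (1 : M → Ext E) x := by
  have h : rp I x (1 : M → Ext E) = fun _ => 1 := funext fun _ => map_one _
  rw [CAt, h]
  exact contDiffAt_const

theorem cAt_fn (hn : n ≤ ∞) {g : M → ℝ} (hg : ContMDiffAt I 𝓘(ℝ, ℝ) n g x) :
    CAt I n (fn E g) x := by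
  rw [← mul_one (fn E g), fn_mul]
  exact cAt_one.fsmul hn hg

@[simp] theorem dM_zero : dM I (0 : M → Ext E) = 0 := by
  funext x
  rw [dM, rp, pm_zero]
  exact d_const 0 _

theorem dM_one : dM I (1 : M → Ext E) = 0 := by
  funext x
  have h : rp I x (1 : M → Ext E) = fun _ => 1 := funext fun _ => map_one _
  rw [dM, h]
  exact d_const 1 _

theorem dM_add (hn : n ≠ 0) (ha : CAt I n a x) (hb : CAt I n b x) :
    dM I (a + b) x = dM I a x + dM I b x := by
  rw [dM, rp, pm_add]
  exact d_add (ha.diff hn) (hb.diff hn)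

theorem dM_sub (hn : n ≠ 0) (ha : CAt I n a x) (hb : CAt I n b x) :
    dM I (a - b) x = dM I a x - dM I b x := by
  rw [dM, rp, pm_sub]
  exact d_sub (ha.diff hn) (hb.diff hn)

theorem dM_neg (a : M → Ext E) : dM I (-a) = -dM I a := by
  funext x
  rw [dM, rp, pm_neg]
  exact d_neg

theorem dM_smul (hn : n ≠ 0) (r : ℝ) (ha : CAt I n a x) : dM I (r • a) x = r • dM I a x := by
  rw [dM, rp, pm_smul]
  exact d_const_smul r (ha.diff hn)

theorem dM_sum (hn : n ≠ 0) {ι : Type*} {s : Finset ι} {c : ι → M → Ext E}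
    (h : ∀ i ∈ s, CAt I n (c i) x) : dM I (∑ i ∈ s, c i) x = ∑ i ∈ s, dM I (c i) x := by
  rw [dM, rp, pm_sum, Finset.sum_fn]
  exact d_sum s fun i hi => (h i hi).diff hn

/-- **Leibniz rule** -/
theorem dM_mul (hn : n ≠ 0) (ha : CAt I n a x) (hb : CAt I n b x) :
    dM I (a * b) x = dM I a x * b x + F.inv (a x) * dM I b x := by
  rw [dM, rp, pm_mul, ← rp_self (I := I) x a, ← rp_self (I := I) x b]
  exact d_mul (ha.diff hn) (hb.diff hn)

variable (I) in
/-- the differential of a function, as a form of degree one -/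
def df (g : M → ℝ) (x : M) : Ext E := io (mf I 𝓘(ℝ, ℝ) g x : E →ₗ[ℝ] ℝ)

theorem dM_fsmul (hn : n ≠ 0) {g : M → ℝ} (hg : MDifferentiableAt I 𝓘(ℝ, ℝ) g x)
    (ha : CAt I n a x) : dM I (g • a) x = df I g x * a x + g x • dM I a x := by
  have c1 := (contMDiffAt_chart_symm (mem_extChartAt_target (I := I) x)).mdifferentiableAt (by simp)
  have c2 : MDifferentiableAt I 𝓘(ℝ, ℝ) g ((extChartAt I x).symm (extChartAt I x x)) := by
    rwa [extChartAt_to_inv]
  have c3 := (c2.comp _ c1).differentiableAt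
  have h := d_smul c3 (ha.diff hn)
  rw [← mf_eq_fderiv, mf_comp c2 c1, mf_chart_symm_self, rp_self, comp_apply,
    extChartAt_to_inv] at h
  rw [dM, rp, pm_fsmul]
  exact h

theorem dM_fn {g : M → ℝ} (hg : MDifferentiableAt I 𝓘(ℝ, ℝ) g x) : dM I (fn E g) x = df I g x := by
  rw [← mul_one (fn E g), fn_mul, dM_fsmul one_ne_zero hg cAt_one, dM_one]
  simp

theorem smAt_df {g : M → ℝ} (hg : ContMDiffAt I 𝓘(ℝ, ℝ) ∞ g x) : SmAt I (df I g) x := by
  refine (SmAt.dM (cAt_fn le_rfl hg)).congr ?_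
  filter_upwards [(contMDiffAt_iff_contMDiffAt_nhds (n := 1) (by simp)).1 (hg.of_le (by simp))]
    with y hy
  exact (dM_fn (hy.mdifferentiableAt one_ne_zero)).symm

theorem dM_df {g : M → ℝ} (hg : ContMDiffAt I 𝓘(ℝ, ℝ) ∞ g x) : dM I (df I g) x = 0 := by
  rw [← SmAt.dd (cAt_fn le_rfl hg)]
  refine dM_congr ?_
  filter_upwards [(contMDiffAt_iff_contMDiffAt_nhds (n := 1) (by simp)).1 (hg.of_le (by simp))]
    with y hy
  exact (dM_fn (hy.mdifferentiableAt one_ne_zero)).symm

theorem pm_df {f : N → M} {y : N} (hf : MDifferentiableAt J I f y) {g : M → ℝ}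
    (hg : MDifferentiableAt I 𝓘(ℝ, ℝ) g (f y)) : pm J I f (df I g) y = df J (g ∘ f) y := by
  rw [pm_apply, df, df, pb_io, mf_comp hg hf]
  rfl

theorem df_eq_zero {g : M → ℝ} {c : ℝ} (h : g =ᶠ[𝓝 x] fun _ => c) : df I g x = 0 := by
  rw [df, mf_congr h, mf_const]
  exact map_zero _

end calc'

end Crest.Agent.X212.Dr59
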