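import Crest.Agent.X212.Dr59.Lat

/-!
# X212 / Dr59, part 10 (helper59): cohomological equivalences and two-handles

* `Rk Y n` (dimension at most `n`), `Kb k h n`, `Cb k h n` (kernel and cokernel of a restriction);
* `Eqv I U W` (the restriction is bijective in all degrees): `trans`, `union` (excision), `pd`, `eqv_fib`;
* `Acy`, `Circ`, `Hd I W U n` (`U` comes from `W` by `n` two-handles): `trans`, `exc`, `pd`, `hn`, `kb`, `bd`.
-/

set_option autoImplicit false
set_option linter.unusedSectionVars false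
set_option linter.style.haveILetI false

open Set Filter Topology Function Module
open scoped ContDiff Manifold
open Crest.Agent.R208 Crest.Agent.R208.F Crest.Agent.R208.FI

noncomputable section

namespace Crest.Agent.X212.Dr59

section alg

variable {A B C : Type*} [AddCommGroup A] [Module ℝ A] [AddCommGroup B] [Module ℝ B] [AddCommGroup C]
  [Module ℝ C] {p q : ℕ}

variable (A) in
/-- dimension at most `n` -/
def Rk (n : ℕ) : Prop := Module.rank ℝ A ≤ n

theorem Rk.finite (h : Rk A p) : Module.Finite ℝ A :=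
  Module.rank_lt_aleph0_iff.1 (lt_of_le_of_lt h (Cardinal.natCast_lt_aleph0))

theorem Rk.finrank_le (h : Rk A p) : finrank ℝ A ≤ p := Module.finrank_le_of_rank_le h

theorem rk_of_finrank [Module.Finite ℝ A] (h : finrank ℝ A ≤ p) : Rk A p := by
  rw [Rk, ← Module.finrank_eq_rank]
  exact_mod_cast h

theorem Rk.mono (h : Rk A p) (k : p ≤ q) : Rk A q := le_trans h (by exact_mod_cast k)

theorem rk_zero : Rk A 0 ↔ ∀ x : A, x = 0 := by
  rw [Rk, Nat.cast_zero, nonpos_iff_eq_zero, rank_zero_iff_forall_zero]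

theorem Rk.of_ker (f : A →ₗ[ℝ] B) (g : B →ₗ[ℝ] C) (h : ∀ y, g y = 0 → ∃ x, f x = y) (ha : Rk A p)
    (hc : Rk C q) : Rk B (p + q) :=
  haveI := ha.finite
  haveI := hc.finite
  let ⟨_, k⟩ := finrank_le_of_ker f g h
  rk_of_finrank (k.trans (add_le_add ha.finrank_le hc.finrank_le))

theorem Rk.of_inj (h : Rk B p) (f : A →ₗ[ℝ] B) (hf : Injective f) : Rk A p := by
  simpa using Rk.of_ker (0 : PUnit →ₗ[ℝ] A) f (fun y e => ⟨0, hf (by simp [e])⟩)
    (rk_zero.2 fun _ => rfl) h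

theorem Rk.of_surj (h : Rk A p) (f : A →ₗ[ℝ] B) (hf : Surjective f) : Rk B p :=
  Rk.of_ker f (0 : B →ₗ[ℝ] PUnit) (fun y _ => hf y) h (rk_zero.2 fun _ => rfl)

theorem Rk.ker_comp {f : A →ₗ[ℝ] B} {g : B →ₗ[ℝ] C} (hf : Rk (LinearMap.ker f) p)
    (hg : Rk (LinearMap.ker g) q) : Rk (LinearMap.ker (g ∘ₗ f)) (p + q) :=
  Rk.of_ker (Submodule.inclusion (LinearMap.ker_le_ker_comp f g))
    (f.restrict (p := LinearMap.ker (g ∘ₗ f)) (q := LinearMap.ker g) fun _ h => h)
    (fun y e => ⟨⟨y, congrArg Subtype.val e⟩, rfl⟩) hf hg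

theorem Rk.coker_comp {f : A →ₗ[ℝ] B} {g : B →ₗ[ℝ] C} (hf : Rk (B ⧸ LinearMap.range f) p)
    (hg : Rk (C ⧸ LinearMap.range g) q) : Rk (C ⧸ LinearMap.range (g ∘ₗ f)) (p + q) :=
  Rk.of_ker ((LinearMap.range f).mapQ _ g (by rintro _ ⟨x, rfl⟩; exact ⟨x, rfl⟩))
    ((LinearMap.range (g ∘ₗ f)).mapQ (LinearMap.range g) LinearMap.id (LinearMap.range_comp_le_range f g))
    (fun y e => by
      obtain ⟨y, rfl⟩ := Submodule.mkQ_surjective _ y
      obtain ⟨x, rfl⟩ := (Submodule.Quotient.mk_eq_zero _).1 e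
      exact ⟨Submodule.Quotient.mk x, rfl⟩) hf hg

theorem rk_ker_zero {f : A →ₗ[ℝ] B} (h : Injective f) : Rk (LinearMap.ker f) 0 :=
  rk_zero.2 fun x => Subtype.ext (h (x.2.trans (map_zero f).symm))

theorem rk_coker_zero {f : A →ₗ[ℝ] B} (h : Surjective f) : Rk (B ⧸ LinearMap.range f) 0 :=
  rk_zero.2 fun x => by
    obtain ⟨y, rfl⟩ := Submodule.mkQ_surjective _ x
    exact (Submodule.Quotient.mk_eq_zero _).2 (h y)

theorem Rk.surj_of_ne (h : Rk B 1) {f : A →ₗ[ℝ] B} {x : A} (hx : f x ≠ 0) : Surjective f := fun y => by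
  haveI := h.finite
  obtain ⟨c, hc⟩ := (finrank_le_one_iff.1 h.finrank_le)
  obtain ⟨s, hs⟩ := hc y
  obtain ⟨t, ht⟩ := hc (f x)
  have : t ≠ 0 := by rintro rfl; exact hx (by rw [← ht, zero_smul])
  exact ⟨(s / t) • x, by rw [map_smul, ← ht, smul_smul, div_mul_cancel₀ _ this, hs]⟩

end alg

variable {E : Type*} [NormedAddCommGroup E] [NormedSpace ℝ E] [FiniteDimensional ℝ E]
  {H : Type*} [TopologicalSpace H] {I : ModelWithCorners ℝ E H}
  {M : Type*} [TopologicalSpace M] [ChartedSpace H M] [I.Boundaryless] [IsManifold I ∞ M]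
  {E' : Type*} [NormedAddCommGroup E'] [NormedSpace ℝ E'] [FiniteDimensional ℝ E']
  {H' : Type*} [TopologicalSpace H'] {J : ModelWithCorners ℝ E' H'}
  {N : Type*} [TopologicalSpace N] [ChartedSpace H' N] [J.Boundaryless] [IsManifold J ∞ N]
  {k n m p q : ℕ} {U V W P : Set M}

theorem res_comp (h : V ⊆ U) (h' : W ⊆ V) :
    res (I := I) (k := k) (h'.trans h) = res h' ∘ₗ res h := LinearMap.ext fun x => (res_res h h' x).symm

variable (I) in
/-- the kernel of the restriction has dimension at most `n` -/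
def Kb (k : ℕ) (h : W ⊆ U) (n : ℕ) : Prop := Rk (LinearMap.ker (res (I := I) (k := k) h)) n

variable (I) in
/-- the cokernel of the restriction has dimension at most `n` -/
def Cb (k : ℕ) (h : W ⊆ U) (n : ℕ) : Prop := Rk (HR I k W ⧸ LinearMap.range (res (I := I) (k := k) h)) n

theorem Kb.trans {h : V ⊆ U} {h' : W ⊆ V} (a : Kb I k h p) (b : Kb I k h' q) : Kb I k (h'.trans h) (p + q) := by
  rw [Kb, res_comp h h']
  exact a.ker_comp b

theorem Cb.trans {h : V ⊆ U} {h' : W ⊆ V} (a : Cb I k h p) (b : Cb I k h' q) : Cb I k (h'.trans h) (p + q) := by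
  rw [Cb, res_comp h h']
  exact a.coker_comp b

theorem Kb.bd {h : W ⊆ U} (a : Kb I k h p) (b : Bd I k W n) : Bd I k U (p + n) :=
  Rk.of_ker (LinearMap.ker (res h)).subtype (res h) (fun y e => ⟨⟨y, e⟩, rfl⟩) a b

theorem Cb.bd {h : W ⊆ U} (a : Cb I k h p) (b : Bd I k U n) : Bd I k W (n + p) :=
  Rk.of_ker (res h) (LinearMap.range (res h)).mkQ (fun _ e => (Submodule.Quotient.mk_eq_zero _).1 e) b a

/-- a larger target only decreases the kernel -/
theorem Kb.of_le {h : V ⊆ U} {h' : W ⊆ V} (a : Kb I k (h'.trans h) p) : Kb I k h p :=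
  Rk.of_inj a (Submodule.inclusion fun x (e : res h x = 0) => (res_res h h' x).symm.trans (by rw [e, map_zero]))
    (Submodule.inclusion_injective _)

/-! ### equivalences -/

variable (I) in
/-- the restriction from `U` to `W` is bijective in all degrees -/
structure Eqv (U W : Set M) : Prop where
  sub : W ⊆ U
  bij : ∀ k, Bijective (res (I := I) (k := k) sub)

theorem Eqv.refl (U : Set M) : Eqv I U U :=
  ⟨Subset.rfl, fun _ => ⟨fun x y e => by rwa [res_self, res_self] at e, fun x => ⟨x, res_self x⟩⟩⟩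

theorem Eqv.trans (h : Eqv I U V) (h' : Eqv I V W) : Eqv I U W :=
  ⟨h'.sub.trans h.sub, fun k => by rw [res_comp h.sub h'.sub]; exact (h'.bij k).comp (h.bij k)⟩

theorem Eqv.left (h : Eqv I U W) (h' : Eqv I V W) (s : V ⊆ U) : Eqv I U V :=
  ⟨s, fun k => (Bijective.of_comp_iff' (h'.bij k) _).1 (by
    have := h.bij k
    rwa [res_comp s h'.sub] at this)⟩

theorem Eqv.right (h : Eqv I U W) (h' : Eqv I U V) (s : W ⊆ V) : Eqv I V W :=
  ⟨s, fun k => (Bijective.of_comp_iff _ (h'.bij k)).1 (by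
    have := h.bij k
    rwa [res_comp h'.sub s] at this)⟩

theorem Eqv.bd (h : Eqv I U W) : Bd I k U n ↔ Bd I k W n :=
  ⟨fun a => a.of_surj _ (h.bij k).2, fun a => a.of_inj _ (h.bij k).1⟩

theorem Eqv.hz (h : Eqv I U W) : HZ I k U ↔ HZ I k W := by rw [← bd_zero, ← bd_zero, h.bd]

theorem Eqv.finrank (h : Eqv I U W) : finrank ℝ (HR I k U) = finrank ℝ (HR I k W) :=
  (LinearEquiv.ofBijective _ (h.bij k)).finrank_eq

/-- maps that induce bijections on both sides -/
theorem eqv_iff_of_st {S R : Set N} {f : N → M} (hf : Mp J I S U f) (hg : Mp J I R W f) (h : W ⊆ U)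
    (h' : R ⊆ S) (a : ∀ k, Bijective (hf.st k)) (b : ∀ k, Bijective (hg.st k)) : Eqv I U W ↔ Eqv J S R := by
  have e : ∀ k, hg.st k ∘ res h = res h' ∘ hf.st k := fun k => funext fun x =>
    (hg.st_res h x).trans (hf.res_st h' x).symm
  exact ⟨fun c => ⟨h', fun k => (Bijective.of_comp_iff _ (a k)).1 (e k ▸ (b k).comp (c.bij k))⟩,
    fun c => ⟨h, fun k => (Bijective.of_comp_iff' (b k) _).1 (e k ▸ (c.bij k).comp (a k))⟩⟩

theorem Eqv.pd (φ : PartialDiffeomorph J I N M ∞) {S R : Set N} (h : Eqv J S R) (hS : IsOpen S)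
    (hR : IsOpen R) (s : S ⊆ φ.source) : Eqv I (φ '' S) (φ '' R) :=
  (eqv_iff_of_st (pd_mp φ s) (pd_mp φ (h.sub.trans s)) (image_mono h.sub) h.sub
    (fun _ => pd_st_bij φ hS s) fun _ => pd_st_bij φ hR (h.sub.trans s)).2 h

/-- a deformation of the pair -/
theorem eqv_of_ht (hU : IsOpen U) (hW : IsOpen W) (s : W ⊆ U) {G : M × ℝ → M} (h : Ht I I U U G)
    (h' : ∀ x ∈ W, ∀ t ∈ Icc (0 : ℝ) 1, G (x, t) ∈ W) (e0 : ∀ x ∈ U, G (x, 0) ∈ W)
    (e1 : ∀ x ∈ U, G (x, 1) = x) : Eqv I U W := by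
  have g : Mp I I U W fun x => G (x, 0) := ⟨(h.mp (left_mem_Icc.2 zero_le_one)).sm, e0⟩
  refine ⟨s, fun k => ?_⟩
  rw [show ⇑(res s) = (Mp.id s : Mp I I W U _).st k from funext fun x => (Mp.st_id s x).symm]
  exact ⟨st_inj_of_ht hU (Mp.id s) g h (fun _ _ => rfl) e1, RightInverse.surjective (st_st_of_ht hW g (Mp.id s)
    ⟨fun y hy => h.sm y (s hy), h'⟩ (fun _ _ => rfl) fun x hx => e1 x (s hx))⟩

/-- sets with star shaped fibres -/
theorem eqv_fib {S R : Set (M × E')} (hS : IsOpen S) (hR : IsOpen R) (s : R ⊆ S) {c : E'}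
    (h0 : ∀ z ∈ S, (z.1, c) ∈ R) (h1 : ∀ x, StarConvex ℝ c {y | (x, y) ∈ S})
    (h2 : ∀ x, StarConvex ℝ c {y | (x, y) ∈ R}) : Eqv (I.prod 𝓘(ℝ, E')) S R :=
  eqv_of_ht hS hR s (G := fun p => (p.1.1, (1 - p.2) • c + p.2 • p.1.2))
    ⟨fun _ _ _ _ => contMDiffAt_fst.fst.prodMk
      ((contMDiff_seg c _).comp _ (contMDiffAt_fst.snd.prodMk contMDiffAt_snd)),
      fun z hz _ ht => seg_mem (h1 z.1) hz ht⟩ (fun z hz _ ht => seg_mem (h2 z.1) hz ht)
    (fun z hz => by simpa using h0 z hz) fun _ _ => by simp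

variable [T2Space M] [SigmaCompactSpace M]

theorem res_inj_union (hU : IsOpen U) (hV : IsOpen V)
    (h : Injective (res (I := I) (k := k) (inter_subset_right : U ∩ V ⊆ V)))
    (h' : ∀ j, j + 1 = k → Sj I j U V) : Injective (res (I := I) (k := k) (subset_union_left : U ⊆ U ∪ V)) := by
  refine (injective_iff_map_eq_zero _).2 fun x hx => ?_
  have h2 : res (subset_union_right : V ⊆ U ∪ V) x = 0 := h (by
    rw [res_res, ← res_res subset_union_left inter_subset_left, hx, map_zero, map_zero])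
  cases k with
  | zero =>
    obtain ⟨a, ha, rfl⟩ := exists_cls x
    exact cls_eq_zero.2 (ex_of_zero fun y hy => hy.elim
      ((cls_eq_zero.1 hx).deg0 (ha.dg.mono subset_union_left))
      ((cls_eq_zero.1 h2).deg0 (ha.dg.mono subset_union_right)))
  | succ j => exact res_inj hU hV (h' j rfl) hx h2

theorem res_surj_union (hU : IsOpen U) (hV : IsOpen V)
    (h : Surjective (res (I := I) (k := k) (inter_subset_right : U ∩ V ⊆ V))) :
    Surjective (res (I := I) (k := k) (subset_union_left : U ⊆ U ∪ V)) := fun y => by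
  obtain ⟨χ, hχ⟩ := exists_cut (I := I) hU hV
  obtain ⟨z, hz⟩ := h (res inter_subset_left y)
  obtain ⟨x, hx, -⟩ := mv_mid hU hV hχ hz.symm
  exact ⟨x, hx⟩

/-- **excision** -/
theorem Eqv.union (hU : IsOpen U) (hV : IsOpen V) (h : Eqv I V (U ∩ V)) : Eqv I (U ∪ V) U :=
  ⟨subset_union_left, fun k => ⟨res_inj_union hU hV (h.bij k).1 fun j _ => sj_right (h.bij j).2,
    res_surj_union hU hV (h.bij k).2⟩⟩

theorem Eqv.exc (h : Eqv I U W) (hU : IsOpen U) (hW : IsOpen W) (hP : IsOpen P) (s : P ∩ U ⊆ W) :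
    Eqv I (P ∪ U) (P ∪ W) := by
  have e : (P ∪ W) ∩ U = W := Subset.antisymm (fun _ k => k.1.elim (fun l => s ⟨l, k.2⟩) id)
    fun _ k => ⟨Or.inr k, h.sub k⟩
  have := Eqv.union (hP.union hW) hU (e.symm ▸ h)
  rwa [union_assoc, union_eq_self_of_subset_left h.sub] at this

/-! ### two-handles -/

variable (I) in
/-- sets with the cohomology of a point -/
structure Acy (V : Set M) : Prop where
  op : IsOpen V
  cn : IsPreconnected V
  hz : ∀ k, HZ I (k + 1) V

variable (I) in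
/-- sets with at most the cohomology of a circle -/
structure Circ (S : Set M) : Prop where
  cn : IsConnected S
  bd : Bd I 1 S 1
  hz : ∀ k, HZ I (k + 2) S

theorem Acy.pd (φ : PartialDiffeomorph J I N M ∞) {S : Set N} (h : Acy J S) (s : S ⊆ φ.source) :
    Acy I (φ '' S) :=
  ⟨pd_open φ h.op s, h.cn.image _ (φ.contMDiffOn_toFun.continuousOn.mono s), fun k => (hz_pd φ h.op s).2 (h.hz k)⟩

theorem Circ.pd (φ : PartialDiffeomorph J I N M ∞) {S : Set N} (h : Circ J S) (hS : IsOpen S)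
    (s : S ⊆ φ.source) : Circ I (φ '' S) :=
  ⟨h.cn.image _ (φ.contMDiffOn_toFun.continuousOn.mono s), (bd_pd φ hS s).2 h.bd,
    fun k => (hz_pd φ hS s).2 (h.hz k)⟩

theorem acy_star {s : Set E} (hs : IsOpen s) {c : E} (hc : c ∈ s) (h : StarConvex ℝ c s) : Acy 𝓘(ℝ, E) s :=
  ⟨hs, (h.isPathConnected hc).isConnected.isPreconnected, fun _ => hz_star hs hc h⟩

variable (I) in
/-- relative cohomology in degree two only -/
structure Hn (U W : Set M) (p q : ℕ) : Prop where
  sub : W ⊆ U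
  inj : ∀ k, k ≠ 2 → Injective (res (I := I) (k := k) sub)
  surj : ∀ k, k ≠ 1 → Surjective (res (I := I) (k := k) sub)
  kb : Kb I 2 sub p
  cb : Cb I 1 sub q

theorem Eqv.hn (h : Eqv I U W) : Hn I U W 0 0 :=
  ⟨h.sub, fun k _ => (h.bij k).1, fun k _ => (h.bij k).2, rk_ker_zero (h.bij 2).1, rk_coker_zero (h.bij 1).2⟩

theorem Hn.trans {p' q' : ℕ} (h : Hn I U V p q) (h' : Hn I V W p' q') : Hn I U W (p + p') (q + q') :=
  ⟨h'.sub.trans h.sub, fun k e => by rw [res_comp h.sub h'.sub]; exact (h'.inj k e).comp (h.inj k e),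
    fun k e => by rw [res_comp h.sub h'.sub]; exact (h'.surj k e).comp (h.surj k e), h.kb.trans h'.kb,
    h.cb.trans h'.cb⟩

theorem res0_inj (hV : IsOpen V) (hc : IsPreconnected V) (h : W ⊆ V) (hW : W.Nonempty) :
    Injective (res (I := I) (k := 0) h) := by
  refine (injective_iff_map_eq_zero _).2 fun x hx => ?_
  obtain ⟨a, ha, rfl⟩ := exists_cls x
  obtain ⟨r, hr⟩ := ha.const_of_preconnected hV hc
  obtain ⟨y, hy⟩ := hW
  exact cls_eq_zero.2 (ex_of_zero fun z hz => by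
    rw [hr z hz, ← hr y (h hy)]
    exact (cls_eq_zero.1 hx).deg0 (ha.dg.mono h) hy)

theorem hn_two (hU : IsOpen U) (hV : Acy I V) (h : Circ I (U ∩ V)) :
    Hn I (U ∪ V) U 1 0 ∨ Hn I (U ∪ V) U 0 1 := by
  obtain ⟨χ, hχ⟩ := exists_cut (I := I) hU hV.op
  have s0 := res0_surj (I := I) (hU.inter hV.op) h.cn.isPreconnected (inter_subset_right : U ∩ V ⊆ V)
  have i : ∀ k, Injective (res (I := I) (k := k + 1) (inter_subset_right : U ∩ V ⊆ V)) :=
    fun k x y _ => by rw [(hV.hz k).eq x, (hV.hz k).eq y]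
  have a : ∀ k, k ≠ 2 → Injective (res (I := I) (k := k) (subset_union_left : U ⊆ U ∪ V))
    | 0, _ => res_inj_union hU hV.op (res0_inj hV.op hV.cn _ h.cn.nonempty) fun _ e => absurd e (by simp)
    | 1, _ => res_inj_union hU hV.op (i 0) fun j e => by
      obtain rfl : j = 0 := by omega
      exact sj_right s0
    | k + 3, _ => res_inj_union hU hV.op (i _) fun j e => by
      obtain rfl : j = k + 2 := by omega
      exact (h.hz k).sj
  have b : ∀ k, k ≠ 1 → Surjective (res (I := I) (k := k) (subset_union_left : U ⊆ U ∪ V))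
    | 0, _ => res_surj_union hU hV.op s0
    | k + 2, _ => res_surj hU hV.op (h.hz k)
  have m : ∀ y : HR I 1 U, res (inter_subset_left : U ∩ V ⊆ U) y = 0 →
      ∃ x, res (subset_union_left : U ⊆ U ∪ V) x = y := fun y e =>
    (mv_mid hU hV.op hχ (z := 0) (e.trans (map_zero _).symm)).imp fun _ => And.left
  by_cases e : ∀ y : HR I 1 U, res (inter_subset_left : U ∩ V ⊆ U) y = 0
  · refine Or.inl ⟨_, a, b, Rk.of_surj h.bd ((hχ.dl 1).codRestrict _ (res_dl_left hχ)) fun x => ?_,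
      rk_coker_zero fun y => m y (e y)⟩
    obtain ⟨y, hy⟩ := mv_ker hU hV.op hχ x.2 ((hV.hz 1).eq _)
    exact ⟨y, Subtype.ext hy⟩
  · obtain ⟨y, hy⟩ := not_forall.1 e
    refine Or.inr ⟨_, a, b, rk_ker_zero (res_inj_union hU hV.op (i 1) fun j e => ?_), Rk.of_inj h.bd
      ((LinearMap.range _).liftQ (res inter_subset_left) ?_) ?_⟩
    · obtain rfl : j = 1 := by omega
      intro z
      obtain ⟨w, rfl⟩ := Rk.surj_of_ne h.bd hy z
      exact ⟨w, 0, by rw [map_zero, sub_zero]⟩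
    · rintro _ ⟨x, rfl⟩
      rw [LinearMap.mem_ker, res_res, ← res_res subset_union_right inter_subset_right, (hV.hz 0).eq (res _ x),
        map_zero]
    · rw [← LinearMap.ker_eq_bot]
      exact Submodule.ker_liftQ_eq_bot _ _ _ m

variable (I) in
/-- `U` is obtained from `W` by `n` two-handles -/
inductive Hd (W : Set M) : Set M → ℕ → Prop
  | refl : IsOpen W → Hd W W 0
  | eqv {U V : Set M} {n : ℕ} : Hd W U n → IsOpen V → Eqv I V U → Hd W V n
  | two {U V : Set M} {n : ℕ} : Hd W U n → Acy I V → Circ I (U ∩ V) → Hd W (U ∪ V) (n + 1)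

namespace Hd

theorem op (h : Hd I W U n) : IsOpen U := by
  induction h with
  | refl h => exact h
  | eqv _ h _ _ => exact h
  | two _ h _ ih => exact ih.union h.op

theorem op' (h : Hd I W U n) : IsOpen W := by
  induction h <;> assumption

theorem hn (h : Hd I W U n) : ∃ p q, p + q = n ∧ Hn I U W p q := by
  induction h with
  | refl => exact ⟨0, 0, rfl, (Eqv.refl _).hn⟩
  | eqv _ _ h ih =>
    obtain ⟨p, q, e, k⟩ := ih
    exact ⟨0 + p, 0 + q, by omega, h.hn.trans k⟩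
  | two a h h' ih =>
    obtain ⟨p, q, e, k⟩ := ih
    rcases hn_two a.op h h' with l | l
    exacts [⟨_, _, by omega, l.trans k⟩, ⟨_, _, by omega, l.trans k⟩]

theorem sub (h : Hd I W U n) : W ⊆ U := let ⟨_, _, _, k⟩ := h.hn; k.sub

theorem trans (h : Hd I W V n) (h' : Hd I V U m) : Hd I W U (n + m) := by
  induction h' with
  | refl => exact h
  | eqv _ a b ih => exact ih.eqv a b
  | two _ a b ih => exact ih.two a b

theorem of_eqv (h : Eqv I U W) (hU : IsOpen U) (hW : IsOpen W) : Hd I W U 0 := (refl hW).eqv hU h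

/-- **excision** -/
theorem exc (h : Hd I W U n) (hP : IsOpen P) (s : P ∩ U ⊆ W) : Hd I (P ∪ W) (P ∪ U) n := by
  induction h with
  | refl h => exact refl (hP.union h)
  | eqv a b c ih => exact (ih fun x k => s ⟨k.1, c.sub k.2⟩).eqv (hP.union b) (c.exc b a.op hP (s.trans a.sub))
  | @two U V _ a b c ih =>
    rw [← union_assoc]
    refine (ih fun x k => s ⟨k.1, Or.inl k.2⟩).two b ?_
    rwa [union_inter_distrib_right, union_eq_self_of_subset_left (show P ∩ V ⊆ U ∩ V from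
      fun x k => ⟨a.sub (s ⟨k.1, Or.inr k.2⟩), k.2⟩)]

/-- **transport** -/
theorem pd [T2Space N] [SigmaCompactSpace N] (φ : PartialDiffeomorph J I N M ∞) {S R : Set N}
    (h : Hd J R S n) (s : S ⊆ φ.source) : Hd I (φ '' R) (φ '' S) n := by
  induction h with
  | refl h => exact refl (pd_open φ h s)
  | eqv a b c ih => exact (ih (c.sub.trans s)).eqv (pd_open φ b s) (c.pd φ b a.op s)
  | two a b c ih =>
    rw [image_union]
    refine (ih (subset_union_left.trans s)).two (b.pd φ (subset_union_right.trans s)) ?_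
    rw [← φ.injOn.image_inter (subset_union_left.trans s) (subset_union_right.trans s)]
    exact c.pd φ (a.op.inter b.op) ((inter_subset_left.trans subset_union_left).trans s)

theorem kb (h : Hd I W U n) : Kb I 2 h.sub n := let ⟨_, _, e, k⟩ := h.hn; Rk.mono k.kb (by omega)

theorem bd2 (h : Hd I W U n) (b : Bd I 2 W m) : Bd I 2 U (n + m) := h.kb.bd b

theorem bd (h : Hd I W U n) (hk : k ≠ 2) (b : Bd I k W m) : Bd I k U m :=
  let ⟨_, _, _, l⟩ := h.hn; b.of_inj _ (l.inj k hk)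

theorem bd' (h : Hd I W U n) (hk : k ≠ 1) (b : Bd I k U m) : Bd I k W m :=
  let ⟨_, _, _, l⟩ := h.hn; b.of_surj _ (l.surj k hk)

theorem hz (h : Hd I W U n) (hk : k ≠ 2) (b : HZ I k W) : HZ I k U := bd_zero.1 (h.bd hk (bd_zero.2 b))

/-- the Euler characteristic -/
theorem bd2' (h : Hd I W U (n + p)) (b : Bd I 2 W m) (b1 : Bd I 1 U q) (r : q + p ≤ finrank ℝ (HR I 1 W)) :
    Bd I 2 U (n + m) := by
  obtain ⟨p', q', e, l⟩ := h.hn
  have := (l.cb.bd b1).finrank_le
  exact (l.kb.bd b).mono (by omega)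

end Hd

end Crest.Agent.X212.Dr59
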