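import Crest.Agent.X212.Dr59.Frm
import Crest.Agent.X212.Dr59.Rod
import Crest.Agent.X212.Nm96.Defs

/-!
# X212 / Dr59, part NbG (helper59): the algebra of test classes of a word

* `prs`, `od` (pairing with orders, orders of a test), `lr` (real local intersection number), `exists_d`;
* `DG` (orthogonal bases of tests), `dg_slab`, `dg_disc`.
-/

set_option autoImplicit false

open Finset
open Crest.Agent.X212.Rod53 Crest.Agent.X212.Wd38 Crest.Agent.X212.Nm96

noncomputable section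

namespace Crest.Agent.X212.Dr59

/-- the perpendicular character -/
def pp (a : Z2) : ℝ × ℝ := (-a.2, a.1)

/-- the pairing of weights and orders -/
def prs (x y : ℤ) (d n : ℤ → ℝ) : ℝ := ∑ j ∈ Icc x y, d j * n j

/-- the orders of a test -/
def od (a : ℤ → Z2) (x : ℤ) (d : ℤ → ℝ) (j : ℤ) : ℝ := ∑ i ∈ Ico x j, d i * dt (a i) (a j)

/-- the real local intersection number -/
def lr (u v : Z2) (x y x' y' : ℝ) : ℝ :=
  -(dt u v : ℝ) * (x * x' * Nm96.rho v u - (x * y' + x' * y) + y * y' * Nm96.rho u v)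

/-- consistent orders -/
def TRa (a : ℤ → Z2) (x y : ℤ) (n : ℤ → ℝ) : Prop :=
  ∀ c, x < c → c ≤ y → (a (c - 1) = a c → n (c - 1) = n c) ∧ (a (c - 1) = -a c → n (c - 1) = -n c)

/-- the boundary term -/
def kk (m : ℝ × ℝ) (a : Z2) : ℝ := if a.2 = 0 then -m.2 / a.1 else m.1 / a.2

/-- the slopes -/
def pv (a : ℤ → Z2) (j : ℤ) : ℝ := (a j).2

/-- the first coordinates -/
def qv (a : ℤ → Z2) (j : ℤ) : ℝ := (a j).1

/-- the weight of one slot -/
def dl1 (i j : ℤ) : ℝ := if j = i then 1 else 0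

variable {a : ℤ → Z2} {u v z : Z2} {m m' : ℝ × ℝ} {x y X Y j : ℤ} {d d' n n' : ℤ → ℝ}

theorem dr_pp (u v : Z2) : dr (pp u) v = dt u v := by simp [dr, pp, dt]; ring

theorem dr_add (m m' : ℝ × ℝ) (u : Z2) : dr (m + m') u = dr m u + dr m' u := by simp [dr]; ring

theorem dr_smul (s : ℝ) (m : ℝ × ℝ) (u : Z2) : dr (s • m) u = s * dr m u := by simp [dr]; ring

theorem dr_neg (m : ℝ × ℝ) (u : Z2) : dr m (-u) = -dr m u := by simp [dr]; ring

theorem dr_sum {ι : Type*} (s : Finset ι) (f : ι → ℝ × ℝ) (u : Z2) : dr (∑ i ∈ s, f i) u = ∑ i ∈ s, dr (f i) u := by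
  simp only [dr, Prod.fst_sum, Prod.snd_sum, sum_mul, sum_add_distrib]

theorem ne_fst (hu : u ≠ 0) (h : u.2 = 0) : (u.1 : ℝ) ≠ 0 := by exact_mod_cast fun e => hu (Prod.ext e h)

theorem kk_add (hu : u ≠ 0) (m : ℝ × ℝ) (s : ℝ) : kk (m + s • pp u) u = kk m u - s := by
  unfold kk
  split_ifs with h
  · have := ne_fst hu h
    simp only [pp, Prod.snd_add, Prod.smul_snd, smul_eq_mul]
    field_simp
    ring
  · have : (u.2 : ℝ) ≠ 0 := by exact_mod_cast h
    simp only [pp, Prod.fst_add, Prod.smul_fst, smul_eq_mul]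
    field_simp
    ring

theorem kk_neg (m : ℝ × ℝ) (u : Z2) : kk m (-u) = -kk m u := by
  unfold kk
  by_cases h : u.2 = 0 <;> simp [h, div_neg]

theorem exists_pp (hu : u ≠ 0) (h : dr m u = dr m' u) : ∃ s : ℝ, m' = m + s • pp u := by
  unfold dr at h
  by_cases k : u.2 = 0
  · have := ne_fst hu k
    refine ⟨(m'.2 - m.2) / u.1, Prod.ext ?_ ?_⟩ <;> simp [pp, k] at h ⊢
    · exact (h.resolve_right (by exact_mod_cast this)).symm
    · field_simp
      ring
  · have : (u.2 : ℝ) ≠ 0 := by exact_mod_cast k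
    refine ⟨(m.1 - m'.1) / u.2, Prod.ext ?_ ?_⟩ <;> simp [pp] <;> field_simp
    · ring
    · linarith

theorem rho_dr (hu : u ≠ 0) (m : ℝ × ℝ) (v : Z2) : dr m u * Nm96.rho v u - dr m v = dt u v * kk m u := by
  unfold Nm96.rho kk dr dt
  split_ifs with h
  · have := ne_fst hu h
    simp only [h, Int.cast_zero, Int.cast_sub, Int.cast_mul]
    field_simp
    ring
  · have : (u.2 : ℝ) ≠ 0 := by exact_mod_cast h
    push_cast
    field_simp
    ring

theorem lr_dr (hu : u ≠ 0) (hv : v ≠ 0) (m : ℝ × ℝ) (x y : ℝ) :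
    lr u v x y (dr m u) (dr m v) = (dt u v : ℝ) ^ 2 * (kk m v * y - kk m u * x) := by
  have h1 := rho_dr hu m v
  have h2 := rho_dr hv m u
  rw [dt_swap u v, Int.cast_neg] at h2
  unfold lr
  linear_combination (-(dt u v : ℝ) * x) * h1 - (dt u v : ℝ) * y * h2

theorem sq_uni (h : Uni u v) : (dt u v : ℝ) ^ 2 = 1 := by rw [pow_two]; exact_mod_cast h.sq

theorem wd_ne (ha : IsWd a) (j : ℤ) : a j ≠ 0 := let ⟨_, k⟩ := ha.prim j; k.ne_zero

theorem exists_dr (h : Uni u v) (s t : ℝ) : ∃ m, dr m u = s ∧ dr m v = t := by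
  have := sq_uni h
  refine ⟨(dt u v * (s * v.2 - t * u.2), dt u v * (t * u.1 - s * v.1)), ?_, ?_⟩ <;>
    simp only [dr, dt, Int.cast_sub, Int.cast_mul] at *
  · linear_combination s * this
  · linear_combination t * this

theorem lr_step (ha : IsWd a) (h : TRa a x y n) (h1 : x < j) (h2 : j ≤ y) (m : ℝ × ℝ) :
    lr (a (j - 1)) (a j) (n (j - 1)) (n j) (dr m (a (j - 1))) (dr m (a j)) =
      kk m (a j) * n j - kk m (a (j - 1)) * n (j - 1) := by
  rw [lr_dr (wd_ne ha _) (wd_ne ha _)]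
  rcases ha.step j with k | k
  · rw [k.dt_eq]
    rcases k with k | k
    · rw [(h j h1 h2).1 k, k]
      simp
    · rw [(h j h1 h2).2 k, k, kk_neg]
      simp
  · rw [sq_uni k, one_mul]

theorem exists_chr (ha : IsWd a) (h : TRa a x y n) (h1 : x < j) (h2 : j ≤ y) :
    ∃ m, dr m (a (j - 1)) = n (j - 1) ∧ dr m (a j) = n j := by
  rcases ha.step j with k | k
  · obtain ⟨b, hb⟩ := ha.prim j
    obtain ⟨m, e, -⟩ := exists_dr hb (n j) 0
    rcases k with k | k
    · exact ⟨m, by rw [(h j h1 h2).1 k, k, e], e⟩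
    · exact ⟨m, by rw [(h j h1 h2).2 k, k, dr_neg, e], e⟩
  · exact exists_dr k _ _

theorem TRa.mono {x' y' : ℤ} (h : TRa a x y n) (h1 : x ≤ x') (h2 : y' ≤ y) : TRa a x' y' n :=
  fun c k k' => h c (h1.trans_lt k) (k'.trans h2)

/-- **orders come from tests; the sum of the local intersection numbers** -/
theorem exists_d (ha : IsWd a) (hxy : x ≤ y) (h : TRa a x y n') (h0 : dr m (a x) = n' x) (h1 : dr m' (a y) = n' y) :
    ∃ d : ℤ → ℝ, m + ∑ j ∈ Icc x y, d j • pp (a j) = m' ∧ (∀ j ∈ Icc x y, n' j = dr m (a j) + od a x d j) ∧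
      ∀ n, TRa a x y n → ∑ c ∈ Ioc x y, lr (a (c - 1)) (a c) (n (c - 1)) (n c) (n' (c - 1)) (n' c) =
        prs x y d n + kk m' (a y) * n y - kk m (a x) * n x := by
  induction y, hxy using Int.leInduction generalizing m' with
  | base =>
    obtain ⟨s, rfl⟩ := exists_pp (wd_ne ha x) (h0.trans h1.symm)
    refine ⟨fun _ => s, by simp, fun j hj => ?_, fun n _ => ?_⟩
    · obtain rfl : j = x := by simpa using hj
      simp [od, h0]
    · simp [prs, kk_add (wd_ne ha x)]
      ring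
  | succ y hxy ih =>
    obtain ⟨m1, e1, e2⟩ := exists_chr ha h (j := y + 1) (by omega) le_rfl
    rw [add_sub_cancel_right] at e1
    obtain ⟨d, k1, k2, k3⟩ := ih (h.mono le_rfl (by omega)) e1
    obtain ⟨s, rfl⟩ := exists_pp (wd_ne ha _) (e2.trans h1.symm)
    have u : ∀ j, j ≤ y → Function.update d (y + 1) s j = d j := fun j hj => Function.update_of_ne (by omega) _ _
    have hI : Icc x (y + 1) = insert (y + 1) (Icc x y) := by ext; simp; omega
    refine ⟨Function.update d (y + 1) s, ?_, fun j hj => ?_, fun n hn => ?_⟩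
    · rw [hI, sum_insert (by simp), Function.update_self, ← k1,
        sum_congr rfl fun j hj => by rw [u j (mem_Icc.1 hj).2]]
      abel
    · rw [show od a x (Function.update d (y + 1) s) j = od a x d j from
        sum_congr rfl fun i hi => by rw [u i (by have := mem_Ico.1 hi; have := mem_Icc.1 hj; omega)]]
      rcases mem_insert.1 (hI ▸ hj) with rfl | hj
      · rw [← e2, ← k1, dr_add, dr_sum, od, show Ico x (y + 1) = Icc x y by ext; simp]
        simp only [dr_smul, dr_pp]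
      · exact k2 j hj
    · have := lr_step ha hn (j := y + 1) (by omega) le_rfl m1
      rw [add_sub_cancel_right, e1, e2] at this
      rw [← insert_Ioc_right_eq_Ioc_add_one hxy, sum_insert (by simp), k3 n (hn.mono le_rfl (by omega)),
        add_sub_cancel_right, this, prs, prs, hI, sum_insert (by simp), Function.update_self, kk_add (wd_ne ha _),
        show ∑ j ∈ Icc x y, Function.update d (y + 1) s j * n j = ∑ j ∈ Icc x y, d j * n j from
          sum_congr rfl fun j hj => by rw [u j (mem_Icc.1 hj).2]]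
      ring

/-! ### bilinearity -/

theorem prs_add (d d' n : ℤ → ℝ) : prs x y (d + d') n = prs x y d n + prs x y d' n := by
  simp only [prs, Pi.add_apply, add_mul, sum_add_distrib]

theorem prs_smul (s : ℝ) (d n : ℤ → ℝ) : prs x y (s • d) n = s * prs x y d n := by
  simp only [prs, Pi.smul_apply, smul_eq_mul, mul_sum, mul_assoc]

theorem prs_comm (d n : ℤ → ℝ) : prs x y d n = prs x y n d := sum_congr rfl fun _ _ => mul_comm _ _

theorem prs_add' (d n n' : ℤ → ℝ) : prs x y d (n + n') = prs x y d n + prs x y d n' := by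
  simp only [prs, Pi.add_apply, mul_add, sum_add_distrib]

theorem prs_smul' (s : ℝ) (d n : ℤ → ℝ) : prs x y d (s • n) = s * prs x y d n := by
  rw [prs_comm, prs_smul, prs_comm]

theorem prs_congr (h : ∀ j, x ≤ j → j ≤ y → d j ≠ 0 → n j = n' j) : prs x y d n = prs x y d n' :=
  sum_congr rfl fun j hj => (eq_or_ne (d j) 0).elim (fun e => by rw [e, zero_mul, zero_mul])
    fun e => by rw [h j (mem_Icc.1 hj).1 (mem_Icc.1 hj).2 e]

theorem prs_dl (h1 : x ≤ j) (h2 : j ≤ y) (n : ℤ → ℝ) : prs x y (dl1 j) n = n j := by simp [prs, dl1, h1, h2]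

theorem od_add (d d' : ℤ → ℝ) : od a x (d + d') = od a x d + od a x d' := funext fun j => by
  simp only [od, Pi.add_apply, add_mul, sum_add_distrib]

theorem od_smul (s : ℝ) (d : ℤ → ℝ) : od a x (s • d) = s • od a x d := funext fun j => by
  simp only [od, Pi.smul_apply, smul_eq_mul, mul_sum, mul_assoc]

theorem od_dl {i : ℤ} (h : x ≤ i) (j : ℤ) : od a x (dl1 i) j = if i < j then (dt (a i) (a j) : ℝ) else 0 := by
  simp [od, dl1, h]

/-- supported in `[x, y]` -/
def Spt (x y : ℤ) (d : ℤ → ℝ) : Prop := ∀ j, d j ≠ 0 → x ≤ j ∧ j ≤ y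

theorem Spt.od_lo (h : Spt x y d) (hj : j ≤ x) : od a X d j = 0 :=
  sum_eq_zero fun i hi => by
    rw [show d i = 0 from by_contra fun e => by have := h i e; have := mem_Ico.1 hi; omega, zero_mul]

theorem Spt.od_hi (h : Spt x y d) (h1 : y ≤ j) (h2 : j ≤ Y) :
    od a X d j = prs X Y d (qv a) * pv a j - prs X Y d (pv a) * qv a j := by
  rw [od, prs, prs, sum_mul, sum_mul, ← sum_sub_distrib]
  refine (sum_subset (fun i hi => ?_) fun i hi k => ?_).trans (sum_congr rfl fun i _ => ?_)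
  · simp only [mem_Ico, mem_Icc] at hi ⊢
    omega
  · by_cases e : d i = 0
    · rw [e, zero_mul]
    · obtain rfl : i = j := by have := h i e; simp only [mem_Ico, mem_Icc] at hi k; omega
      rw [dt_self, Int.cast_zero, mul_zero]
  · simp only [dt, pv, qv, Int.cast_sub, Int.cast_mul]
    ring

theorem Spt.mono {x' y' : ℤ} (h : Spt x y d) (h1 : x' ≤ x) (h2 : y ≤ y') : Spt x' y' d :=
  fun j e => ⟨h1.trans (h j e).1, (h j e).2.trans h2⟩

theorem Spt.add (h : Spt x y d) (h' : Spt x y d') : Spt x y (d + d') := fun j e =>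
  (eq_or_ne (d j) 0).elim (fun k => h' j (by simpa [k] using e)) (h j)

theorem Spt.smul (s : ℝ) (h : Spt x y d) : Spt x y (s • d) := fun j e => h j (right_ne_zero_of_mul e)

theorem sp_dl (h1 : x ≤ j) (h2 : j ≤ y) : Spt x y (dl1 j) := fun i e => by
  obtain rfl : i = j := by simpa [dl1] using e
  exact ⟨h1, h2⟩

/-! ### orthogonal bases -/

/-- the number of vertices -/
def nvr (a : ℤ → Z2) (x y : ℤ) : ℝ := ∑ c ∈ Ioc x y, (dt (a (c - 1)) (a c) : ℝ) ^ 2

/-- the sum of the local signatures -/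
def sgr (a : ℤ → Z2) (x y : ℤ) : ℝ := ∑ c ∈ Ioc x y, ((nn (a (c - 1)) (a c)).sign : ℝ)

theorem nv_eq (ha : IsWd a) (x y : ℤ) : (nv a x y : ℝ) = nvr a x y := by
  classical
  rw [nv, card_filter, Nat.cast_sum]
  refine sum_congr rfl fun c _ => ?_
  split_ifs with h
  · rw [sq_uni h, Nat.cast_one]
  · rw [((ha.step c).resolve_right h).dt_eq]
    simp

/-- an orthogonal family of tests -/
structure OG (a : ℤ → Z2) (X Y x y : ℤ) {ι : Type} [Fintype ι] [DecidableEq ι] (l : ι → ℤ → ℝ) (g : ι → ℝ) :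
    Prop where
  sp : ∀ i, Spt x y (l i)
  cl : ∀ i, prs X Y (l i) (pv a) = 0
  gram : ∀ i k, prs X Y (l k) (od a X (l i)) = if i = k then g i else 0
  ne : ∀ i, g i ≠ 0

/-- an orthogonal family of `N` tests of signature `s` -/
def DG (a : ℤ → Z2) (X Y x y : ℤ) (N s : ℝ) (P : (ℤ → ℝ) → Prop) : Prop :=
  ∃ (ι : Type) (_ : Fintype ι) (_ : DecidableEq ι) (l : ι → ℤ → ℝ) (g : ι → ℝ), OG a X Y x y l g ∧
    (Fintype.card ι : ℝ) = N ∧ ∑ i, (SignType.sign (g i) : ℝ) = s ∧ ∀ i, P (l i)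

variable {N N' s s' : ℝ} {c : ℤ}

theorem dg_empty : DG a X Y x y 0 0 ⊤ :=
  ⟨Empty, inferInstance, inferInstance, Empty.elim, Empty.elim,
    ⟨(·.elim), (·.elim), (·.elim), (·.elim)⟩, by simp, by simp, (·.elim)⟩

theorem DG.trans (h : DG a X Y x c N s ⊤) (h' : DG a X Y c y N' s' ⊤) (h1 : x ≤ c) (h2 : c ≤ y) :
    DG a X Y x y (N + N') (s + s') ⊤ := by
  obtain ⟨ι, _, _, l, g, k, rfl, rfl, -⟩ := h
  obtain ⟨ι', _, _, l', g', k', rfl, rfl, -⟩ := h'
  refine ⟨ι ⊕ ι', inferInstance, inferInstance, Sum.elim l l', Sum.elim g g', ⟨?_, ?_, ?_, ?_⟩, by simp, by simp,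
    fun _ => trivial⟩
  · rintro (i | i)
    exacts [(k.sp i).mono le_rfl h2, (k'.sp i).mono h1 le_rfl]
  · rintro (i | i)
    exacts [k.cl i, k'.cl i]
  · rintro (i | i) (i' | i')
    · simpa using k.gram i i'
    · rw [if_neg (by simp), Sum.elim_inl, Sum.elim_inr, prs_congr (n' := prs X Y (l i) (qv a) • pv a) fun j _ b e => by
        rw [(k.sp i).od_hi (k'.sp i' j e).1 b, k.cl, zero_mul, sub_zero]; rfl, prs_smul', k'.cl, mul_zero]
    · rw [if_neg (by simp), Sum.elim_inl, Sum.elim_inr, prs_congr (n' := 0) fun j _ _ e =>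
        (k'.sp i).od_lo (k.sp i' j e).2]
      simp [prs]
    · simpa using k'.gram i i'
  · rintro (i | i)
    exacts [k.ne i, k'.ne i]

theorem sign_cast (n : ℤ) : (SignType.sign (n : ℝ) : ℝ) = n.sign := by
  rcases lt_trichotomy n 0 with h | rfl | h
  · rw [sign_neg (by exact_mod_cast h), Int.sign_eq_neg_one_of_neg h]; simp
  · simp
  · rw [sign_pos (by exact_mod_cast h), Int.sign_eq_one_of_pos h]; simp

/-- one step between rods of nonzero slope -/
theorem dg_one (ha : IsWd a) (h1 : X ≤ x) (h2 : x + 1 ≤ Y) (p1 : (a x).2 ≠ 0) (p2 : (a (x + 1)).2 ≠ 0) :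
    DG a X Y x (x + 1) (nvr a x (x + 1)) (sgr a x (x + 1)) ⊤ := by
  have e : Ioc x (x + 1) = {x + 1} := by ext; simp; omega
  have st := ha.step (x + 1)
  simp only [nvr, sgr, e, sum_singleton, add_sub_cancel_right] at st ⊢
  rcases st with k | k
  · simpa [k.dt_eq, nn] using dg_empty
  · refine ⟨Unit, inferInstance, inferInstance, fun _ => pv a (x + 1) • dl1 x + (-pv a x) • dl1 (x + 1),
      fun _ => nn (a x) (a (x + 1)), ⟨fun _ => ((sp_dl le_rfl (by omega)).smul _).add
        ((sp_dl (by omega) le_rfl).smul _), fun _ => ?_, fun _ _ => ?_, fun _ => ?_⟩, by simp [sq_uni k],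
      by rw [Fintype.sum_unique, sign_cast], fun _ => trivial⟩
    · rw [prs_add, prs_smul, prs_smul, prs_dl h1 (by omega), prs_dl (by omega) h2]
      ring
    · rw [prs_add, prs_smul, prs_smul, prs_dl h1 (by omega), prs_dl (by omega) h2, od_add, od_smul, od_smul]
      simp [od_dl h1, od_dl (show X ≤ x + 1 by omega), nn, pv]
      ring
    · have : dt (a x) (a (x + 1)) ≠ 0 := by unfold Uni at k; omega
      simp [nn, p1, p2, this]

/-- a run of rods of slope zero -/
theorem dg_run (ha : IsWd a) (h1 : X ≤ x) (h2 : y ≤ Y) (hxy : x + 1 < y) (p1 : (a x).2 ≠ 0) (p2 : (a y).2 ≠ 0)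
    (p0 : ∀ j, x < j → j < y → (a j).2 = 0) : DG a X Y x y (nvr a x y) (sgr a x y) ⊤ := by
  have np : ∀ {u v : Z2}, u.2 ≠ 0 → v.2 = 0 → ¬PM u v := fun h h' k => by
    rcases k with rfl | rfl <;> simp [h'] at h
  have u1 := (ha.step (x + 1)).resolve_left (by rw [add_sub_cancel_right]; exact np p1 (p0 _ (by omega) hxy))
  have u2 := (ha.step y).resolve_left fun k => np p2 (p0 _ (by omega) (by omega)) k.symm
  have e1 : nvr a x y = 2 := by
    rw [nvr, sum_eq_add_of_mem (x + 1) y (by simp; omega) (by simp; omega) hxy.ne fun c hc k => by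
      have := mem_Ioc.1 hc
      simp [dt, p0 c (by omega) (by omega), p0 (c - 1) (by omega) (by omega)], sq_uni u1, sq_uni u2]
    norm_num
  have e2 : sgr a x y = 0 := sum_eq_zero fun c hc => by
    have := mem_Ioc.1 hc
    rcases this.2.eq_or_lt with rfl | k
    · simp [nn, p0 (c - 1) (by omega) (by omega)]
    · simp [nn, p0 c this.1 k]
  have v0 := p0 _ (lt_add_one x) hxy
  have v1 := ne_fst (wd_ne ha _) v0
  have q1 : pv a x ≠ 0 := Int.cast_ne_zero.2 p1
  have q2 : pv a y ≠ 0 := Int.cast_ne_zero.2 p2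
  let t : Bool → ℝ := fun b => (cond b 1 (-1) + pv a x * pv a y * dt (a x) (a y)) /
    (-2 * pv a x * qv a (x + 1) * pv a y)
  rw [e1, e2]
  refine ⟨Bool, inferInstance, inferInstance, fun b => pv a y • dl1 x + (-pv a x) • dl1 y + t b • dl1 (x + 1),
    fun b => cond b 1 (-1), ⟨fun _ => (((sp_dl le_rfl (by omega)).smul _).add ((sp_dl (by omega) le_rfl).smul _)).add
      ((sp_dl (by omega) hxy.le).smul _), fun _ => ?_, fun b b' => ?_, fun b => by cases b <;> simp⟩, by simp,
    by simp, fun _ => trivial⟩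
  · rw [prs_add, prs_add, prs_smul, prs_smul, prs_smul, prs_dl h1 (by omega), prs_dl (by omega) h2,
      prs_dl (by omega) (by omega)]
    simp [pv, v0]
    ring
  · rw [prs_add, prs_add, prs_smul, prs_smul, prs_smul, prs_dl h1 (by omega), prs_dl (by omega) h2,
      prs_dl (by omega) (by omega), od_add, od_add, od_smul, od_smul, od_smul]
    simp only [Pi.add_apply, Pi.smul_apply, od_dl h1, od_dl (show X ≤ x + 1 by omega), od_dl (show X ≤ y by omega),
      lt_irrefl, if_false, show x < y by omega, hxy, hxy.not_gt, show ¬y < x by omega, lt_add_one, if_true,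
      show ¬x + 1 < x by omega, smul_eq_mul, show (dt (a x) (a (x + 1)) : ℝ) = -pv a x * qv a (x + 1) by
        simp [dt, v0, pv, qv], show (dt (a (x + 1)) (a y) : ℝ) = qv a (x + 1) * pv a y by simp [dt, v0, pv, qv], t]
    have : qv a (x + 1) ≠ 0 := v1
    cases b <;> cases b' <;> simp <;> field_simp <;> ring

theorem nvr_add (h1 : x ≤ c) (h2 : c ≤ y) : nvr a x y = nvr a x c + nvr a c y := by
  rw [nvr, ← Ioc_union_Ioc_eq_Ioc h1 h2, sum_union (Ioc_disjoint_Ioc_of_le le_rfl)]
  rfl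

theorem sgr_add (h1 : x ≤ c) (h2 : c ≤ y) : sgr a x y = sgr a x c + sgr a c y := by
  rw [sgr, ← Ioc_union_Ioc_eq_Ioc h1 h2, sum_union (Ioc_disjoint_Ioc_of_le le_rfl)]
  rfl

/-- **slabs between rods of nonzero slope** -/
theorem dg_slab (ha : IsWd a) (h1 : X ≤ x) (h2 : y ≤ Y) (hxy : x ≤ y) (p1 : (a x).2 ≠ 0) (p2 : (a y).2 ≠ 0) :
    DG a X Y x y (nvr a x y) (sgr a x y) ⊤ := by
  induction y using Int.strongRec (m := x + 1) with
  | lt y k =>
    obtain rfl : x = y := by omega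
    simpa [nvr, sgr] using dg_empty
  | ge y k ih =>
    obtain ⟨c, ⟨c1, c2, c3⟩, c4⟩ := Int.exists_greatest_of_bdd (P := fun c => x ≤ c ∧ c < y ∧ (a c).2 ≠ 0)
      ⟨y, fun _ h => h.2.1.le⟩ ⟨x, le_rfl, k, p1⟩
    rw [nvr_add c1 c2.le, sgr_add c1 c2.le]
    refine (ih c c2 (by omega) c1 c3).trans ?_ c1 c2.le
    rcases (show c + 1 ≤ y from c2).eq_or_lt with rfl | e
    · exact dg_one ha (by omega) h2 c3 p2
    · exact dg_run ha (by omega) h2 e c3 p2 fun j j1 j2 => by_contra fun l => (c4 j ⟨by omega, j2, l⟩).not_gt j1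

/-! ### half discs -/

theorem sign_three {A B C : ℤ} (h : A + B + C = 0) : A.sign + B.sign + C.sign = -(A * B * C).sign := by
  rw [Int.sign_mul, Int.sign_mul]
  rcases lt_trichotomy A 0 with a | rfl | a <;> rcases lt_trichotomy B 0 with b | rfl | b <;>
    rcases lt_trichotomy C 0 with c | rfl | c <;>
    first | omega | simp [Int.sign_eq_one_of_pos, Int.sign_eq_neg_one_of_neg, *]

theorem sign_sq {A k : ℤ} (h : k ≠ 0) : (A * (k * k)).sign = A.sign := by
  rw [Int.sign_mul, Int.sign_eq_one_of_pos (mul_self_pos.2 h), mul_one]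

/-- the cocycle identity -/
theorem sign_cyc (hu : u ≠ 0) (hv : v ≠ 0) (hz : z ≠ 0) :
    (-(dt u v * dt z u * dt z v)).sign = (nn u v).sign + (nn v z).sign + (nn z u).sign := by
  have f : ∀ {u : Z2}, u ≠ 0 → u.2 = 0 → u.1 ≠ 0 := fun h k e => h (Prod.ext e k)
  by_cases h1 : u.2 = 0
  · rw [← sign_sq (A := nn v z) (f hu h1)]
    simp only [nn, dt, h1, mul_zero, zero_mul, neg_zero, Int.sign_zero, zero_add, add_zero]
    congr 1
    ring
  by_cases h2 : v.2 = 0
  · rw [← sign_sq (A := nn z u) (f hv h2)]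
    simp only [nn, dt, h2, mul_zero, zero_mul, neg_zero, Int.sign_zero, zero_add]
    congr 1
    ring
  by_cases h3 : z.2 = 0
  · rw [← sign_sq (A := nn u v) (f hz h3)]
    simp only [nn, dt, h3, mul_zero, zero_mul, neg_zero, Int.sign_zero, add_zero]
    congr 1
    ring
  rw [← sign_sq (A := nn u v) h3, ← sign_sq (A := nn v z) h1, ← sign_sq (A := nn z u) h2,
    sign_three (by simp only [nn, dt]; ring), ← Int.sign_neg,
    ← sign_sq (A := -_) (mul_ne_zero (mul_ne_zero (mul_ne_zero h1 h2) h3) (mul_ne_zero (mul_ne_zero h1 h2) h3))]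
  congr 1
  simp only [nn, dt]
  ring

theorem nn_swap (u v : Z2) : nn v u = -nn u v := by simp only [nn, dt]; ring

/-- **half discs whose feet form a basis** -/
theorem dg_disc (ha : IsWd a) (hxy : x ≤ y) (h : Uni (a x) (a y)) :
    DG a x y x y (nvr a x y - 1) (sgr a x y - (nn (a x) (a y)).sign) fun d => prs x y d (qv a) = 0 := by
  have hs := h.sq
  let g : Z2 → Z2 := fun w => (dt (a x) (a y) * dt w (a y), dt (a x) w)
  have gd : ∀ u v, dt (g u) (g v) = dt u v := fun u v => by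
    simp only [g, dt] at hs ⊢
    linear_combination (u.1 * v.2 - u.2 * v.1) * hs
  have gu : ∀ {u v}, Uni u v → Uni (g u) (g v) := fun k => by rwa [Uni, gd]
  have hb : IsWd (g ∘ a) := ⟨fun i => let ⟨_, k⟩ := ha.prim i; ⟨_, gu k⟩, fun i => (ha.step i).imp
    (Or.imp (congrArg g) fun e => by simp [g, e, dt_neg_left, dt_neg_right]) gu⟩
  have py : ((g ∘ a) y).2 ≠ 0 := fun e => by rw [show dt (a x) (a y) = 0 from e] at hs; simp at hs
  obtain ⟨f, ⟨f1, f2⟩, f3⟩ := Int.exists_least_of_bdd (P := fun c => x ≤ c ∧ ((g ∘ a) c).2 ≠ 0)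
    ⟨x, fun _ h => h.1⟩ ⟨y, hxy, py⟩
  have f4 := f3 y ⟨hxy, py⟩
  have f5 : x < f := f1.lt_of_ne (by rintro rfl; exact f2 (dt_self _))
  have f6 : ∀ j, x ≤ j → j < f → dt (a x) (a j) = 0 := fun j a b => by_contra fun e => (f3 j ⟨a, e⟩).not_gt b
  obtain ⟨ι, _, _, l, w, k, e1, e2, -⟩ := dg_slab hb f1 le_rfl f4 f2 py
  have od_g : ∀ d, od (g ∘ a) x d = od a x d := fun d => funext fun j => by simp only [od, Function.comp, gd]
  have o1 : od a x (dl1 x) = fun j => if x < j then pv (g ∘ a) j else 0 := funext (od_dl le_rfl)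
  have cl : ∀ i (c : Z2 → ℤ), (∀ w, c w = (g w).1 * c (a x) + dt (a x) (a y) * (g w).2 * c (a y)) →
      prs x y (l i + (-prs x y (l i) (qv (g ∘ a))) • dl1 x) (fun j => c (a j)) = 0 := fun i c hc => by
    rw [prs_add, prs_smul, prs_dl le_rfl hxy, prs_congr (n' := (c (a x) : ℝ) • qv (g ∘ a) +
      (dt (a x) (a y) * c (a y) : ℝ) • pv (g ∘ a)) fun j _ _ _ => by rw [hc]; simp [pv, qv]; ring, prs_add', prs_smul',
      prs_smul', k.cl]
    ring
  refine ⟨ι, _, _, fun i => l i + (-prs x y (l i) (qv (g ∘ a))) • dl1 x, w, ⟨fun i => ((k.sp i).mono f1 le_rfl).add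
    ((sp_dl le_rfl hxy).smul _), fun i => cl i Prod.snd fun w => ?_, fun i i' => ?_, k.ne⟩, ?_, ?_,
    fun i => cl i Prod.fst fun w => ?_⟩
  · simp only [g, dt] at hs ⊢
    linear_combination (-w.2) * hs
  · rw [prs_add, prs_smul, prs_dl le_rfl hxy, show od a x _ x = 0 by simp [od], mul_zero, add_zero, od_add, od_smul,
      prs_add', prs_smul', o1, ← od_g, k.gram, prs_congr (d := l i') (n' := pv (g ∘ a))
        fun j _ _ e => if_pos (f5.trans_le (k.sp i' j e).1), k.cl, mul_zero, add_zero]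
  · rw [e1, nvr_add f1 f4, show nvr (g ∘ a) f y = nvr a f y by simp only [nvr, Function.comp, gd],
      show nvr a x f = 1 from ?_, add_sub_cancel_left]
    rw [nvr, sum_eq_single_of_mem f (by simpa) fun c hc k => by
      have := mem_Ioc.1 hc
      rw [← gd]
      simp [dt, g, show _ - _ = _ from f6 c (by omega) (by omega),
        show _ - _ = _ from f6 (c - 1) (by omega) (by omega)]]
    refine sq_uni ((ha.step f).resolve_left fun e => f2 ?_)
    have := f6 (f - 1) (by omega) (by omega)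
    rcases e with e | e <;> rw [e] at this
    exacts [this, by simpa [dt_neg_right] using this]
  · rw [e2, ← zero_add (sgr _ f y), ← show sgr (g ∘ a) x f = 0 from sum_eq_zero fun c hc => by
      have := mem_Ioc.1 hc
      simp [nn, g, f6 (c - 1) (by omega) (by omega)], ← sgr_add f1 f4]
    have : ∀ y, x ≤ y → sgr (g ∘ a) x y = sgr a x y - (nn (a x) (a y)).sign := fun y hy => by
      induction y, hy using Int.leInduction with
      | base => simp [sgr, nn, dt_self]
      | succ y hy ih =>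
        have := sign_cyc (wd_ne ha y) (wd_ne ha (y + 1)) (wd_ne ha x)
        rw [nn_swap (a x) (a (y + 1)), Int.sign_neg (nn _ _)] at this
        rw [sgr, sgr, ← insert_Ioc_right_eq_Ioc_add_one hy, sum_insert (by simp), sum_insert (by simp),
          add_sub_cancel_right, ← sgr, ← sgr, ih, nn, Function.comp, Function.comp, gd]
        dsimp only [g]
        rw [this]
        push_cast
        ring
    exact this y hxy
  · simp only [g, dt] at hs ⊢
    linear_combination (-w.1) * hs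

end Crest.Agent.X212.Dr59
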