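import Crest.Agent.X212.Dr59.NbL
import Crest.Agent.X212.Br55.Lf

/-!
# X212 / Dr59, part NbH (helper59): first pieces beyond a frozen rational homology sphere

* `nu_fst` : the numbers of a first piece from those of the past of a slice;
* `nbH` : TM-NBH.
-/

set_option autoImplicit false
set_option linter.unusedSectionVars false

open Set Filter Topology Function Module
open scoped ContDiff Manifold Real
open Crest.Agent.R208.F (Ext)

noncomputable section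

namespace Crest.Agent.X212.Dr59

open M Cyl58 Wd38 Rod53 Nm96 Sid48 Br55
open Line51 (WL LCx Ln)
open Ord99 (RW co TR bs JQ adj_iff Pc)
open Num57 (Fp)
open scoped Cap57

variable {Γ : Nm} {C : Cx Γ} {w : Shp Γ} {hw : w.OK} {X : TP V4} {R : Rz C hw X} {B : Finset Bs}
  {η : Bs → Bool} {c s t : ℤ} {F F' : X.P.M → Ext X.P.E} {n n' : RW}

/-- the localisation sum beyond the slot `s` -/
def vt (w : Shp Γ) (B : Finset Bs) (η : Bs → Bool) (s : ℤ) (n n' : RW) : ℝ × ℝ × ℝ × ℝ :=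
  ∑ c ∈ Finset.Ioc w.l w.r with s < c ∧ c ≤ w.r + 1 ∧ InV B η c, vv w n n' c +
  ∑ a ∈ B with a.arc ∧ s ≤ a.lo ∧ a.lo < w.r + 1 ∧ Adj B η a, (if η a then 1 else -1 : ℝ) • av w n n' a

theorem vt_1 : (vt w B η s n n').1 = 0 := by
  simp only [vt, Prod.fst_add, Prod.fst_sum, Prod.smul_fst, vv, av, lv, smul_zero, Finset.sum_const_zero, add_zero]

theorem vt_4 (m : Wt) : (vt w B η s (co m) (co m)).2.2.2 = (2 * π) ^ 2 * ssum w B η s (w.r + 1) lq m := by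
  simp only [vt, Prod.snd_add, Prod.snd_sum, Prod.smul_snd, smul_eq_mul, vv, av, lv, ssum, mul_add, Finset.mul_sum,
    mul_left_comm _ ((2 * π) ^ 2)]
  rfl

theorem vt_g (m : Wt) : (vt w B η s n n').2.1 - (vt w B η s n n').2.2.1 = ssum w B η s (w.r + 1) lg m := by
  simp only [vt, Prod.snd_add, Prod.fst_add, Prod.snd_sum, Prod.fst_sum, Prod.smul_snd, Prod.smul_fst, smul_eq_mul,
    vv, av, lv, ssum, lg, add_sub_add_comm, ← Finset.sum_sub_distrib]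
  congr 1 <;> exact Finset.sum_congr rfl fun _ _ => by ring

theorem vt_p (hw : w.OK) (h : Gp w B η) (m : Wt) : (vt w B η s n n').2.1 = ssum w B η s (w.r + 1) Nm96.lp m := by
  simp only [vt, Prod.snd_add, Prod.fst_add, Prod.snd_sum, Prod.fst_sum, Prod.smul_snd, Prod.smul_fst, smul_eq_mul,
    vv, av, lv, ssum]
  congr 1 <;> refine Finset.sum_congr rfl fun c u => ?_
  · exact let v := Finset.mem_Ioc.1 (Finset.mem_filter.1 u).1; lv_p (hw.st c v.1 v.2).2 _ _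
  · obtain ⟨u1, u2, -⟩ := Finset.mem_filter.1 u
    obtain ⟨s, t, rfl⟩ | ⟨x, rfl | rfl, -⟩ := (h.ok c u1).cases hw
    exacts [congrArg _ (lv_p (.inr (h.ok _ u1).1.2) _ _), u2.elim, u2.elim]

theorem side_le {a : Bs} (h1 : c ≤ a.lo) (h2 : s ≤ a.lo) : a.side c = a.side s := by
  cases a <;> simp only [Bs.lo] at h1 h2 <;> simp [Bs.side, h1.not_gt, h2.not_gt]

theorem vs_fst (h1 : InV B η w.l) (hb : ∀ a ∈ B, t < a.lo) (t1 : w.l ≤ t) (t2 : t < w.r) :
    vs w B η n n' = ∑ c ∈ Finset.Ioc w.l t, vv w n n' c + vt w B η t n n' := by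
  rw [vs, vt, ← add_assoc, ← Finset.sum_union (Finset.disjoint_left.2 fun c u v =>
    (Finset.mem_Ioc.1 u).2.not_gt (Finset.mem_filter.1 v).2.1)]
  congr 2
  · ext c
    simp only [Finset.mem_filter, Finset.mem_Ioc, Finset.mem_union]
    refine ⟨fun ⟨u, v⟩ => (le_or_gt c t).imp (fun e => ⟨u.1, e⟩) fun e => ⟨u, e, v.2⟩, ?_⟩
    rintro (⟨u, v⟩ | ⟨u, v⟩)
    · exact ⟨⟨u, by omega⟩, by omega, by omega, fun a k =>
        (side_le (v.trans (hb a k).le) (t1.trans (hb a k).le)).trans (h1 a k)⟩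
    · exact ⟨u, by omega, v.2⟩
  · exact Finset.filter_congr fun a u => by
      have := hb a u
      simp [show w.l - 1 ≤ a.lo by omega, show t ≤ a.lo by omega]

/-- **first pieces** -/
theorem nu_fst (hF : Cl X.P.I 2 univ F) (hF' : Cl X.P.I 2 univ F') (hJ : JQ Γ) (k : Ord R F n) (k' : Ord R F' n')
    (h : Gp w B η) (h1 : InV B η w.l) (hb : ∀ a ∈ B, t < a.lo) (t1 : w.l ≤ t) (t2 : t < w.r)
    (p : (w.s t).r.2.2 ≠ 0) (s1 : w.l ≤ s) (s2 : s < w.r) (q : (w.s s).r.2.2 ≠ 0) :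
    nu X.P.I (-R.O) F F' (pc R B η) = nu X.P.I (-R.O) F F' (sd R (.yS t) false) + vt w B η t n n' +
      if InV B η (w.r + 1) then
        nu X.P.I (-R.O) F F' (X.τ ⁻¹' Ioi (s + 1 / 2)) - ∑ c ∈ Finset.Ioc s w.r, vv w n n' c else 0 := by
  obtain ⟨κ, κ', e⟩ := exists_kap hF hF' hJ k k'
  have g : ∀ {x} (b : Bool), w.l ≤ x → x < w.r → (w.s x).r.2.2 ≠ 0 → Gp w {.yS x} fun _ => b := fun b u v z =>
    ⟨by simpa using gd_yS u v z, by simp, .inr ⟨.yS _, Finset.mem_singleton_self _, by simp [Adj, InV]⟩⟩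
  have e1 := e _ _ (g true s1 s2 q)
  have e2 := e _ _ (g false t1 t2 p)
  rw [if_neg (by simpa [InV, Bs.side]), if_pos (by simp [InV, Bs.side]; omega), add_zero, vs,
    Finset.sum_eq_zero (s := Finset.filter _ {Bs.yS s}) (by simp [Bs.arc]), add_zero,
    show Finset.filter _ (Finset.Ioc w.l w.r) = Finset.Ioc s w.r by ext; simp [InV, Bs.side]; omega,
    show pc R {.yS s} (fun _ => true) = X.τ ⁻¹' Ioi (s + 1 / 2) by ext; simp [pc, sd, Rz.Z, Bs.r0]] at e1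
  rw [if_pos (by simpa [InV, Bs.side]), if_neg (by simp [InV, Bs.side]; omega), add_zero, vs,
    Finset.sum_eq_zero (s := Finset.filter _ {Bs.yS t}) (by simp [Bs.arc]), add_zero,
    show Finset.filter _ (Finset.Ioc w.l w.r) = Finset.Ioc w.l t by ext; simp [InV, Bs.side]; omega,
    show pc R {.yS t} (fun _ => false) = sd R (.yS t) false by ext; simp [pc]] at e2
  rw [e B η h, if_pos h1, e1, e2, vs_fst h1 hb t1 t2, add_sub_cancel_left]
  abel

/-- the last slot that is not parallel to the cap -/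
theorem exists_lst' (hw : w.OK) (hJ : JQ Γ) (hc : Γ.cap.2.2 = 0) (h : ∃ x, w.l ≤ x ∧ x < w.r ∧ (w.s x).r.2.2 ≠ 0) :
    ∃ t, w.Rg t w.r ∧ (w.s t).r.2.2 ≠ 0 ∧ (∀ j, t < j → j ≤ w.r → (w.s j).l.2.2 = 0) ∧
      ∀ j, t < j → j < w.r → (w.s j).r.2.2 = 0 :=
  let ⟨x, u, v, p⟩ := h
  exists_lst (B := {.yS x}) (η := fun _ => true) hw hJ hc
    ⟨by simpa using gd_yS u v p, by simp, .inr ⟨.yS _, Finset.mem_singleton_self _, by simp [Adj, InV]⟩⟩
    (by simpa [InV, Bs.side]) (by simp [InV, Bs.side]; omega)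

/-- **TM-NBH** -/
theorem nbH {Λ : NmL Γ} (K : LCx C Λ) (lam : Type) [Fintype lam] [DecidableEq lam] (hJ : JQ Γ)
    (hc : Γ.cap.2.2 = 0) (hd : 0 < Cap57.dgL K) (M : ℝ) : ∀ᶠ m : ℤ in atBot, NbH K lam M m := by
  obtain ⟨lR, C0, H⟩ := Cap57.capR K hc
  have : Tendsto (fun m : ℤ => lR - 2 * m * Cap57.dgL K) atBot atTop :=
    tendsto_atTop_add_const_left _ lR (tendsto_neg_atBot_atTop.comp
      (((tendsto_intCast_atBot_iff.2 tendsto_id).const_mul_atBot two_pos).atBot_mul_const hd))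
  filter_upwards [this.eventually_ge_atTop (2 * M + 7 * C0 + 4)] with m hm F hw n W x ox cx
  have c := W.ln.cl_F isOpen_univ
  obtain ⟨_, k0⟩ := (gd_yS ox.1 ox.2 cx.2).ct (C.rz hw) isOpen_univ (subset_univ _) false
  obtain ⟨ν, hν⟩ : ∃ ν, nu (C.X hw).P.I (-(C.rz hw).O) (Fp (C.X hw).mf W.p) (Fp (C.X hw).mf W.p)
    (sd (C.rz hw) (.yS x) false) = ν := ⟨_, rfl⟩
  have q0 := HL.nbx (Z := (C.X hw).mf) (p := W.p) (univ_inter (sd (C.rz hw) _ false) ▸ k0.hl (hl_X (C.rz hw)))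
    (W.ln.mono (subset_univ _)) hν
  refine ⟨⟨_, _, _, q0⟩, fun β₁ s₁ l₁ B η q1 T hb h1 => ?_⟩
  obtain ⟨rfl, rfl, rfl⟩ := Num57.nbx_uniq (W.ln.mono (subset_univ _)) q1 q0
  have g := gp_of T
  obtain ⟨t, r, p, z, z'⟩ := exists_lst' hw hJ hc ⟨x, ox.1, ox.2, cx.2⟩
  have q := HL.nbx (Z := (C.X hw).mf) (g.hl _) (W.ln.mono (subset_univ _))
    (nu_fst c c hJ (ord_line W) (ord_line W) g h1 hb ox.1 ox.2 cx.2 r.lo r.lt p)
  rw [hν] at q
  have v := vt_g (w := F.w) (B := B) (η := η) (s := x) (n := co n) (n' := co n) n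
  have v1 := vt_p (s := x) (n := co n) (n' := co n) hw g n
  have pi : (2 * π) ^ 2 ≠ 0 := by positivity
  refine ⟨fun h2 => ?_, fun h2 e => ⟨_, _, _, q, ?_⟩⟩
  · rw [if_neg (show ¬InV B η _ from h2), add_zero] at q
    simp only [Prod.fst_add, Prod.snd_add, vt_1, vt_4, add_div, mul_div_cancel_left₀ _ pi, add_zero] at q
    convert q using 1
    · rw [v1]; ring
    · rw [← v]; ring
  obtain ⟨b, Φ, c1, c2, c3⟩ := H _ W r p z
  obtain ⟨_, k⟩ := (gd_yS r.lo r.lt p).ct (C.rz hw) isOpen_univ (subset_univ _) true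
  have l : HL (C.X hw).P.I (-(C.rz hw).O) ((C.X hw).τ ⁻¹' Ioi (t + 1 / 2)) := by
    have := k.hl (hl_X (C.rz hw))
    rwa [univ_inter, show sd (C.rz hw) (.yS t) true = (C.X hw).τ ⁻¹' Ioi (t + 1 / 2) by
      ext; simp [sd, Rz.Z, Bs.r0]] at this
  rw [if_pos (show InV B η _ from h2), ← Finset.insert_Ioc_add_one_left_eq_Ioc r.lt, Finset.sum_insert (by simp),
    Finset.sum_eq_zero fun j u => by
      have := Finset.mem_Ioc.1 u
      simp [vv, lv, lr, nn, Rod53.dt, Shp.lf, Shp.rt, z j (by omega) this.2, z' (j - 1) (by omega) (by omega)],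
    add_zero]
  obtain ⟨b1, b2, b3⟩ := HL.le_bd (Z := (C.X hw).mf) (A := Fp (C.X hw).mf W.p) (A' := Fp (C.X hw).mf W.p) l
    (b (t + 1 / 2) ⟨by linarith, by linarith⟩)
  have y := c2.mono (preimage_mono (Ioi_subset_Ioi (show (t : ℝ) + 1 / 4 ≤ t + 1 / 2 by linarith)))
  have c4 := c1.mono (preimage_mono (Ici_subset_Ioi.2 (show (t : ℝ) + 1 / 2 < t + 5 / 6 by linarith)))
  have s : (nu _ _ (Fp (C.X hw).mf W.p) (Fp (C.X hw).mf W.p) _).2.2.2 = _ :=
    (congrArg (·.2.2.2) (l.nu_coh (c.mono (subset_univ _)) (c.mono (subset_univ _)) (c4.on _) (c4.on _) y y)).trans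
      ((l.nu_ip (c4.on _) c4).trans c3)
  have sg : -1 ≤ ((nn (F.w.lf (t + 1)) (F.w.rt (t + 1))).sign : ℝ) := by
    exact_mod_cast (by rcases Int.sign_trichotomy _ with u | u | u <;> rw [u] <;> decide : (-1 : ℤ) ≤ Int.sign _)
  have dq := sq_nonneg (Rod53.dt (F.w.lf (t + 1)) (F.w.rt (t + 1)) : ℝ)
  simp only [Prod.fst_add, Prod.snd_add, Prod.fst_sub, Prod.snd_sub, vt_1, vt_4, vv, lv]
  rw [s, ← mul_sub, add_div _ _ ((2 * π) ^ 2), add_div _ _ ((2 * π) ^ 2), mul_div_cancel_left₀ _ pi,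
    mul_div_cancel_left₀ _ pi, e, add_sub_cancel_right]
  change 0 ≤ (nu (C.X hw).P.I _ _ _ _).1 at b1
  change (nu (C.X hw).P.I _ _ _ _).2.1 ≤ _ at b2
  change 0 ≤ (nu (C.X hw).P.I _ _ _ _).2.2.1 at b3
  have v3 : lr (F.w.lf (t + 1)) (F.w.rt (t + 1)) ((co n).2 t) ((co n).1 (t + 1)) ((co n).2 t) ((co n).1 (t + 1)) =
    lq (F.w.lf (t + 1)) (F.w.rt (t + 1)) (n.nr t) (n.nl (t + 1)) := rfl
  have c0 : (0 : ℝ) ≤ C0 := C0.cast_nonneg
  rw [← le_sub_iff_add_le', ← le_div_iff₀' three_pos]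
  exact max_le (by linarith) (by linarith)

end Crest.Agent.X212.Dr59
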