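import Crest.Agent.X212.Dr59.NbP
import Crest.Agent.X212.Num57.Cap

/-!
# X212 / Dr59, part NbL (helper59): last pieces

* `gp_pt`, `gp_pc` : non-empty pieces;  `ex_ord`, `iq_lat` : orders and intersection numbers on a piece;
* `nbL_of`, `nbL` : BR-NB for last pieces from the numbers of the right cap.
-/

set_option autoImplicit false
set_option linter.unusedSectionVars false

open Set Filter Topology Function Module
open scoped ContDiff Manifold Real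
open Crest.Agent.R208.F (Ext)

noncomputable section

namespace Crest.Agent.X212.Dr59

open M Cyl58 Wd38 Rod53 Nm96 Sid48 Br55
open Line51 (WL LCx Ln)
open Ord99 (RW co TR bs JQ adj_iff Pc)
open Num57 (Fp)
open scoped Cap57

variable {Γ : Nm} {C : Cx Γ} {w : Shp Γ} {hw : w.OK} {X : TP V4} (R : Rz C hw X) {B : Finset Bs}
  {η : Bs → Bool} {c t : ℤ} {F F' : X.P.M → Ext X.P.E} {n n' : RW}

include R in
/-- a piece that meets the axis has a boundary wall -/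
theorem gp_pt (ok : ∀ a ∈ B, Gd w a) (far : ∀ a ∈ B, ∀ b ∈ B, a ≠ b → a.Far b) (h1 : w.l ≤ c) (h2 : c ≤ w.r + 1)
    (h : InV B η c) : Gp w B η := by
  refine ⟨ok, far, B.eq_empty_or_nonempty.imp_right fun ne => ?_⟩
  obtain ⟨a, ha, m⟩ := B.exists_min_image (fun a => (B.filter fun b => b ≠ a ∧ Sid48.sw b a ≠ η b).card) ne
  refine ⟨a, ha, adj_iff.2 fun b hb q => by_contra fun u => (m b hb).not_gt (Finset.card_lt_card ⟨fun b' v => ?_,
    fun v => (Finset.mem_filter.1 (v (Finset.mem_filter.2 ⟨hb, q, u⟩))).2.1 rfl⟩)⟩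
  obtain ⟨v1, v2, v3⟩ := Finset.mem_filter.1 v
  have f := far b' v1 b hb v2
  have e : η b = Sid48.sw b b' := h b hb ▸ side_nest R (ok b' v1).1 (ok b hb).1 f h1 h2 (h b' v1 ▸ v3.symm)
  have := OK_lo (ok a ha).1
  refine Finset.mem_filter.2 ⟨v1, fun k => u (k ▸ e.symm), fun k => u ?_⟩
  exact e ▸ side_nest R (ok b' v1).1 (ok b hb).1 f (c := a.lo + 1) (by omega) (by omega) fun j => v3 (j.symm.trans k)

include R in
theorem gp_pc (h : Pc w B η) : Gp w B η :=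
  let ⟨_, h1, h2, i⟩ := h.ne
  gp_pt R h.ok h.far h1.le (h2.trans (Int.le_add_one le_rfl)) i

theorem ex_ord (h : Pc w B η) (hF : Cl X.P.I 2 (pc R B η) F) :
    ∃ F' n, Cl X.P.I 2 univ F' ∧ Ex X.P.I (pc R B η) (F - F') ∧ TR w n ∧ (Cl X.P.I 2 univ F' ∧ Ord R F' n) :=
  let ⟨b, u, e⟩ := (gp_pc R h).ext hF
  let ⟨y, v, o⟩ := exists_ord R u
  ⟨b, y, u, e, v, u, o⟩

theorem iq_lat (hJ : JQ Γ) (h : Pc w B η) (h2 : ¬InV B η (w.r + 1)) (k : Cl X.P.I 2 univ F ∧ Ord R F n)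
    (k' : Cl X.P.I 2 univ F' ∧ Ord R F' n') : ∃ (ι : Type) (_ : Fintype ι) (_ : DecidableEq ι), ∃ K e,
      ∃ G : Matrix ι ι ℝ, Lat X.P.I (-R.O) (pc R B η) K e G ∧
        Num57.isq X.P.I (-R.O) e G F F' = (2 * π) ^ 2 * bs w B η (w.l - 1) (w.r + 1) n n' :=
  let L := ((gp_pc R h).hl R).lat.some.h
  ⟨_, _, _, _, _, _, L, iq_pc hJ (gp_pc R h) h.nf h2 k.1 k'.1 k.2 k'.2 L⟩

/-- the last slot that is not parallel to the cap -/
theorem exists_lst (hw : w.OK) (hJ : JQ Γ) (hc : Γ.cap.2.2 = 0) (h : Gp w B η) (h1 : ¬InV B η w.l)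
    (h2 : InV B η (w.r + 1)) : ∃ t, w.Rg t w.r ∧ (w.s t).r.2.2 ≠ 0 ∧ (∀ j, t < j → j ≤ w.r → (w.s j).l.2.2 = 0) ∧
      ∀ j, t < j → j < w.r → (w.s j).r.2.2 = 0 := by
  obtain ⟨t, ⟨a1, a2, a3⟩, a4⟩ := Int.exists_greatest_of_bdd
    (P := fun x => w.l ≤ x ∧ x < w.r ∧ (w.s x).r.2.2 ≠ 0) ⟨w.r, fun _ u => u.2.1.le⟩ <| by
      simp only [InV, not_forall] at h1
      obtain ⟨a, ha, e⟩ := h1
      obtain ⟨s, t, rfl⟩ | ⟨x, -, u⟩ := (h.ok a ha).cases hw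
      · have := (h.ok _ ha).1.1.lo; have := (h.ok _ ha).1.1.hi
        refine (e (h2 _ ha ▸ ?_)).elim
        rw [Bs.side, Bs.side, decide_eq_false (by omega), decide_eq_false (by omega)]
      · exact ⟨x, u⟩
  have k : ∀ j, t < j → j < w.r → (w.s j).r.2.2 = 0 := fun j u v =>
    by_contra fun e => (a4 j ⟨a1.trans u.le, v, e⟩).not_gt u
  have g : ∀ j, t < j → j < w.r → ∃ τ, w.s j = .rod τ := fun j u v => by
    cases e : w.s j with
    | rod τ => exact ⟨τ, rfl⟩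
    | jn J => exact ((hJ J).2 (e ▸ k j u v :)).elim
  refine ⟨t, ⟨a1, a2, le_rfl, g⟩, a3, fun j u v => ?_, k⟩
  rcases v.eq_or_lt with rfl | v
  · rw [hw.sr]; exact hc
  · obtain ⟨τ, e⟩ := g j u v
    have := k j u v
    rwa [e] at this ⊢

theorem HL.le_bd {Z : Mf 4} {o A A' : Z.M → Ext Z.E} {U : Set Z.M} {m : ℕ} (h : HL Z.I o U) (k : Bd Z.I 2 U m) :
    0 ≤ (Dr59.nu Z.I o A A' U).1 ∧ (Dr59.nu Z.I o A A' U).2.1 ≤ m ∧ 0 ≤ (Dr59.nu Z.I o A A' U).2.2.1 := by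
  rw [Dr59.nu, dif_pos h.lat]
  refine ⟨Nat.cast_nonneg _, Nat.cast_le.2 ((sigPos_le_finrank _).trans ?_), Nat.cast_nonneg _⟩
  rw [finrank_fintype_fun_eq_card, ← Num57.lat_finrank h.lat.some.h]
  exact k.finrank_le

/-- **BR-NB, last pieces** -/
theorem nbL_of {Λ : NmL Γ} (K : LCx C Λ) (lam : Type) [Fintype lam] [DecidableEq lam] (hJ : JQ Γ)
    (hc : Γ.cap.2.2 = 0) {d lR : ℝ} {C0 : ℕ} (hd : 0 < d)
    (H : ∀ {w : Shp Γ} {hw : w.OK} {X : TP V4} (R : Rz C hw X) {n : Wt} {k : Type} [Fintype k] (W : WL K R n k) {t : ℤ},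
      w.Rg t w.r → (w.s t).r.2.2 ≠ 0 → (∀ j, t < j → j ≤ w.r → (w.s j).l.2.2 = 0) →
      (∀ s ∈ II t t, Bd X.P.I 2 (X.τ ⁻¹' Ioi s) C0) ∧ ∃ Φ, Cs X.P.I 2 (X.τ ⁻¹' Ici (t + 5 / 6)) Φ ∧
        Ex X.P.I (X.τ ⁻¹' Ioi (t + 1 / 4)) (Ln.F X.P.I ⟨W.p, 0⟩ - Φ) ∧ ip X.P.I (-R.O) Φ Φ =
          (2 * π) ^ 2 * (lR + lq (w.lf (t + 1)) (w.rt (t + 1)) (n.nr t) (n.nl (t + 1)) - 2 * n.mR * d))
    (M : ℝ) : ∀ᶠ m : ℤ in atBot, NbL K lam M m := by
  have : Tendsto (fun m : ℤ => lR - 2 * m * d) atBot atTop :=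
    tendsto_atTop_add_const_left _ lR (tendsto_neg_atBot_atTop.comp
      (((tendsto_intCast_atBot_iff.2 tendsto_id).const_mul_atBot two_pos).atBot_mul_const hd))
  filter_upwards [this.eventually_ge_atTop (2 * M + 7 * C0 + 4)] with m hm F hw n W B η e T h1 h2
  have g := gp_of T
  obtain ⟨t, r, p, z, z'⟩ := exists_lst hw hJ hc g h1 h2
  obtain ⟨b, Φ, c1, c2, c3⟩ := H _ W r p z
  have c := W.ln.cl_F isOpen_univ
  obtain ⟨_, k⟩ := (gd_yS r.lo r.lt p).ct (C.rz hw) isOpen_univ (subset_univ _) true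
  have l : HL (C.X hw).P.I (-(C.rz hw).O) ((C.X hw).τ ⁻¹' Ioi (t + 1 / 2)) := by
    have := k.hl (hl_X (C.rz hw))
    rwa [univ_inter, show sd (C.rz hw) (.yS t) true = (C.X hw).τ ⁻¹' Ioi (t + 1 / 2) by
      ext; simp [sd, Rz.Z, Bs.r0]] at this
  have q := HL.nbx (Z := (C.X hw).mf) (g.hl _) (W.ln.mono (subset_univ _))
    (nu_lst c c hJ (ord_line W) (ord_line W) g h1 h2 r.lo r.lt p)
  rw [← Finset.insert_Ioc_add_one_left_eq_Ioc r.lt, Finset.sum_insert (by simp), Finset.sum_eq_zero fun j u => by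
      have := Finset.mem_Ioc.1 u
      simp [vv, lv, lr, nn, dt, Shp.lf, Shp.rt, z j (by omega) this.2, z' (j - 1) (by omega) (by omega)],
    add_zero] at q
  refine ⟨_, _, _, q, ?_⟩
  obtain ⟨b1, b2, b3⟩ := HL.le_bd (Z := (C.X hw).mf) (A := Fp (C.X hw).mf W.p) (A' := Fp (C.X hw).mf W.p) l
    (b (t + 1 / 2) ⟨by linarith, by linarith⟩)
  have x := c2.mono (preimage_mono (Ioi_subset_Ioi (show (t : ℝ) + 1 / 4 ≤ t + 1 / 2 by linarith)))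
  have c4 := c1.mono (preimage_mono (Ici_subset_Ioi.2 (show (t : ℝ) + 1 / 2 < t + 5 / 6 by linarith)))
  have s : (nu _ _ (Fp (C.X hw).mf W.p) (Fp (C.X hw).mf W.p) _).2.2.2 = _ :=
    (congrArg (·.2.2.2) (l.nu_coh (c.mono (subset_univ _)) (c.mono (subset_univ _)) (c4.on _) (c4.on _) x x)).trans
      ((l.nu_ip (c4.on _) c4).trans c3)
  have v := vs_g (w := F.w) (B := B) (η := η) (n := co n) (n' := co n) n
  have sg : -1 ≤ ((nn (F.w.lf (t + 1)) (F.w.rt (t + 1))).sign : ℝ) := by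
    exact_mod_cast (by rcases Int.sign_trichotomy _ with u | u | u <;> rw [u] <;> decide : (-1 : ℤ) ≤ Int.sign _)
  have dq := sq_nonneg (dt (F.w.lf (t + 1)) (F.w.rt (t + 1)) : ℝ)
  simp only [Prod.fst_add, Prod.snd_add, Prod.fst_sub, Prod.snd_sub, vs_1, vs_4, vv, lv]
  rw [s, ← mul_sub, ← mul_add, mul_div_cancel_left₀ _ (by positivity), e, add_sub_cancel_right]
  change 0 ≤ (nu (C.X hw).P.I _ _ _ _).1 at b1
  change (nu (C.X hw).P.I _ _ _ _).2.1 ≤ _ at b2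
  change 0 ≤ (nu (C.X hw).P.I _ _ _ _).2.2.1 at b3
  have v1 : _ = F.tot B η Nm96.lp n := vs_p (n := co n) (n' := co n) hw g n
  have v2 : bs F.w B η (F.w.l - 1) (F.w.r + 1) (co n) (co n) = F.tot B η lq n := rfl
  have v3 : lr (F.w.lf (t + 1)) (F.w.rt (t + 1)) ((co n).2 t) ((co n).1 (t + 1)) ((co n).2 t) ((co n).1 (t + 1)) =
    lq (F.w.lf (t + 1)) (F.w.rt (t + 1)) (n.nr t) (n.nl (t + 1)) := rfl
  change _ = F.tot B η lg n at v
  have c0 : (0 : ℝ) ≤ C0 := C0.cast_nonneg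
  rw [← le_sub_iff_add_le', ← le_div_iff₀' three_pos]
  exact max_le (by linarith) (by linarith)

theorem nbL {Λ : NmL Γ} (K : LCx C Λ) (lam : Type) [Fintype lam] [DecidableEq lam] (hJ : JQ Γ)
    (hc : Γ.cap.2.2 = 0) (hd : 0 < Cap57.dgL K) (M : ℝ) : ∀ᶠ m : ℤ in atBot, NbL K lam M m :=
  let ⟨_, _, H⟩ := Cap57.capR K hc
  nbL_of K lam hJ hc hd H M

end Crest.Agent.X212.Dr59
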