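import Crest.Agent.X212.Dr59.NbR

/-!
# X212 / Dr59, part NbP (helper59): the numbers of toric pieces

* `Gd` (walls that are rational homology spheres), `Gp` (pieces), `Gp.ind`, `Gp.hl`, `Gp.ext`, `Gp.nu`;
* `exists_phi`, `nu_pc`, `iq_pc`, `ex_pc`, `hz_pc`, `nu_lst`, `nbM`.
-/

set_option autoImplicit false
set_option linter.unusedSectionVars false
set_option linter.style.haveILetI false

open Set Filter Topology Function Module
open scoped ContDiff Manifold Real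
open Crest.Agent.R208.F (Ext)

noncomputable section

namespace Crest.Agent.X212.Dr59

open M Cyl58 Wd38 Rod53 Nm96 Sid48 Br55
open Line51 (WL LCx Ln)
open Ord99 (RW co TR bs JQ adj_iff)
open Num57 (Fp nbx_of_lat)
open scoped Cap57

variable {Γ : Nm} {C : Cx Γ} {w : Shp Γ} {hw : w.OK} {X : TP V4} (R : Rz C hw X) {a b : Bs} {B : Finset Bs}
  {η : Bs → Bool} {c s t x : ℤ} {W : Set X.P.M}

/-! ### walls -/

/-- the wall of layer M -/
def wl (h : a.OK w) : Wall X.P.M := (R.nk a h).band.wall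

theorem wl_sd (h : a.OK w) (s : Bool) : (wl R h).sd s = sd R a s := (Wd38.Nk.band_sd _ s).trans (nk_S R h s)

theorem wl_band (h : a.OK w) : (wl R h).band = R.bd a := (R.spec_nk a h).b

theorem op_sd (h : a.OK w) (s : Bool) : IsOpen (sd R a s) := wl_sd R h s ▸ (wl R h).op_sd s

theorem bd_sd (ha : a.OK w) (hb : b.OK w) (h : a.Far b) : R.bd b ⊆ sd R a (Sid48.sw a b) := by
  obtain ⟨z, k1, k2⟩ := exists_lo R hb
  rw [← wl_sd R ha, ← wl_band R hb]
  exact Wall.band_subset (wl_band R ha ▸ wl_band R hb ▸ R.bd_far h) (wl_band R hb ▸ k1) (wl_sd R ha _ ▸ k2 a ha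
    (far_fr h (OK_hi ha).1 (OK_hi hb).1 (fun e => (OK_rg hb e).lt) fun e => (OK_rg ha e).lt).1)

theorem sd_nest (ha : a.OK w) (hb : b.OK w) (h : a.Far b) : sd R a (!Sid48.sw a b) ⊆ sd R b (Sid48.sw b a) := by
  haveI := R.con
  rw [← wl_sd R ha, ← wl_sd R hb]
  exact subset_union_left.trans (Wall.nest (wl_band R ha ▸ wl_band R hb ▸ R.bd_far h)
    (wl_sd R ha _ ▸ wl_band R hb ▸ bd_sd R ha hb h) (wl_sd R hb _ ▸ wl_band R ha ▸ bd_sd R hb ha (far_symm h)))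

include R in
theorem side_nest (ha : a.OK w) (hb : b.OK w) (h : a.Far b) (h1 : w.l ≤ c) (h2 : c ≤ w.r + 1)
    (e : a.side c ≠ Sid48.sw a b) : b.side c = Sid48.sw b a := by
  obtain ⟨z, k⟩ := exists_pt R h1 h2
  exact (wl R hb).sd_inj (wl_sd R hb _ ▸ k b hb) (wl_sd R hb _ ▸ sd_nest R ha hb h (Bool.eq_not_of_ne e ▸ k a ha))

/-- walls whose cross section is a rational homology sphere -/
def Gd (w : Shp Γ) (a : Bs) : Prop := a.OK w ∧ (a.pin ∨ ∃ x, a = .yS x ∧ (w.s x).r.2.2 ≠ 0)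

theorem gd_yS (h1 : w.l ≤ x) (h2 : x < w.r) (h : (w.s x).r.2.2 ≠ 0) : Gd w (.yS x) := ⟨⟨h1, h2⟩, .inr ⟨x, rfl, h⟩⟩

theorem Gd.ct (h : Gd w a) (hW : IsOpen W) (s : R.bd a ⊆ W) (b : Bool) :
    ∃ N, Ct X.P.I W (W ∩ sd R a b) (W ∩ sd R a !b) N := by
  refine ⟨_, nk_S R h.1 b ▸ nk_S R h.1 (!b) ▸ ct_sides (X := X.mf) (R.nk a h.1).h (fun k hk => ?_) hW
    ((R.spec_nk a h.1).b.le.trans s) b⟩
  obtain ⟨h, p | ⟨x, rfl, p⟩⟩ := h
  · rw [Bs.ty_sph.2 p]
    exact hz_sphere (d := 3) (by omega)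
  · exact hz_fil C (hw.pr x h.1 h.2.le).2 p k hk

theorem Gd.cases (hw : w.OK) (h : Gd w a) : (∃ s t, a = .sA s t) ∨
    ∃ x, (a = .sS x ∨ a = .yS x) ∧ w.l ≤ x ∧ x < w.r ∧ (w.s x).r.2.2 ≠ 0 := by
  obtain ⟨h, p | ⟨x, rfl, p⟩⟩ := h
  · cases a <;> first | exact p.elim | exact .inl ⟨_, _, rfl⟩ | skip
    obtain ⟨v, k⟩ := (hw.pr _ h.1 h.2.1.le).2
    exact .inr ⟨_, .inl rfl, h.1, h.2.1, fun e => k.ne_zero (Prod.ext h.2.2 e)⟩
  · exact .inr ⟨x, .inr rfl, h.1, h.2, p⟩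

/-! ### pieces -/

/-- `η` names a piece of the walls `B` -/
structure Gp (w : Shp Γ) (B : Finset Bs) (η : Bs → Bool) : Prop where
  ok : ∀ a ∈ B, Gd w a
  far : ∀ a ∈ B, ∀ b ∈ B, a ≠ b → a.Far b
  ne : B = ∅ ∨ ∃ a ∈ B, Adj B η a

theorem gp_of {F : Fm Γ} (h : TPc F B η) : Gp F.w B η :=
  ⟨fun a k => ⟨(h.ok a k).1, .inl (h.ok a k).2⟩, h.far, h.ne⟩

theorem pc_empty : pc R ∅ η = univ := by simp [pc]

theorem pc_insert : pc R (insert a B) η = pc R B η ∩ sd R a (η a) := by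
  ext z
  simp [pc, and_comm]

theorem inv_insert : InV (insert a B) η c ↔ InV B η c ∧ a.side c = η a := by simp [InV, and_comm]

theorem adj_insert (h : a ≠ b) : Adj (insert a B) η b ↔ Adj B η b ∧ Sid48.sw a b = η a := by
  rw [Adj, Finset.erase_insert_of_ne h, inv_insert]
  rfl

theorem op_pc (h : ∀ a ∈ B, a.OK w) : IsOpen (pc R B η) := by
  rw [show pc R B η = ⋂ a ∈ B, sd R a (η a) from by ext; simp [pc]]
  exact isOpen_biInter_finset fun a k => op_sd R (h a k) _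

/-- a new boundary wall -/
structure Nw (R : Rz C hw X) (B : Finset Bs) (η : Bs → Bool) (a : Bs) : Prop where
  gd : Gd w a
  ne : a ∉ B
  op : IsOpen (pc R B η)
  bd : R.bd a ⊆ pc R B η
  sd : pc R B η ∩ sd R a (!η a) = sd R a (!η a)
  inv : ∀ c, w.l ≤ c → c ≤ w.r + 1 → a.side c ≠ η a → InV B η c
  adj : Adj (insert a B) η a
  adj' : ∀ b ∈ B, Adj (insert a B) η b ↔ Adj B η b

/-- a redundant wall -/
structure Rd (R : Rz C hw X) (B : Finset Bs) (η : Bs → Bool) (a : Bs) : Prop where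
  ne : a ∉ B
  pc : pc R (insert a B) η = pc R B η
  inv : ∀ c, w.l ≤ c → c ≤ w.r + 1 → (InV (insert a B) η c ↔ InV B η c)
  adj : ¬Adj (insert a B) η a
  adj' : ∀ b ∈ B, Adj (insert a B) η b ↔ Adj B η b

/-- **induction over the walls of a piece** -/
theorem Gp.ind {Q : Finset Bs → Prop} (h0 : Q ∅) (h1 : ∀ B a, Nw R B η a → Q B → Q (insert a B))
    (h2 : ∀ B a, Rd R B η a → Q B → Q (insert a B)) (h : Gp w B η) : Q B := by
  induction B using Finset.strongInduction with | H B ih => ?_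
  have bd : ∀ a ∈ B, w.l ≤ a.lo + 1 ∧ a.lo + 1 ≤ w.r + 1 := fun a k => by
    have := OK_lo (h.ok a k).1
    omega
  have key : ∀ a ∈ B, (B.erase a = ∅ ∨ ∃ b ∈ B.erase a, Adj B η b) → Q (B.erase a) := fun a k e =>
    ih _ (Finset.erase_ssubset k) ⟨fun b u => h.ok b (Finset.mem_of_mem_erase u), fun b u b' u' =>
      h.far b (Finset.mem_of_mem_erase u) b' (Finset.mem_of_mem_erase u'), e.imp_right fun ⟨b, u, v⟩ =>
        ⟨b, u, fun b' u' => v b' (Finset.erase_subset_erase _ (Finset.erase_subset _ _) u')⟩⟩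
  by_cases k : ∀ a ∈ B, Adj B η a
  · rcases B.eq_empty_or_nonempty with rfl | ⟨a, ha⟩
    · exact h0
    have e := Finset.insert_erase ha
    have oa := (h.ok a ha).1
    have f : ∀ b ∈ B.erase a, b.OK w ∧ a.Far b ∧ Sid48.sw a b = η a ∧ Sid48.sw b a = η b := fun b u =>
      let ⟨u1, u2⟩ := Finset.mem_erase.1 u
      ⟨(h.ok b u2).1, h.far a ha b u2 u1.symm, adj_iff.1 (k b u2) a ha u1.symm, adj_iff.1 (k a ha) b u2 u1⟩
    refine e ▸ h1 _ a ⟨h.ok a ha, B.notMem_erase a, op_pc R fun b u => (f b u).1,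
      fun z hz b u => (f b u).2.2.2 ▸ bd_sd R (f b u).1 oa (far_symm (f b u).2.1) hz,
      inter_eq_right.2 fun z hz b u => (f b u).2.2.2 ▸ sd_nest R oa (f b u).1 (f b u).2.1 ((f b u).2.2.1 ▸ hz),
      fun c c1 c2 c3 b u => (side_nest R oa (f b u).1 (f b u).2.1 c1 c2 ((f b u).2.2.1 ▸ c3)).trans (f b u).2.2.2,
      e.symm ▸ k a ha, fun b u => (adj_insert (Finset.mem_erase.1 u).1.symm).trans (and_iff_left (f b u).2.2.1)⟩
      (key a ha ((B.erase a).eq_empty_or_nonempty.imp_right fun ⟨b, u⟩ => ⟨b, u, k b (Finset.mem_of_mem_erase u)⟩))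
  · simp only [not_forall, exists_prop] at k
    obtain ⟨a, ha, k⟩ := k
    obtain ⟨a', ha', k'⟩ := h.ne.resolve_left (Finset.ne_empty_of_mem ha)
    have n : a' ≠ a := fun e => k (e ▸ k')
    obtain ⟨b, hb, n', u⟩ : ∃ b ∈ B, b ≠ a ∧ Sid48.sw b a ≠ η b := by
      by_contra! q
      exact k (adj_iff.2 q)
    have e := Finset.insert_erase ha
    have oa := (h.ok a ha).1
    have ob := (h.ok b hb).1
    have f := h.far b hb a ha n'
    have g : ∀ c, w.l ≤ c → c ≤ w.r + 1 → b.side c = η b → a.side c = Sid48.sw a b := fun c c1 c2 c3 =>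
      side_nest R ob oa f c1 c2 (c3 ▸ u.symm)
    have v : Sid48.sw a b = η a := (adj_iff.1 k' a ha n.symm).symm ▸ (em (b = a')).elim (fun q => q ▸ rfl)
      fun q => (g _ (bd a' ha').1 (bd a' ha').2 (adj_iff.1 k' b hb q)).symm
    have m := Finset.mem_erase.2 ⟨n', hb⟩
    refine e ▸ h2 _ a ⟨B.notMem_erase a, (pc_insert R).trans (inter_eq_left.2 fun z hz =>
      v ▸ sd_nest R ob oa f (Bool.eq_not_of_ne u.symm ▸ hz b m)),
      fun c c1 c2 => inv_insert.trans (and_iff_left_of_imp fun q => (g c c1 c2 (q b m)).trans v), e.symm ▸ k,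
      fun b' u' => (adj_insert (Finset.mem_erase.1 u').1.symm).trans (and_iff_left_of_imp fun q => ?_)⟩
      (key a ha (.inr ⟨a', Finset.mem_erase.2 ⟨n, ha'⟩, k'⟩))
    by_cases q' : b = b'
    · exact q' ▸ v
    · have := bd b' (Finset.mem_of_mem_erase u')
      exact (g _ this.1 this.2 (adj_iff.1 q b m q')).trans v

theorem hl_X : HL X.P.I (-R.O) univ :=
  haveI : CompactSpace X.mf.M := R.cpt
  hl_univ (X := X.mf) (ori_O R)

variable {R}

theorem Nw.ct (h : Nw R B η a) : ∃ N, Ct X.P.I (pc R B η) (pc R (insert a B) η) (Sid48.sd R a !η a) N :=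
  pc_insert R ▸ h.sd ▸ h.gd.ct R h.op h.bd (η a)

variable (R) in
/-- **pieces have numbers** -/
theorem Gp.hl (h : Gp w B η) : HL X.P.I (-R.O) (pc R B η) :=
  h.ind R (Q := fun B => HL X.P.I (-R.O) (pc R B η)) (pc_empty R ▸ hl_X R)
    (fun _ _ k ih => let ⟨_, c⟩ := k.ct; c.hl ih) fun _ _ k ih => k.pc ▸ ih

variable {F F' f : X.P.M → Ext X.P.E} {n n' : RW}

/-- **closed forms extend from a piece** -/
theorem Gp.ext (h : Gp w B η) (hF : Cl X.P.I 2 (pc R B η) F) :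
    ∃ F', Cl X.P.I 2 univ F' ∧ Ex X.P.I (pc R B η) (F - F') := by
  haveI := Int54.sigmaCompact (I := X.P.I) X.P.M
  refine h.ind R (Q := fun B => ∀ F, Cl X.P.I 2 (pc R B η) F → ∃ F', Cl X.P.I 2 univ F' ∧ Ex X.P.I (pc R B η) (F - F'))
    (fun F k => ⟨F, pc_empty R ▸ k, ex_of_zero fun _ _ => sub_self _⟩) (fun _ _ k ih F u => ?_)
    (fun _ _ k ih => k.pc ▸ ih) F hF
  obtain ⟨_, c⟩ := k.ct
  obtain ⟨F1, a1, a2⟩ := c.ext u
  obtain ⟨F2, b1, b2⟩ := ih F1 a1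
  exact ⟨F2, b1, a2.trans (b2.mono c.sU)⟩

section nu

variable {φ : ℤ → ℝ × ℝ × ℝ × ℝ} {ψ : Bs → ℝ × ℝ × ℝ × ℝ} (hF : Cl X.P.I 2 univ F) (hF' : Cl X.P.I 2 univ F')
include hF hF'

theorem Gd.nu (h : Gd w a) (hT : nu X.P.I (-R.O) F F' univ = ∑ c ∈ Finset.Icc w.l (w.r + 1), φ c)
    (hs : nu X.P.I (-R.O) F F' (sd R a false) =
      ∑ c ∈ Finset.Icc w.l (w.r + 1) with a.side c = false, φ c - if a.arc then ψ a else 0) (s : Bool) :
    nu X.P.I (-R.O) F F' (sd R a s) = ∑ c ∈ Finset.Icc w.l (w.r + 1) with a.side c = s, φ c +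
      if a.arc then (if s then 1 else -1 : ℝ) • ψ a else 0 := by
  obtain ⟨_, k⟩ := h.ct R isOpen_univ (subset_univ _) true
  have := k.nu (hl_X R) hF hF'
  rw [univ_inter, univ_inter, Bool.not_true, hT, hs,
    ← Finset.sum_filter_add_sum_filter_not _ fun c => a.side c = true] at this
  simp only [Bool.not_eq_true] at this
  cases s
  · rw [hs]
    split_ifs <;> simp_all [sub_eq_add_neg]
  · rw [← add_sub_assoc, eq_sub_iff_add_eq, add_right_comm, add_left_inj] at this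
    rw [← this]
    simp

/-- **the numbers of a piece as a sum over its sites** -/
theorem Gp.nu (h : Gp w B η) (hT : nu X.P.I (-R.O) F F' univ = ∑ c ∈ Finset.Icc w.l (w.r + 1), φ c)
    (hs : ∀ a ∈ B, nu X.P.I (-R.O) F F' (sd R a false) =
      ∑ c ∈ Finset.Icc w.l (w.r + 1) with a.side c = false, φ c - if a.arc then ψ a else 0) :
    nu X.P.I (-R.O) F F' (pc R B η) = ∑ c ∈ Finset.Icc w.l (w.r + 1) with InV B η c, φ c +
      ∑ a ∈ B with a.arc ∧ Adj B η a, (if η a then 1 else -1 : ℝ) • ψ a := by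
  refine (h.ind R (Q := fun B => HL X.P.I (-R.O) (pc R B η) ∧ ((∀ a ∈ B, Dr59.nu X.P.I (-R.O) F F' (sd R a false) =
    ∑ c ∈ Finset.Icc w.l (w.r + 1) with a.side c = false, φ c - if a.arc then ψ a else 0) →
    Dr59.nu X.P.I (-R.O) F F' (pc R B η) = ∑ c ∈ Finset.Icc w.l (w.r + 1) with InV B η c, φ c +
      ∑ a ∈ B with a.arc ∧ Adj B η a, (if η a then 1 else -1 : ℝ) • ψ a))
    ⟨pc_empty R ▸ hl_X R, fun _ => by simp [pc_empty, hT, InV]⟩ (fun B a k ih => ?_) fun B a k ih =>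
      ⟨k.pc ▸ ih.1, fun u => ?_⟩).2 hs
  · obtain ⟨_, c⟩ := k.ct
    refine ⟨c.hl ih.1, fun u => ?_⟩
    have := c.nu ih.1 (hF.mono (subset_univ _)) (hF'.mono (subset_univ _))
    rw [ih.2 fun b v => u b (Finset.mem_insert_of_mem v), k.gd.nu hF hF' hT (u a (Finset.mem_insert_self _ _)),
      ← Finset.sum_filter_add_sum_filter_not _ fun c => a.side c = η a, Finset.filter_filter, Finset.filter_filter,
      Finset.filter_congr (p := fun c => InV B η c ∧ ¬a.side c = η a) (q := fun c => a.side c = !η a) fun c v =>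
        ⟨fun e => Bool.eq_not_of_ne e.2, fun e =>
        have l := Bool.eq_not.1 e; ⟨k.inv c (Finset.mem_Icc.1 v).1 (Finset.mem_Icc.1 v).2 l, l⟩⟩] at this
    rw [Finset.filter_congr (q := fun c => InV B η c ∧ a.side c = η a) fun _ _ => inv_insert, Finset.filter_insert,
      Finset.filter_congr (q := fun b => b.arc ∧ Adj B η b) fun b v => and_congr_right' (k.adj' b v),
      ← add_left_inj, ← this]
    by_cases e : a.arc
    · rw [if_pos ⟨e, k.adj⟩, if_pos e, Finset.sum_insert fun v => k.ne (Finset.mem_filter.1 v).1]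
      cases η a <;> simp <;> abel
    · rw [if_neg fun v => e v.1, if_neg e]
      abel
  · rw [k.pc, ih.2 fun b v => u b (Finset.mem_insert_of_mem v), Finset.filter_insert, if_neg fun v => k.adj v.2,
      Finset.filter_congr fun c v => k.inv c (Finset.mem_Icc.1 v).1 (Finset.mem_Icc.1 v).2,
      Finset.filter_congr (q := fun b => b.arc ∧ Adj B η b) fun b v => and_congr_right' (k.adj' b v)]

variable (hJ : JQ Γ) (k : Ord R F n) (k' : Ord R F' n')
include hJ k k'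

/-- the past of two slices -/
theorem nu_past (h1 : w.l ≤ s) (h2 : s ≤ t) (h3 : t < w.r) (p1 : (w.s s).r.2.2 ≠ 0) (p2 : (w.s t).r.2.2 ≠ 0) :
    nu X.P.I (-R.O) F F' (sd R (.yS t) false) =
      nu X.P.I (-R.O) F F' (sd R (.yS s) false) + ∑ c ∈ Finset.Ioc s t, vv w n n' c := by
  have key : ∀ s t, w.Rg s t → t < w.r → (w.s s).r.2.2 ≠ 0 → (w.s t).r.2.2 ≠ 0 →
      nu X.P.I (-R.O) F F' (sd R (.yS t) false) =
        nu X.P.I (-R.O) F F' (sd R (.yS s) false) + ∑ c ∈ Finset.Ioc s t, vv w n n' c := fun s t r h3 p1 p2 => by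
    have lt : (s : ℝ) + 1 ≤ t := by exact_mod_cast r.lt
    have g := gd_yS (r.lo.trans r.lt.le) h3 p2
    obtain ⟨_, c0⟩ := g.ct R isOpen_univ (subset_univ _) false
    obtain ⟨_, c⟩ := (gd_yS r.lo (r.lt.trans h3) p1).ct R (op_sd R g.1 false)
      (fun z hz => show X.τ z < t + 1 / 2 by linarith [(R.bd_II hz).2, show ((Bs.yS s).hi : ℝ) = s from rfl]) false
    rw [c.nu (univ_inter (sd R _ false) ▸ c0.hl (hl_X R)) (hF.mono (subset_univ _)) (hF'.mono (subset_univ _)),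
      ← nu_rg r p1 (by
        cases e : w.s t with
        | rod τ => rwa [e] at p2
        | jn J => exact (hJ J).1) hF hF' k k']
    congr 2
    · exact inter_eq_right.2 fun z (hz : X.τ z < s + 1 / 2) => show X.τ z < t + 1 / 2 by linarith
    · exact Set.ext fun z => ⟨fun e => ⟨not_le.1 e.2, e.1⟩, fun e => ⟨e.2, not_le.2 e.1⟩⟩
  induction t using Int.strongRec (m := s + 1) with
  | lt t u =>
    obtain rfl : s = t := by omega
    simp
  | ge t u ih =>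
    obtain ⟨x, y, m, v1, v2⟩ := exists_mx1 (w := w) (j := t - 1) (by omega) (by omega)
    rcases le_or_gt x s with e | e
    · exact key s t (m.rg.mono e u (by omega)) h3 p1 p2
    · obtain ⟨J, q⟩ := m.lo.resolve_left (by omega)
      have p : (w.s x).r.2.2 ≠ 0 := q ▸ (hJ J).2
      rw [key x t (m.rg.mono le_rfl (by omega) (by omega)) h3 p p2, ih x (by omega) e.le (by omega) p, add_assoc,
        ← Finset.sum_union (Finset.Ioc_disjoint_Ioc_of_le le_rfl), Finset.Ioc_union_Ioc_eq_Ioc e.le (by omega)]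

/-- **weights of the caps** -/
theorem exists_phi : ∃ φ : ℤ → ℝ × ℝ × ℝ × ℝ, (∀ c, w.l < c → c ≤ w.r → φ c = vv w n n' c) ∧
    nu X.P.I (-R.O) F F' univ = ∑ c ∈ Finset.Icc w.l (w.r + 1), φ c ∧ ∀ a, Gd w a →
      nu X.P.I (-R.O) F F' (sd R a false) =
        ∑ c ∈ Finset.Icc w.l (w.r + 1) with a.side c = false, φ c - if a.arc then av w n n' a else 0 := by
  obtain ⟨κ, hκ⟩ : ∃ κ, ∀ x, w.l ≤ x → x < w.r → (w.s x).r.2.2 ≠ 0 →
      nu X.P.I (-R.O) F F' (sd R (.yS x) false) = κ + ∑ c ∈ Finset.Ioc w.l x, vv w n n' c := by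
    by_cases e : ∃ x, w.l ≤ x ∧ x < w.r ∧ (w.s x).r.2.2 ≠ 0
    · obtain ⟨s, ⟨a1, a2, a3⟩, a4⟩ := Int.exists_least_of_bdd ⟨w.l, fun _ u => u.1⟩ e
      refine ⟨nu X.P.I (-R.O) F F' (sd R (.yS s) false) - ∑ c ∈ Finset.Ioc w.l s, vv w n n' c, fun x u v p => ?_⟩
      have := a4 x ⟨u, v, p⟩
      rw [nu_past hF hF' hJ k k' a1 this v a3 p, ← Finset.Ioc_union_Ioc_eq_Ioc a1 this,
        Finset.sum_union (Finset.Ioc_disjoint_Ioc_of_le le_rfl)]
      abel
    · exact ⟨0, fun x u v p => (e ⟨x, u, v, p⟩).elim⟩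
  have lt := hw.lt
  let φ : ℤ → ℝ × ℝ × ℝ × ℝ := fun c => if c = w.l then κ else if c = w.r + 1 then
    nu X.P.I (-R.O) F F' univ - (κ + ∑ c ∈ Finset.Ioc w.l w.r, vv w n n' c) else vv w n n' c
  have h1 : ∀ c, w.l < c → c ≤ w.r → φ c = vv w n n' c := fun c u v => (if_neg u.ne').trans (if_neg (by omega))
  have h2 : ∀ s t, w.l ≤ s → t ≤ w.r → ∑ c ∈ Finset.Ioc s t, φ c = ∑ c ∈ Finset.Ioc s t, vv w n n' c :=
    fun s t u v => Finset.sum_congr rfl fun c e => h1 c (u.trans_lt (Finset.mem_Ioc.1 e).1) ((Finset.mem_Ioc.1 e).2.trans v)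
  have h3 : ∀ x, w.l ≤ x → x ≤ w.r → ∑ c ∈ Finset.Icc w.l x, φ c = κ + ∑ c ∈ Finset.Ioc w.l x, vv w n n' c :=
    fun x u v => by rw [← Finset.Ioc_insert_left u, Finset.sum_insert (by simp), h2 _ _ le_rfl v, show φ w.l = κ from if_pos rfl]
  refine ⟨φ, h1, ?_, fun a h => ?_⟩
  · rw [← Finset.insert_Icc_right_eq_Icc_add_one (by omega), Finset.sum_insert (by simp), h3 _ lt.le le_rfl,
      show φ (w.r + 1) = _ from (if_neg (by omega)).trans (if_pos rfl), sub_add_cancel]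
  rcases h.cases hw with ⟨s, t, rfl⟩ | ⟨x, e, u, v, p⟩
  · have := h.1.1.lo; have := h.1.1.hi
    rw [nu_arc h.1 hF hF' k k', if_pos (show (Bs.sA s t).arc from trivial), ← h2 s t h.1.1.lo h.1.1.hi]
    congr 2
    ext c
    simp [Bs.side]
    omega
  · rw [show sd R a false = sd R (.yS x) false by rcases e with rfl | rfl <;> rfl, hκ x u v p,
      if_neg (by rcases e with rfl | rfl <;> exact id), sub_zero, ← h3 x u v.le]
    congr 1
    ext c
    rcases e with rfl | rfl <;> simp [Bs.side] <;> omega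

omit hF hF' hJ k k' in
/-- the localisation sum of the local numbers -/
def vs (w : Shp Γ) (B : Finset Bs) (η : Bs → Bool) (n n' : RW) : ℝ × ℝ × ℝ × ℝ :=
  ∑ c ∈ Finset.Ioc w.l w.r with w.l - 1 < c ∧ c ≤ w.r + 1 ∧ InV B η c, vv w n n' c +
  ∑ a ∈ B with a.arc ∧ w.l - 1 ≤ a.lo ∧ a.lo < w.r + 1 ∧ Adj B η a, (if η a then 1 else -1 : ℝ) • av w n n' a

/-- **the numbers of pieces**, with the weights of the caps -/
theorem exists_kap : ∃ κ κ' : ℝ × ℝ × ℝ × ℝ, ∀ B η, Gp w B η → nu X.P.I (-R.O) F F' (pc R B η) =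
    vs w B η n n' + (if InV B η w.l then κ else 0) + if InV B η (w.r + 1) then κ' else 0 := by
  obtain ⟨φ, h1, h2, h3⟩ := exists_phi hF hF' hJ k k'
  refine ⟨φ w.l, φ (w.r + 1), fun B η h => ?_⟩
  have lt := hw.lt
  rw [h.nu hF hF' h2 fun a u => h3 a (h.ok a u), vs, ← Finset.insert_Icc_right_eq_Icc_add_one (by omega),
    ← Finset.Ioc_insert_left lt.le, Finset.sum_filter, Finset.sum_insert (by simp; omega), Finset.sum_insert (by simp),
    ← Finset.sum_filter, Finset.sum_congr (Finset.filter_congr (q := fun c => w.l - 1 < c ∧ c ≤ w.r + 1 ∧ InV B η c)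
      fun c u => by have := Finset.mem_Ioc.1 u; simp [show w.l - 1 < c by omega, show c ≤ w.r + 1 by omega])
      fun c u => let v := Finset.mem_Ioc.1 (Finset.mem_filter.1 u).1; h1 c v.1 v.2,
    Finset.filter_congr (s := B) (q := fun a => a.arc ∧ w.l - 1 ≤ a.lo ∧ a.lo < w.r + 1 ∧ Adj B η a) fun a u => by
      have := OK_lo (h.ok a u).1
      simp [show w.l - 1 ≤ a.lo by omega, show a.lo < w.r + 1 by omega]]
  abel

/-- **middle pieces** -/
theorem nu_pc (h : Gp w B η) (h1 : ¬InV B η w.l) (h2 : ¬InV B η (w.r + 1)) :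
    nu X.P.I (-R.O) F F' (pc R B η) = vs w B η n n' := by
  obtain ⟨_, _, e⟩ := exists_kap hF hF' hJ k k'
  rw [e B η h, if_neg h1, if_neg h2, add_zero, add_zero]

/-- **last pieces** -/
theorem nu_lst (h : Gp w B η) (h1 : ¬InV B η w.l) (h2 : InV B η (w.r + 1)) (t1 : w.l ≤ t) (t2 : t < w.r)
    (p : (w.s t).r.2.2 ≠ 0) : nu X.P.I (-R.O) F F' (pc R B η) = vs w B η n n' +
      (nu X.P.I (-R.O) F F' (X.τ ⁻¹' Ioi (t + 1 / 2)) - ∑ c ∈ Finset.Ioc t w.r, vv w n n' c) := by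
  obtain ⟨κ, κ', e⟩ := exists_kap hF hF' hJ k k'
  have := e {.yS t} (fun _ => true) ⟨by simpa using gd_yS t1 t2 p, by simp, .inr ⟨.yS t, by simp, by simp [Adj, InV]⟩⟩
  rw [if_neg (by simpa [InV, Bs.side]), if_pos (by simp [InV, Bs.side]; omega), add_zero, vs,
    Finset.sum_eq_zero (s := Finset.filter _ {Bs.yS t}) (by simp [Bs.arc]), add_zero,
    show Finset.filter _ (Finset.Ioc w.l w.r) = Finset.Ioc t w.r by ext; simp [InV, Bs.side]; omega,
    show pc R {.yS t} (fun _ => true) = X.τ ⁻¹' Ioi (t + 1 / 2) by ext; simp [pc, sd, Rz.Z, Bs.r0]] at this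
  rw [e B η h, if_neg h1, if_pos h2, add_zero, this, add_sub_cancel_left]

end nu

theorem vs_1 : (vs w B η n n').1 = 0 := by
  simp only [vs, Prod.fst_add, Prod.fst_sum, Prod.smul_fst, vv, av, lv, smul_zero, Finset.sum_const_zero, add_zero]

theorem vs_4 : (vs w B η n n').2.2.2 = (2 * π) ^ 2 * bs w B η (w.l - 1) (w.r + 1) n n' := by
  simp only [vs, Prod.snd_add, Prod.snd_sum, Prod.smul_snd, smul_eq_mul, vv, av, lv, bs, mul_add, Finset.mul_sum,
    mul_left_comm _ ((2 * π) ^ 2)]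
  rfl

theorem vs_g (m : Wt) : (vs w B η n n').2.1 - (vs w B η n n').2.2.1 = ssum w B η (w.l - 1) (w.r + 1) lg m := by
  simp only [vs, Prod.snd_add, Prod.fst_add, Prod.snd_sum, Prod.fst_sum, Prod.smul_snd, Prod.smul_fst, smul_eq_mul,
    vv, av, lv, ssum, lg, add_sub_add_comm, ← Finset.sum_sub_distrib]
  congr 1 <;> exact Finset.sum_congr rfl fun _ _ => by ring

theorem lv_p {u v : Z2} (h : PM u v ∨ Uni u v) (i j : ℤ) : ((dt u v : ℝ) ^ 2 + (nn u v).sign) / 2 = Nm96.lp u v i j := by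
  rcases h with h | h
  · simp [Nm96.lp, nn, h.dt_eq]
  · rw [Nm96.lp, if_neg fun e => by simpa [e] using h.sq, sq_uni h]

theorem vs_p (hw : w.OK) (h : Gp w B η) (m : Wt) : (vs w B η n n').2.1 = ssum w B η (w.l - 1) (w.r + 1) Nm96.lp m := by
  simp only [vs, Prod.snd_add, Prod.fst_add, Prod.snd_sum, Prod.fst_sum, Prod.smul_snd, Prod.smul_fst, smul_eq_mul,
    vv, av, lv, ssum]
  congr 1 <;> refine Finset.sum_congr rfl fun c u => ?_
  · exact let v := Finset.mem_Ioc.1 (Finset.mem_filter.1 u).1; lv_p (hw.st c v.1 v.2).2 _ _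
  · obtain ⟨u1, u2, -⟩ := Finset.mem_filter.1 u
    obtain ⟨s, t, rfl⟩ | ⟨x, rfl | rfl, -⟩ := (h.ok c u1).cases hw
    exacts [congrArg _ (lv_p (.inr (h.ok _ u1).1.2) _ _), u2.elim, u2.elim]

/-- **the intersection form of a middle piece** -/
theorem iq_pc (hJ : JQ Γ) (h : Gp w B η) (h1 : ¬InV B η w.l) (h2 : ¬InV B η (w.r + 1)) (hF : Cl X.P.I 2 univ F)
    (hF' : Cl X.P.I 2 univ F') (k : Ord R F n) (k' : Ord R F' n') {ι : Type*} [Fintype ι] [DecidableEq ι]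
    {K : Set X.P.M} {e : ι → X.P.M → Ext X.P.E} {G : Matrix ι ι ℝ} (L : Lat X.P.I (-R.O) (pc R B η) K e G) :
    Num57.isq X.P.I (-R.O) e G F F' = (2 * π) ^ 2 * bs w B η (w.l - 1) (w.r + 1) n n' := by
  rw [← vs_4, ← nu_pc hF hF' hJ k k' h h1 h2, L.nu (hF.mono (subset_univ _)) (hF'.mono (subset_univ _))]

theorem ip_pc (hJ : JQ Γ) (h : Gp w B η) (h1 : ¬InV B η w.l) (h2 : ¬InV B η (w.r + 1)) (hF : Cl X.P.I 2 univ F)
    (hF' : Cs X.P.I 2 (pc R B η) F') (k : Ord R F n) (k' : Ord R F' n') :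
    ip X.P.I (-R.O) F F' = (2 * π) ^ 2 * bs w B η (w.l - 1) (w.r + 1) n n' := by
  rw [← vs_4, ← nu_pc hF hF'.cl hJ k k' h h1 h2, (h.hl R).nu_ip (hF.mono (subset_univ _)) hF']

/-- forms whose orders are orthogonal to all orders are exact on a middle piece -/
theorem ex_pc (hJ : JQ Γ) (h : Gp w B η) (h1 : ¬InV B η w.l) (h2 : ¬InV B η (w.r + 1)) (hF : Cl X.P.I 2 univ F)
    (k : Ord R F n) (h0 : ∀ n', TR w n' → bs w B η (w.l - 1) (w.r + 1) n n' = 0) : Ex X.P.I (pc R B η) F :=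
  let L := (h.hl R).lat.some.h
  L.ex (hF.mono (subset_univ _)) fun i => let ⟨_, a, b⟩ := exists_ord R (L.cs i).cl
    (ip_pc hJ h h1 h2 hF (L.cs i) k b).trans (by rw [h0 _ a, mul_zero])

variable (R) in
theorem hz_pc (hJ : JQ Γ) (h : Gp w B η) (h1 : ¬InV B η w.l) (h2 : ¬InV B η (w.r + 1)) : HZ X.P.I 1 (pc R B η) :=
  (h.hl R).hz (F := 0) (F' := 0) (by rw [nu_pc Cl.zero Cl.zero hJ (ord_zero R) (ord_zero R) h h1 h2, vs_1])

variable {Λ : NmL Γ} {lam : Type} [Fintype lam] [DecidableEq lam]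

theorem HL.nbx {Z : Mf 4} {o : Z.M → Ext Z.E} {U : Set Z.M} {p : Z.M → Matrix lam lam ℂ} (h : HL Z.I o U)
    (hp : (⟨p, 0⟩ : Ln Z.E Z.M lam).On Z.I U) {v : ℝ × ℝ × ℝ × ℝ} (e : Dr59.nu Z.I o (Fp Z p) (Fp Z p) U = v) :
    NbX Z o p U (1 - v.1 + v.2.1) (v.2.1 - v.2.2.1) (v.2.2.2 / (2 * π) ^ 2) := by
  rw [← e, h.lat.some.h.nu (hp.cl_F h.op) (hp.cl_F h.op)]
  exact nbx_of_lat hp h.lat.some.h

/-- **BR-NB, middle pieces** -/
theorem nbM (hJ : JQ Γ) (K : LCx C Λ) (lam : Type) [Fintype lam] [DecidableEq lam] : NbM K lam :=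
  fun F hw n W B η T h1 h2 => by
  have c := W.ln.cl_F isOpen_univ
  have := HL.nbx (Z := (C.X hw).mf) ((gp_of T).hl _) (W.ln.mono (subset_univ _))
    (nu_pc c c hJ (ord_line W) (ord_line W) (gp_of T) h1 h2)
  rwa [vs_g n, vs_1, vs_p hw (gp_of T) n, vs_4, sub_zero, mul_div_cancel_left₀ _ (by positivity)] at this

end Crest.Agent.X212.Dr59
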