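import Crest.Agent.X212.Dr59.NbT
import Crest.Agent.X212.Rob53.Hz
import Crest.Agent.X212.Num57.Tw
import Crest.Agent.X212.Ord99.Tst

/-!
# X212 / Dr59, part NbR (helper59): orders of closed forms on the manifold of a word

* `Ord R F n`, `Ord.comb`, `Ord.coh`, `Ord.add_p`, `Ord.tr`, `exists_ord`, `ord_line`;
* `Tf` (tests), `exists_test`, `exists_test_disc`, `ex_disc`; `nu_rg`, `nu_arc` (windows and half discs).
-/

set_option autoImplicit false
set_option linter.unusedSectionVars false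
set_option linter.style.haveILetI false

open Set Filter Topology Function Module
open scoped ContDiff Manifold Real
open Crest.Agent.R208.F (Ext)
open Crest.GeometryTopology.DehnSurgery (S3)

noncomputable section

namespace Crest.Agent.X212.Dr59

open M Cyl58 Wd38 Rod53 Orx52
open Int54 (Ori SameOn)
open Line51 (ang ang_KD WL LCx Ln dot vch op_tm)
open Ord99 (RW co TR yb)
open Sid48 (sd)
open scoped Cap57

variable {Γ : Nm} {C : Cx Γ} {w : Shp Γ} {hw : w.OK} {X : TP V4} (R : Rz C hw X) {x y x' y' s t j : ℤ}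

/-! ### maximal ranges -/

/-- maximal junction free ranges -/
structure Mx (w : Shp Γ) (x y : ℤ) : Prop where
  rg : w.Rg x y
  lo : x = w.l ∨ ∃ J, w.s x = .jn J
  hi : y = w.r ∨ ∃ J, w.s y = .jn J

theorem exists_mx (h : w.Rg s t) : ∃ x y, Mx w x y ∧ x ≤ s ∧ t ≤ y := by
  obtain ⟨x, ⟨a1, a2, a3⟩, a4⟩ := Int.exists_greatest_of_bdd
    (P := fun x => w.l ≤ x ∧ x ≤ s ∧ (x = w.l ∨ ∃ J, w.s x = .jn J)) ⟨s, fun _ k => k.2.1⟩
    ⟨w.l, le_rfl, h.lo, .inl rfl⟩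
  obtain ⟨y, ⟨b1, b2, b3⟩, b4⟩ := Int.exists_least_of_bdd
    (P := fun y => y ≤ w.r ∧ t ≤ y ∧ (y = w.r ∨ ∃ J, w.s y = .jn J)) ⟨t, fun _ k => k.2.1⟩
    ⟨w.r, le_rfl, h.hi, .inl rfl⟩
  have := h.lt
  refine ⟨x, y, ⟨⟨a1, by omega, b1, fun j c d => Shp.rod_iff.2 fun J e => ?_⟩, a3, b3⟩, a2, b2⟩
  rcases le_or_gt j s with k | k
  · exact (a4 j ⟨by omega, k, .inr ⟨J, e⟩⟩).not_gt c
  rcases lt_or_ge j t with k' | k'
  · exact Shp.rod_iff.1 (h.fr j k k') J e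
  · exact (b4 j ⟨by omega, k', .inr ⟨J, e⟩⟩).not_gt d

theorem Mx.sub (h : Mx w x y) (h' : w.Rg x' y') (h1 : x < y') (h2 : x' < y) : x ≤ x' ∧ y' ≤ y :=
  ⟨not_lt.1 fun k => h.lo.elim (fun e => by have := h'.lo; omega) fun ⟨J, e⟩ => Shp.rod_iff.1 (h'.fr x k h1) J e,
    not_lt.1 fun k => h.hi.elim (fun e => by have := h'.hi; omega) fun ⟨J, e⟩ => Shp.rod_iff.1 (h'.fr y h2 k) J e⟩

theorem Mx.eq (h : Mx w x y) (h' : Mx w x' y') (h1 : x < y') (h2 : x' < y) : x = x' ∧ y = y' :=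
  have a := h.sub h'.rg h1 h2
  have b := h'.sub h.rg h2 h1
  ⟨a.1.antisymm b.1, b.2.antisymm a.2⟩

theorem exists_mx1 (h1 : w.l ≤ j) (h2 : j < w.r) : ∃ x y, Mx w x y ∧ x ≤ j ∧ j < y := exists_mx (Shp.rg_one h1 h2)

/-! ### charts -/

/-- the Borel structure -/
local instance nbMs (T : Tb (𝓡 3) S3) (v : ℝ → Z2) : MeasurableSpace (Rod53.X T v) := borel _

local instance nbBs (T : Tb (𝓡 3) S3) (v : ℝ → Z2) : BorelSpace (Rod53.X T v) := ⟨rfl⟩

variable (C w) in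
/-- the rod manifold of a range -/
abbrev XC (x y : ℤ) : Type := Rod53.X (C.T (w.kn x)) (wd (w.bz x y))

local instance nbSc : SecondCountableTopology (XC C w x y) := (C.tp w x y).sc

variable (C w) in
/-- the time on it -/
abbrev tC (x y : ℤ) : XC C w x y → ℝ := (C.T (w.kn x)).time (wd (w.bz x y))

/-- the chart of a range -/
def cB (h : w.Rg x y) : PartialDiffeomorph (𝓡 4) X.P.I (XC C w x y) X.P.M ∞ := (R.B h).φ

/-- forms in the chart -/
abbrev pB (h : w.Rg x y) (F : X.P.M → Ext X.P.E) : XC C w x y → Ext E4 := pm (𝓡 4) X.P.I (cB R h) F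

theorem cB_src (h : w.Rg x y) : tC C w x y ⁻¹' II x y ⊆ (cB R h).source := (R.B h).src.ge

theorem cB_img (h : w.Rg x y) {S : Set ℝ} (hS : S ⊆ II x y) : cB R h '' (tC C w x y ⁻¹' S) = X.τ ⁻¹' S :=
  (R.B h).image_preimage hS

theorem cB_mp (h : w.Rg x y) : Mp (𝓡 4) X.P.I (tC C w x y ⁻¹' II x y) univ (cB R h) :=
  ⟨fun _ k => ((R.B h).ld k).contMDiffAt, mapsTo_univ _ _⟩

theorem cB_same (h : w.Rg x y) : SameOn (-C.ok w x y) (pm (𝓡 4) X.P.I (cB R h) (-R.O)) (tC C w x y ⁻¹' II x y) :=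
  same_symm (R.O_spec.B h).neg

theorem ori_O : Ori X.P.I (-R.O) := ori_neg R.O_spec.ori

theorem cB_disc (h : w.Rg x y) (h' : w.Rg s t) (h1 : x ≤ s) (h2 : t ≤ y) :
    (C.T _).disc (wd (w.bz x y)) ((s + t + 1) / 2) (Iio ((t - s) / 2)) ⊆ tC C w x y ⁻¹' II x y ∧
    cB R h '' (C.T _).disc (wd (w.bz x y)) ((s + t + 1) / 2) (Iio ((t - s) / 2)) = sd R (.sA s t) false := by
  have k : ∀ p ∈ (C.T _).disc (wd (w.bz x y)) ((s + t + 1) / 2) (Iio ((t - s) / 2)), tC C w x y p ∈ II s t :=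
    fun p hp => mem_II_of_le ((C.T _).abs_time_le _ p) (lt_trans hp.2 (by linarith))
  refine ⟨fun p hp => II_mono h1 h2 (k p hp), Subset.antisymm ?_ fun z hz => ?_⟩
  · rintro _ ⟨p, hp, rfl⟩
    exact (R.mem_D h h' (Rz.ov_of_le h' h1 h2) (II_mono h1 h2 (k p hp))).2 ⟨k p hp, hp⟩
  · obtain ⟨p, a, rfl⟩ := (R.B h).surj (II_mono h1 h2 (R.D_II hz))
    exact ⟨p, ((R.mem_D h h' (Rz.ov_of_le h' h1 h2)
      ((show C.tm p = _ from a) ▸ II_mono h1 h2 (R.D_II hz))).1 hz).2, rfl⟩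

variable (C) in
/-- the Seifert form -/
def al (k : Γ.ι) : S3 → Ext E3 := ang (𝓡 3) (extend Subtype.val (C.kd k).θ fun _ => 1)

variable (C) in
theorem saC (x y : ℤ) : Sa (C.T (w.kn x)) (w.bz x y) (al C (w.kn x)) (oS (C.kd (w.kn x)).toTube) (C.ok w x y) x y
    (tC C w x y ⁻¹' II x y) :=
  ⟨by simpa [al] using xa_ang (ang_KD (C.kd (w.kn x))) 1, C.ok_spec rfl, pos_τ _ _, w.isWd_bz x y, op_tm C w x y,
    preimage_mono (Icc_subset_Ioo (by linarith) (by linarith))⟩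

variable (C) in
/-- fillings of nonzero slope are rational homology spheres -/
theorem hz_fil {τ : Γ.ι × Z2} (h : Pr τ.2) (h0 : τ.2.2 ≠ 0) : ∀ k < 2, HZ (𝓡 3) (k + 1) (univ : Set (mF C.kd τ).M) :=
  fun k hk => by
  have d := Rob53.dr_of (ori_oS (C.kd τ.1).toTube) (hz_sphere (d := 3) (k := 0) (by norm_num))
    (hz_sphere (d := 3) (k := 1) (by norm_num)) (ang_KD (C.kd τ.1)) one_ne_zero
  have e : dot (0, 1) (sa (fd τ.2)) ≠ 0 := by rw [sa_fd h]; simpa [dot] using h0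
  obtain rfl | rfl : k = 0 ∨ k = 1 := by omega
  exacts [d.fill1 (C.F τ rfl) (uni_s _) e, d.fill2 (C.F τ rfl) (uni_s _) e]

theorem bz_r (hw : w.OK) (h : w.Rg x y) (h1 : x ≤ j) (h2 : j < y) : w.bz x y j = (w.s j).r.2 := by
  rw [h.bz_eq hw, h.bw_r h1 h2]

theorem bz_l (hw : w.OK) (h : w.Rg x y) (h1 : x < j) (h2 : j ≤ y) : w.bz x y j = (w.s j).l.2 := by
  rw [h.bz_eq hw, Shp.bw_mid h1 h2]

theorem hz_slot (hw : w.OK) (h : w.Rg x y) (h1 : x ≤ s) (h2 : s < y) (p : (w.s s).r.2.2 ≠ 0) :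
    ∀ k < 2, HZ (𝓡 4) (k + 1) (tC C w x y ⁻¹' Ioo ((s : ℝ) + 1 / 2) (s + 3 / 4)) := fun k hk => by
  have q := C.pt hw h s (w.s s).r (h.kn_eq hw h1 h2) (h.bw_r h1 h2)
  have u : Ioo ((s : ℝ) + 1 / 2) (s + 3 / 4) ⊆ II s s := Ioo_subset_Ioo_left (by linarith)
  have := (hz_pd q.φ (isOpen_Ioo.preimage (C.cy _).cont) ((preimage_mono u).trans q.src.ge)).2
    (univ_prod ▸ (hz_fil C (hw.pr s (h.lo.trans h1) (h2.le.trans h.hi)).2 p k hk).prod_convex isOpen_univ isOpen_Ioo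
      (convex_Ioo _ _))
  rwa [q.image_preimage u] at this

/-! ### orders -/

/-- orders on half slots -/
def hl (n : RW) (k : ℤ × Bool) : ℝ := cond k.2 (n.2 k.1) (n.1 k.1)

/-- the slopes as orders -/
def pP (w : Shp Γ) : RW := (fun j => (w.rt j).2, fun j => (w.s j).r.2.2)

/-- **`F` has the orders `n`** -/
def Ord (F : X.P.M → Ext X.P.E) (n : RW) : Prop := ∀ x y (h : Mx w x y),
  WO (C.T (w.kn x)) (w.bz x y) (al C (w.kn x)) (C.ok w x y) x y (pB R h.rg F) (hl n)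

variable {R} {F F' f : X.P.M → Ext X.P.E} {n n' : RW} {K : Set X.P.M} {d : ℤ → ℝ}

theorem pv_hl (hw : w.OK) (h : w.Rg x y) {k : ℤ × Bool} (hk : k ∈ hs x y) : pv (w.bz x y) k.1 = hl (pP w) k := by
  obtain ⟨j, _ | _⟩ := k <;> obtain ⟨a, b⟩ := mem_hs.1 hk
  exacts [congrArg (fun v : Z2 => (v.2 : ℝ)) (bz_l hw h a b), congrArg (fun v : Z2 => (v.2 : ℝ)) (bz_r hw h a b)]

theorem cl_pB (h : w.Rg x y) (hF : Cl X.P.I 2 univ F) : Cl (𝓡 4) 2 (tC C w x y ⁻¹' II x y) (pB R h F) :=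
  hF.pm (cB_mp R h)

theorem Ord.congr (h : Ord R F n) (e1 : ∀ j, w.l < j → j ≤ w.r → n.1 j = n'.1 j)
    (e2 : ∀ j, w.l ≤ j → j < w.r → n.2 j = n'.2 j) : Ord R F n' := fun x y m => (h x y m).congr <| by
  have := m.rg.lo; have := m.rg.hi
  rintro ⟨j, _ | _⟩ hk <;> obtain ⟨a, b⟩ := mem_hs.1 hk
  exacts [e1 j (by omega) (by omega), e2 j (by omega) (by omega)]

theorem Ord.comb (r : ℝ) (h : Ord R F n) (h' : Ord R F' n') (hF : Cl X.P.I 2 univ F) (hF' : Cl X.P.I 2 univ F') :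
    Ord R (F + r • F') (n + r • n') := fun x y m => by
  rw [pB, pm_add, pm_smul]
  exact ((saC C x y).comb r (h x y m) (h' x y m) (cl_pB m.rg hF).sm (cl_pB m.rg hF').sm).congr
    (by rintro ⟨j, _ | _⟩ - <;> rfl)

variable (R) in
theorem ord_zero : Ord R 0 0 := fun x y _ =>
  ((saC C x y).wo_zero fun p _ => congrFun (pm_zero _) p).congr (by rintro ⟨j, _ | _⟩ - <;> rfl)

theorem Ord.add (h : Ord R F n) (h' : Ord R F' n') (hF : Cl X.P.I 2 univ F) (hF' : Cl X.P.I 2 univ F') :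
    Ord R (F + F') (n + n') := by simpa using h.comb 1 h' hF hF'

theorem Ord.smul (r : ℝ) (h : Ord R F n) (hF : Cl X.P.I 2 univ F) : Ord R (r • F) (r • n) := by
  simpa using (ord_zero R).comb r h Cl.zero hF

theorem Ord.neg (h : Ord R F n) (hF : Cl X.P.I 2 univ F) : Ord R (-F) (-n) := by simpa using h.smul (-1) hF

theorem Ord.sub (h : Ord R F n) (h' : Ord R F' n') (hF : Cl X.P.I 2 univ F) (hF' : Cl X.P.I 2 univ F') :
    Ord R (F - F') (n - n') := by simpa [sub_eq_add_neg] using h.comb (-1) h' hF hF'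

/-- orders only see the class on the word part -/
theorem Ord.coh (h : Ord R F n) (hF : Cl X.P.I 2 univ F) (hF' : Cl X.P.I 2 univ F')
    (e : Ex X.P.I (X.τ ⁻¹' II w.l w.r) (F' - F)) : Ord R F' n := fun x y m =>
  (saC C x y).coh (h x y m) (cl_pB m.rg hF).sm (cl_pB m.rg hF').sm (by
    rw [← pm_sub]
    exact e.pm ⟨(cB_mp R m.rg).sm, fun _ k => II_mono m.rg.lo m.rg.hi ((R.B m.rg).mem k)⟩)

theorem Ord.add_p (h : Ord R F n) (r : ℝ) : Ord R F (n + r • pP w) := fun x y m =>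
  ((h x y m).add_p r).congr fun k hk => by
    rw [pv_hl hw m.rg hk]
    obtain ⟨j, _ | _⟩ := k <;> rfl

theorem Ord.tr (h : Ord R F n) (hF : Cl X.P.I 2 univ F) : TR w n := by
  have k : ∀ c (ε : ℤ), w.l < c → c ≤ w.r → w.lf c = ε • w.rt c → PM (w.lf c) (w.rt c) → n.2 (c - 1) = ε * n.1 c :=
    fun c ε a b e p => by
      obtain ⟨x, y, m, u, v⟩ := exists_mx1 (w := w) (j := c - 1) (by omega) (by omega)
      have e1 := bz_r hw m.rg u v
      have e2 := bz_l hw m.rg (j := c) (by omega) (by omega)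
      exact (saC C x y).tr_pt (h x y m) (cl_pB m.rg hF) (by omega) (by omega) (e1.trans (e.trans (e2 ▸ rfl)))
        (e1 ▸ e2 ▸ p)
  refine ⟨fun j τ a b e => ?_, fun c a b e => by simpa using k c 1 a b (by simpa) (.inl e),
    fun c a b e => by simpa using k c (-1) a b (by simpa) (.inr e)⟩
  obtain ⟨x, y, m, u, v⟩ := exists_mx1 a.le b
  exact (saC C x y).tr_rod (h x y m) (cl_pB m.rg hF) (u.lt_of_ne fun c => m.lo.elim (fun l => by omega)
    fun ⟨J, l⟩ => by rw [c, e] at l; cases l) v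

variable (R) in
/-- **every closed form has orders** -/
theorem exists_ord (hF : Cl X.P.I 2 univ F) : ∃ n, TR w n ∧ Ord R F n := by
  choose! m hm using fun x y (h : Mx w x y) => (saC C x y).exists_wo (cl_pB (R := R) h.rg hF)
  choose! g g' h1 h2 h3 using fun j => exists_mx1 (w := w) (j := j)
  have : Ord R F (fun j => m (g (j - 1)) (g' (j - 1)) (j, false), fun j => m (g j) (g' j) (j, true)) :=
    fun x y h => (hm x y h).congr <| by
      have := h.rg.lo; have := h.rg.hi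
      have e : ∀ j, x ≤ j → j < y → x = g j ∧ y = g' j := fun j a b =>
        h.eq (h1 j (by omega) (by omega)) (a.trans_lt (h3 j (by omega) (by omega)))
          ((h2 j (by omega) (by omega)).trans_lt b)
      rintro ⟨j, _ | _⟩ hk <;> obtain ⟨a, b⟩ := mem_hs.1 hk
      · obtain ⟨rfl, rfl⟩ := e (j - 1) (by omega) (by omega)
        rfl
      · obtain ⟨rfl, rfl⟩ := e j a b
        rfl
  exact ⟨_, this.tr hF, this⟩

/-- **the curvature of the line of a weighted word** -/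
theorem ord_line {Λ : NmL Γ} {L : LCx C Λ} {m : Wt} {lam : Type} [Fintype lam] (W : WL L R m lam) :
    Ord R (Ln.F X.P.I ⟨W.p, 0⟩) (co m) := fun x y h => by
  choose e he using vch hw W.ok h.rg
  have o := (saC C (w := w) x y).op
  have a : (⟨fun z => W.p (cB R h.rg z), 0⟩ : Ln E4 (XC C w x y) lam).On (𝓡 4) (tC C w x y ⁻¹' II x y) :=
    Line51.on_comp W.ln (cB_mp R h.rg)
  refine ((saC C x y).coh ((saC C x y).wo (wc_line' he o a (W.tl h.rg)).oc) (a.cl_F o).sm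
    (cl_pB h.rg (W.ln.cl_F isOpen_univ)).sm (ex_of_zero fun p hp => sub_eq_zero.2 ?_)).congr ?_
  · rw [pB, ← W.ln.F_pull isOpen_univ o (cB_mp R h.rg) hp]
    exact a.F_congr o (fun _ _ => rfl) (fun z _ => congrFun (pm_zero _) z) hp
  · rintro ⟨j, _ | _⟩ hk <;> obtain ⟨u, v⟩ := mem_hs.1 hk <;> rw [dr_rc2, (he j).2]
    exacts [congrArg Int.cast (Line51.bn_mid u v), congrArg Int.cast (Line51.bn_r W.ok h.rg u v)]

/-! ### tests -/

/-- the orders of a test -/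
def ot (w : Shp Γ) (s t : ℤ) (d : ℤ → ℝ) : RW :=
  (fun j => ∑ k ∈ Finset.Icc s t with j ≤ k, d k * dt (w.bw s t k) (w.rt j),
    fun j => ∑ k ∈ Finset.Icc s t with j < k, d k * dt (w.bw s t k) (w.s j).r.2)

variable (R) in
/-- a test for the weights `d` on the slots `s, …, t`, supported in `K` -/
structure Tf (K : Set X.P.M) (s t : ℤ) (d : ℤ → ℝ) (f : X.P.M → Ext X.P.E) : Prop where
  cs : Cs X.P.I 2 K f
  ord : Ord R f (ot w s t d)
  ip : ∀ F n, Cl X.P.I 2 univ F → Ord R F n →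
    ip X.P.I (-R.O) F f = -((2 * π) ^ 2 * ∑ k ∈ Finset.Icc s t, d k * yb n s t k)

theorem Tf.mono {K' : Set X.P.M} (h : Tf R K s t d f) (k : K ⊆ K') : Tf R K' s t d f := ⟨h.cs.mono k, h.ord, h.ip⟩

theorem Tf.coh {K' : Set X.P.M} (h : Tf R K s t d f) (h' : Cs X.P.I 2 K' F) (e : Ex X.P.I univ (f - F)) :
    Tf R K' s t d F :=
  ⟨h', h.ord.coh h.cs.cl h'.cl (e.symm.mono (subset_univ _)), fun G n a b => by
    haveI : CompactSpace X.P.M := R.cpt
    have c : Cs X.P.I 2 univ G := ⟨a, .of_compactSpace _, subset_univ _⟩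
    rw [← h.ip G n a b, ip_comm a.dg, ip_comm a.dg, c.ip_coh (ori_O R) h.cs.cl.sm h'.cl.sm e]⟩

theorem sum_dt (h0 : ∑ k ∈ Finset.Icc s t, d k * (w.bw s t k).2 = 0) (v : Z2) :
    ∑ k ∈ Finset.Icc s t, d k * dt (w.bw s t k) v = (∑ k ∈ Finset.Icc s t, d k * (w.bw s t k).1) * v.2 := by
  rw [← sub_zero (_ * _), ← zero_mul (v.1 : ℝ), ← h0, Finset.sum_mul, Finset.sum_mul, ← Finset.sum_sub_distrib]
  exact Finset.sum_congr rfl fun k _ => by simp only [dt, Int.cast_sub, Int.cast_mul]; ring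

theorem tf_of (h : Mx w x y) (h1 : x ≤ s) (h2 : s < t) (h3 : t ≤ y)
    (h0 : ∑ k ∈ Finset.Icc s t, d k * (w.bw s t k).2 = 0) {K : Set (XC C w x y)} (hK : K ⊆ sb _ _ s t) {φ}
    (hφ : TS (C.T _) (w.bz x y) (al C (w.kn x)) (C.ok w x y) x y (tC C w x y ⁻¹' II x y) K s t d φ) :
    Tf R (cB R h.rg '' K) s t d (-psh (cB R h.rg) φ) := by
  have H := saC C (w := w) x y
  have s1 := hK.trans ((sb_mono h1 h3).trans H.sub)
  have c := (hφ.cs.psh _ (s1.trans (cB_src R h.rg))).neg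
  have eb : ∀ k ∈ Finset.Icc s t, w.bw s t k = w.bz x y k := fun k hk => by
    rw [h.rg.bz_eq hw, h.rg.bw_eq h1 h2 h3 (Finset.mem_Icc.1 hk).1 (Finset.mem_Icc.1 hk).2]
  set Q := ∑ k ∈ Finset.Icc s t, d k * (w.bw s t k).1
  refine ⟨c, fun x' y' h' => ?_, fun F n a b => ?_⟩
  · by_cases o : x < y' ∧ x' < y
    · obtain ⟨rfl, rfl⟩ := h.eq h' o.1 o.2
      have c' := hφ.cs.on (tC C w x y ⁻¹' II x y)
      refine ((H.coh (H.comb (-1) (H.wo_zero fun _ _ => rfl) hφ.wo Sm.zero c'.sm) (Sm.zero.add (c'.sm.smul _))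
        (cl_pB h.rg c.cl).sm (ex_of_zero fun p hp => ?_)).add_p Q).congr fun k hk => ?_
      · simp [pB, pm_neg, pm_psh _ (cB_src R h.rg hp)]
      have e : -oh (w.bz x y) (win s t) (fun k => d k.1) k.1 + Q * pv (w.bz x y) k.1 =
          ∑ i ∈ Finset.Icc s t with k.1 ≤ i, d i * dt (w.bw s t i) (w.bz x y k.1) := by
        rw [pv, ← sum_dt h0, ← Finset.sum_filter_add_sum_filter_not _ fun i => i < k.1, oh, win, Finset.filter_map,
          Finset.sum_map, ← add_assoc]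
        simp only [not_lt]
        rw [add_eq_right, neg_add_eq_zero]
        exact Finset.sum_congr rfl fun i hi => by rw [eb i (Finset.mem_filter.1 hi).1]; rfl
      refine Eq.trans (by simp) (e.trans ?_)
      obtain ⟨j, _ | _⟩ := k <;> obtain ⟨u, v⟩ := mem_hs.1 hk
      · rw [bz_l hw h.rg u v]
        rfl
      · simp only [hl, cond, ot, ← bz_r hw h.rg u v]
        refine (Finset.sum_subset (Finset.monotone_filter_right _ fun _ _ => le_of_lt) fun i a b => ?_).symm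
        obtain rfl : i = j := by simp only [Finset.mem_filter] at a b; have := a.2; by_contra; exact b ⟨a.1, by omega⟩
        rw [eb _ (Finset.mem_filter.1 a).1, dt_self, Int.cast_zero, mul_zero]
    · have z := (saC C (w := w) x' y').wo_zero (F := pB R h'.rg (-psh (cB R h.rg) φ)) fun p hp => by
        rw [pB, pm_apply, c.eq_zero, map_zero]
        rintro ⟨q, hq, e⟩
        have e1 : tC C w x y q = tC C w x' y' p :=
          ((R.B h.rg).tm q (s1 hq)).symm.trans ((congrArg X.τ e).trans ((R.B h'.rg).tm p ((saC C x' y').sub hp)))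
        have e2 : tC C w x y q ∈ Icc _ _ := sb_mono h1 h3 (hK hq)
        have e3 : tC C w x' y' p ∈ Icc _ _ := hp
        refine o ⟨Int.cast_lt.1 (?_ : (x : ℝ) < y'), Int.cast_lt.1 (?_ : (x' : ℝ) < y)⟩ <;>
          linarith [e2.1, e2.2, e3.1, e3.2]
      rcases not_and_or.1 o with o | o
      · refine (z.add_p Q).congr fun k hk => ?_
        rw [pv_hl hw h'.rg hk]
        obtain ⟨j, _ | _⟩ := k <;> obtain ⟨u, v⟩ := mem_hs.1 hk <;>
          simp only [hl, cond, ot, pP, Pi.zero_apply, zero_add] <;>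
          rw [Finset.filter_true_of_mem fun i hi => by have := Finset.mem_Icc.1 hi; omega, sum_dt h0]
      · refine z.congr ?_
        rintro ⟨j, _ | _⟩ hk <;> obtain ⟨u, v⟩ := mem_hs.1 hk <;>
          simp only [hl, cond, ot, Pi.zero_apply] <;>
          exact (Finset.sum_eq_zero fun i hi => by simp only [Finset.mem_filter, Finset.mem_Icc] at hi; omega).symm
  · rw [← neg_one_smul ℝ (psh _ φ), ip_smul_right, hφ.cs.ip_psh _ (s1.trans (cB_src R h.rg)) (ori_O R) H.ori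
      fun p hp => cB_same R h.rg p (s1 hp), hφ.ip _ _ (cl_pB h.rg a) (b x y h), neg_one_mul, prs]
    congr 2
    refine Finset.sum_congr rfl fun k hk => congrArg _ ?_
    rcases (Finset.mem_Icc.1 hk).1.eq_or_lt with rfl | u
    · simp [wk, hl, yb]
    · simp [wk, hl, yb, u.ne', u.not_ge, (Finset.mem_Icc.1 hk).2]

theorem prs_bz (hw : w.OK) (h : w.Rg x y) (h1 : x ≤ s) (h2 : s < t) (h3 : t ≤ y) (g : Z2 → ℤ) :
    prs s t d (fun j => g (w.bz x y j)) = ∑ k ∈ Finset.Icc s t, d k * g (w.bw s t k) :=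
  Finset.sum_congr rfl fun k hk => by
    rw [h.bz_eq hw, h.bw_eq h1 h2 h3 (Finset.mem_Icc.1 hk).1 (Finset.mem_Icc.1 hk).2]

variable (R) in
/-- **tests in slabs** -/
theorem exists_test (h : w.Rg s t) (h0 : ∑ k ∈ Finset.Icc s t, d k * (w.bw s t k).2 = 0) :
    ∃ f, Tf R (X.τ ⁻¹' Icc ((s : ℝ) + 5 / 6) (t + 1 / 6)) s t d f := by
  obtain ⟨x, y, m, h1, h3⟩ := exists_mx h
  obtain ⟨φ, k, -⟩ := (saC C x y).exists_ts h1 h.lt h3 ((prs_bz hw m.rg h1 h.lt h3 Prod.snd).trans h0)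
  exact ⟨_, (tf_of m h1 h.lt h3 h0 subset_rfl k).mono
    (cB_img R m.rg ((Icc_subset_Ioo (by linarith) (by linarith)).trans (II_mono h1 h3))).le⟩

variable (R) in
/-- **tests in half discs** -/
theorem exists_test_disc (h : w.Rg s t) (h0 : ∑ k ∈ Finset.Icc s t, d k * (w.bw s t k).2 = 0)
    (h0' : ∑ k ∈ Finset.Icc s t, d k * (w.bw s t k).1 = 0) : ∃ f, Tf R (sd R (.sA s t) false) s t d f := by
  obtain ⟨x, y, m, h1, h3⟩ := exists_mx h
  obtain ⟨φ, k⟩ := (saC C x y).exists_ts' h1 h.lt h3 ((prs_bz hw m.rg h1 h.lt h3 Prod.snd).trans h0)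
    ((prs_bz hw m.rg h1 h.lt h3 Prod.fst).trans h0')
  exact ⟨_, (tf_of m h1 h.lt h3 h0 (fun _ hp => hp.2.1) k).mono
    ((image_mono (saC C x y).ov_disc).trans (cB_disc R m.rg h h1 h3).2.le)⟩

/-! ### numbers -/

/-- the local numbers of a vertex -/
def lv (u v : Z2) (x y x' y' : ℝ) : ℝ × ℝ × ℝ × ℝ :=
  (0, ((dt u v : ℝ) ^ 2 + (nn u v).sign) / 2, ((dt u v : ℝ) ^ 2 - (nn u v).sign) / 2, (2 * π) ^ 2 * lr u v x y x' y')

/-- at a point of the axis -/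
def vv (w : Shp Γ) (n n' : RW) (c : ℤ) : ℝ × ℝ × ℝ × ℝ :=
  lv (w.lf c) (w.rt c) (n.2 (c - 1)) (n.1 c) (n'.2 (c - 1)) (n'.1 c)

/-- at the virtual vertex of an arc -/
def av (w : Shp Γ) (n n' : RW) (a : Bs) : ℝ × ℝ × ℝ × ℝ :=
  lv (w.s a.lo).r.2 (w.s a.hi).l.2 (n.2 a.lo) (n.1 a.hi) (n'.2 a.lo) (n'.1 a.hi)

theorem sum_vv (hw : w.OK) (h : w.Rg x y) (h1 : x ≤ s) (h3 : t ≤ y) : ∑ c ∈ Finset.Ioc s t, vv w n n' c =
    (0, (nvr (w.bz x y) s t + sgr (w.bz x y) s t) / 2, (nvr (w.bz x y) s t - sgr (w.bz x y) s t) / 2,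
      (2 * π) ^ 2 * ∑ c ∈ Finset.Ioc s t, lr (w.bz x y (c - 1)) (w.bz x y c) (hl n (c - 1, true)) (hl n (c, false))
        (hl n' (c - 1, true)) (hl n' (c, false))) := by
  rw [Finset.sum_congr rfl fun c hc => show vv w n n' c = lv (w.bz x y (c - 1)) (w.bz x y c) (hl n (c - 1, true))
    (hl n (c, false)) (hl n' (c - 1, true)) (hl n' (c, false)) by
      have := Finset.mem_Ioc.1 hc
      rw [bz_r hw h (by omega) (by omega), bz_l hw h (by omega) (by omega)]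
      rfl]
  simp only [lv, nvr, sgr, Prod.ext_iff, Prod.fst_sum, Prod.snd_sum, Finset.sum_const_zero, ← Finset.sum_div,
    Finset.sum_add_distrib, Finset.sum_sub_distrib, Finset.mul_sum, and_self]

/-- **junction free windows** -/
theorem nu_rg (h : w.Rg s t) (p1 : (w.s s).r.2.2 ≠ 0) (p2 : (w.s t).l.2.2 ≠ 0) (hF : Cl X.P.I 2 univ F)
    (hF' : Cl X.P.I 2 univ F') (k : Ord R F n) (k' : Ord R F' n') :
    nu X.P.I (-R.O) F F' (X.τ ⁻¹' Ioo ((s : ℝ) + 1 / 2) (t + 1 / 2)) = ∑ c ∈ Finset.Ioc s t, vv w n n' c := by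
  obtain ⟨x, y, m, h1, h3⟩ := exists_mx h
  have := h.lt
  have u : Ioo ((s : ℝ) + 1 / 2) (t + 1 / 2) ⊆ II x y :=
    (Ioo_subset_Ioo (by linarith) (by linarith)).trans (II_mono h1 h3)
  obtain ⟨a, b⟩ := (saC C x y).nu_slab h1 h.lt h3 (bz_r hw m.rg h1 (by omega) ▸ p1) (bz_l hw m.rg (by omega) h3 ▸ p2)
    (hz_slot hw m.rg h1 (by omega) p1) (preimage_mono u)
  rw [← cB_img R m.rg u, a.nu_push _ ((preimage_mono u).trans (cB_src R m.rg)) (ori_O R)
    (fun p hp => cB_same R m.rg p (u hp)) (hF.mono (subset_univ _)) (hF'.mono (subset_univ _)),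
    b _ _ _ _ (cl_pB m.rg hF) (cl_pB m.rg hF') (k x y m) (k' x y m), sum_vv hw m.rg h1 h3]

/-- **half discs** -/
theorem nu_arc (h : (Bs.sA s t).OK w) (hF : Cl X.P.I 2 univ F) (hF' : Cl X.P.I 2 univ F') (k : Ord R F n)
    (k' : Ord R F' n') :
    nu X.P.I (-R.O) F F' (sd R (.sA s t) false) = ∑ c ∈ Finset.Ioc s t, vv w n n' c - av w n n' (.sA s t) := by
  obtain ⟨x, y, m, h1, h3⟩ := exists_mx h.1
  have := h.1.lt
  obtain ⟨u, e⟩ := cB_disc R m.rg h.1 h1 h3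
  have e1 := bz_r hw m.rg h1 (j := s) (by omega)
  have e2 := bz_l hw m.rg (j := t) (by omega) h3
  obtain ⟨a, b, -⟩ := (saC C x y).nu_disc h1 h.1.lt h3 (e1 ▸ e2 ▸ h.2) u
  rw [← e, a.nu_push _ (u.trans (cB_src R m.rg)) (ori_O R) (fun p hp => cB_same R m.rg p (u hp))
    (hF.mono (subset_univ _)) (hF'.mono (subset_univ _)),
    b _ _ _ _ (cl_pB m.rg hF) (cl_pB m.rg hF') (k x y m) (k' x y m), sum_vv hw m.rg h1 h3, e1, e2]
  simp only [av, lv, Bs.lo, Bs.hi, sq_uni h.2, Prod.mk_sub_mk, sub_zero, mul_sub]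
  rfl

/-- a form whose orders along a half disc are given by one character is exact there -/
theorem ex_disc (h : (Bs.sA s t).OK w) (hF : Cl X.P.I 2 univ F) (k : Ord R F n) {e : ℝ × ℝ}
    (he : ∀ j, s ≤ j → j ≤ t → yb n s t j = Ord99.ev e (w.bw s t j)) : Ex X.P.I (sd R (.sA s t) false) F := by
  obtain ⟨x, y, m, h1, h3⟩ := exists_mx h.1
  have := h.1.lt
  obtain ⟨u, e'⟩ := cB_disc R m.rg h.1 h1 h3
  obtain ⟨a, -, b⟩ := (saC C x y).nu_disc h1 h.1.lt h3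
    (bz_r hw m.rg h1 (j := s) (by omega) ▸ bz_l hw m.rg (j := t) (by omega) h3 ▸ h.2) u
  refine e' ▸ ex_pd _ a.op (u.trans (cB_src R m.rg)) (b _ _ e (cl_pB m.rg hF) (k x y m) fun j j1 j2 => ?_)
  rw [m.rg.bz_eq hw, ← m.rg.bw_eq h1 h.1.lt h3 j1 j2]
  refine Eq.trans ?_ (he j j1 j2)
  rcases j1.eq_or_lt with rfl | u
  · simp [wk, hl, yb]
  · simp [wk, hl, yb, u.ne', u.not_ge, j2]

end Crest.Agent.X212.Dr59
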